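import Vale.Agent.P270H.Defs
import Vale.Agent.P285T.Cb.Fk0
import Vale.Agent.P285S.Tp.Blu
import Vale.Agent.P285S.Tp.Thr
import Vale.Agent.P285S.Tp.Nfp

/-!
# P270H, rows CNN and FK0
-/

open Set Filter Function
open Vale.Agent.P272.K Vale.Agent.P285.H281.FD Vale.Agent.P281Z Vale.Agent.P280Z
open Vale.Agent.P277Z.Slc (isLB_can)
open Vale.Agent.P277.HD (pull)
open Vale.Agent.P285N.D.One (om flat_inv)

noncomputable section

namespace Vale.Agent.P270H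

/-- row CNN -/
theorem cnn47 (hU : FPU) : CNN := by
  intro d T _ κ ι _ A m N L M g
  have := g.ok.conn
  have hZ := snc_thin_off g.ok.snc
  obtain ⟨I, hI, -⟩ := Rs.idl d A.Z _ hZ.1
  rw [← hI] at hZ
  obtain ⟨R⟩ := Rs.res d d A.Z univ I an_univ
    (subM_open (by rw [← compl_eq_univ_sdiff]; exact hZ.closed.isOpen_compl))
  have h1 : Modif d R.π _ := ⟨hZ, R.ovr⟩
  have hπ := h1.hol
  have pY := R.prj g.ok.prj
  have k : ∀ y ∈ off R.G, R.π y ∉ I.Z := fun y hy k => ((R.bad y).1 k).elim hy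
  have ko : ∀ y ∈ off R.G, R.π y ∈ off A.G := fun y hy => not_not.1 fun c => k y hy (hI ▸ c)
  obtain ⟨m', Ω, k1, kb, kn⟩ := P285S.Tp.blow g.ok h1 pY R.snc R.conn fun y hy => ⟨k y hy, ko y hy⟩
  have e : cls d ((pull R.π A.P).pow 1) = hπ.pic (cls d A.P) := by
    rw [cls_pow (hπ.lb g.ok.lb), one_smul, cls_pull hπ g.ok.lb]
  refine ⟨_, inferInstance, _, m', R.π, _, h1, ⟨⟨k1, fun l => (k1.le l).lt_of_ne fun e => ?_,
    hπ.lb g.lb, P285S.Tp.nf_comp hπ g.ok.prj g.lb g.nef, hπ.lb g.lbM,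
    P285S.Tp.nf_comp hπ g.ok.prj g.lbM g.nfM, ?_⟩, ?_, ?_⟩, R.conn⟩
  · obtain ⟨y, hy⟩ := (R.conn l).nonempty
    obtain ⟨j, j1, -⟩ := kb l e y hy
    exact (g.klt j).ne j1
  · refine (cls_pull hπ g.lb).trans (Eq.trans ?_ (congrArg₂ _ e (cls_pull hπ g.lbM)).symm)
    rw [g.cl, map_add]
  · obtain ⟨h, hh⟩ := g.ps
    refine ⟨hπ.pic h, fun i => (hh i).imp fun j hj => ⟨hj.1, ?_⟩⟩
    have z := P285S.Tp.ef_pull h1 hj.2
    rw [map_nsmul, map_add, map_nsmul, ← e] at z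
    exact z
  · exact hU d κ ι (Fin R.r) ι A (P285N.Tp.LR.mk R.V R.π R.G m' N 1 Ω : P285N.Tp.LR A.Z A.P _).A
      m m' R.π _ L ⟨g.ok.conn, g.ok.prj⟩ pY g.ok.snc R.snc h1 g.lb
      (fun y hy => ⟨ko y hy, h1.imm (k y hy)⟩) kn g.bp

/-- row FK0 -/
theorem fk047 (h0 : P285N.D.D0) : FK0 := fun T hT hF w e _ _ M U _ _ hU hm hN => by
  have hM := hU.fb
  have := hM.conn
  have hf := hM.fibn.hol
  have hG := Hyp.of_snc hM.snc
  have hP : IsLB _ U.P := hU.ok.lb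
  have hK := isLB_can (n := w + (e + 1)) (W := M.X.X)
  have hL := lb_zp hP (-1)
  have h1 := lb_mul (lb_pow hK U.N) hL
  have hs := P285T.Cb.Fk0H.sec hU.ok
  obtain ⟨Q, q1, q2⟩ := genS _ w M.X M.Y M.f _ M.G hf hM.snc
  obtain ⟨x, hx⟩ := hG.dense.nonempty
  obtain ⟨x, x1, x2⟩ := ((hN.union q1.neg).pre fun B hB => hB.pre_surj hf hM.fibn.surj).dense
    |>.exists_mem_open hG.isOpen ⟨x, hx⟩
  have hr := q2 _ fun c => x1 (.inr c)
  obtain ⟨F, i, hi, hS⟩ := hr.fib (d := e + 1) rfl hf hM.snc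
  obtain ⟨z, rfl⟩ := hi.ex (rfl : x ∈ M.f ⁻¹' {M.f x})
  have h2 := hi.hol.lb h1
  have h3 := hi.hol.lb hK
  have h4 := hi.hol.lb hP
  have kF := hi.kah hU.ok.prj.kah
  have hc : T.c1 F (pull i U.P) = 0 := by
    have k := congrArg (T.pull hi.hol) hU.cE
    rw [← hT.rg.pull_comp hi.hol hf (hf.comp hi.hol) fun _ => rfl,
      P285W.J.CutsH.pull_const hT _ (fun a b => (hi.fib a).trans (hi.fib b).symm) (hT.c1.deg _ _),
      map_smul, ← hT.c1.pull hi.hol _ hP] at k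
    exact (smul_eq_zero.1 k.symm).resolve_left (by exact_mod_cast hU.cp.ne')
  have h5 := lb_mul (lb_pow (isLB_can (n := e + 1) (W := F.X)) U.N) (lb_zp h4 (-1))
  refine x1 (.inl ⟨F, i, hi, (hr.kapL hf hM.snc hi).2 (h0 (e + 1) F M.κ (fun l => i ⁻¹' M.G l) M.δ
    (zp (pull i U.P) (-1)) U.N (hi.conn.2 (hM.fibn.conn_all _)) kF hS hM.bdry (lb_zp h4 _)
    (flat_inv ((hF F _ kF h4).1 hc)) hU.ok.pos ((hr.kapL hf hM.snc hi).1 (Sy.kapL hG hi.hol.cont h5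
      h2 ((sy_zero h2).2 ⟨_, hs.comp hi.hol, z, x2, fun a ha =>
        ((om hU.ok ha.1 ha.2).2.2 x2).2⟩) one_pos ?_ fun l => ?_)))⟩)
  · rw [one_nsmul, cls_mul (lb_pow isLB_can _) (lb_zp h4 _), cls_pow isLB_can,
      (cls_eq isLB_can h3).2 (adj_iso hi hf fun _ => hr.sbm hf hM.snc), ← cls_pow h3]
    exact cls_mul (lb_pow h3 U.N) (lb_zp h4 _)
  · rw [Nat.cast_one, one_mul]
    exact_mod_cast hm l

end Vale.Agent.P270H
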