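import Vale.Agent.P270H.Defs
import Vale.Agent.P285T.Cb.Crp

/-!
# P270H: the crepant pair on a log model
-/

open scoped Manifold ContDiff Topology
open Set Filter
open Vale.Agent.P272.K Vale.Agent.P285.H281.FD Vale.Agent.P281Z Vale.Agent.P280Z
open Vale.Agent.P277.HD (pull)
open Vale.Agent.P285T.Cb (Ud)

noncomputable section

namespace Vale.Agent.P270H

/-- **CRP** -/
theorem crp : CRP := by
  intro T hT _ w e V Q M U C E hU M₁ u v h1 h2 pX pY hc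
  classical
  obtain ⟨B, hu⟩ := h2.mu
  obtain ⟨B', hv⟩ := h2.mv
  obtain ⟨S, hπ⟩ := hU.md
  have lP : IsLB _ U.P := hU.ok.lb
  have lL : IsLB _ Q.L := hU.q.bir.res.lbL
  obtain ⟨m₁, Ω, k1, k2, k3⟩ := P285T.Cb.blw hU.ok hu pX h1.snc hc fun y hy =>
    ⟨not_not.1 fun c => (h2.log.exc y c).elim fun l a => hy l a.2, h2.log.sub y hy⟩
  let U₁ : Ud Q M₁ := ⟨fun x => U.π (u x), (pull u U.P).pow 1, Ω, m₁, U.N, U.k, U.c, pull v U.D⟩
  have e1 : ∀ l, (∀ x ∈ M₁.G l, ¬ Imm _ _ u x) → U₁.Ex l := fun l a y hy =>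
    .inl fun c => a y hy (.of_comp (hπ.hol.at _) (hu.hol.at _) c)
  have e2 : ∀ l k, (∀ x ∈ M₁.G l, u x ∈ M.G k) → U.Ex k → U₁.Ex l := fun l k a b y hy =>
    (b _ (a y hy)).imp_left fun c d =>
      c (imm_iff_sbm.2 (.of_comp (hπ.hol.at _) (hu.hol.at _) (imm_iff_sbm.1 d)))
  have e3 : ∀ l, ¬ U₁.Ex l → 0 ≤ m₁ l ∧ ∀ k, (∀ x ∈ M₁.G l, u x ∈ M.G k) → U.m k ≤ m₁ l := by
    intro l hl
    obtain ⟨a, g, g1, g2, g3⟩ := k3 l
    obtain rfl : a = 0 := not_not.1 fun c => hl (e1 l (g2 c))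
    have g4 : ∀ k, g k ≠ 0 → 0 ≤ U.m k := fun k c =>
      not_lt.1 fun d => hl (e2 l k ((g3 k).1 c) (hU.neg k d))
    have g5 : ∀ k ∈ Finset.univ, 0 ≤ U.m k * g k := fun k _ => by
      by_cases c : g k = 0
      · rw [c, Nat.cast_zero, mul_zero]
      · exact mul_nonneg (g4 k c) (Int.natCast_nonneg _)
    rw [g1, Nat.cast_zero, mul_zero, sub_zero]
    refine ⟨Finset.sum_nonneg g5, fun k c => le_trans ?_
      (Finset.single_le_sum g5 (Finset.mem_univ k))⟩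
    have g6 := (g3 k).2 c
    exact le_mul_of_one_le_right (g4 k g6) (by omega)
  have e4 := hT.c1.pull hv.hol _ hU.lbD
  have e5 := hT.c1.pull hv.hol _ hU.lbE
  have e6 : ∀ a, T.pull h1.fibn.hol (T.pull hv.hol a) =
      T.pull hu.hol (T.pull hU.fb.fibn.hol a) := fun a => by
    rw [← hT.rg.pull_comp h1.fibn.hol hv.hol (hv.hol.comp h1.fibn.hol) fun _ => rfl]
    exact hT.rg.pull_comp hu.hol hU.fb.fibn.hol _ (fun x => (h2.comm x).symm) _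
  refine ⟨U₁, pull v E, ⟨hU.q, h1, k1, fun l => (k1.le l).lt_of_ne fun c => ?_, hc,
    ⟨_, hπ.comp rem hu⟩, hU.kp, hU.lbC, ?_, fun l c => by_contra fun d => (e3 l d).1.not_gt c,
    fun l => or_iff_not_imp_left.2 fun d => ?_, pY, hv.hol.lb hU.lbD,
    P285S.Tp.nf_comp hv.hol hU.prj hU.lbD hU.nfD, hU.cp, ?_, ?_, hv.hol.lb hU.lbE, ?_, ?_⟩, e1⟩
  · obtain ⟨y, hy⟩ := (hc l).nonempty
    obtain ⟨k, a, -⟩ := k2 l c y hy
    exact (hU.klt k).ne a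
  · show cls _ ((pull u U.P).pow 1) = U.k • cls _ (pull u (pull U.π C))
    rw [cls_pow (hu.hol.lb lP), one_smul, cls_pull hu.hol lP, cls_pull hu.hol (hπ.hol.lb hU.lbC),
      hU.cl, map_nsmul]
  · rcases Nt.genc _ _ _ u _ _ _ _ _ _ hu.hol hU.fb.snc h1.snc hc h2.log l with
      ⟨a, -⟩ | ⟨-, ⟨-, a⟩ | ⟨k, a, b⟩⟩
    · exact absurd (e1 l a) d
    · rw [a, mul_zero]
      exact_mod_cast (e3 l d).1
    · rw [b]
      exact ((hU.del k).resolve_left fun c => d (e2 l k a c)).trans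
        (by exact_mod_cast (e3 l d).2 k a)
  · show T.pull h1.fibn.hol (T.c1 _ (pull v U.D)) = (U.c : ℝ) • T.c1 _ (pull u (uL U))
    rw [e4, e6, hU.cD, map_smul, hT.c1.pull hu.hol _ (lb_pow (hπ.hol.lb lL) _)]
  · show Neg w (P285W.J.Tr T _ (T.c1 _ (pull v U.D)))
    rw [e4]
    exact P270G.nuu.tr T hT w _ _ v _ hv _ hU.ntb
  · show T.pull h1.fibn.hol (T.c1 _ (pull v E)) = (U.c : ℝ) • T.c1 _ ((pull u U.P).pow 1)
    rw [e5, e6, hU.cE, map_smul, hT.c1.pow _ _ _ (hu.hol.lb lP), Nat.cast_one, one_smul,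
      hT.c1.pull hu.hol _ lP]
  · show P285W.J.Nf T _ (T.c1 _ (pull v U.D) - T.c1 _ (pull v E))
    rw [e4, e5, ← map_sub]
    obtain ⟨a, a1, a2⟩ := hU.nfE
    exact ⟨_, P285W.J.nn_pull hT hv.hol a1, fun ε h => by
      simpa only [map_add, map_smul] using P285W.J.nn_pull hT hv.hol (a2 ε h)⟩

end Vale.Agent.P270H
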