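import Vale.Agent.P270H.Defs
import Vale.Agent.P270F.Mg.Mm2
import Vale.Agent.P285S.Mp.Nvso
import Vale.Agent.P285S.Tp.Four

/-!
# P270H, row CTR: the negative components are contracted
-/

open Set
open Vale.Agent.P272.K Vale.Agent.P285.H281.FD Vale.Agent.P281Z Vale.Agent.P280Z
open Vale.Agent.P277Z.Slc (lin)
open Vale.Agent.P277.HD (pull)
open Vale.Agent.P285N Vale.Agent.P285S
open Vale.Agent.P285S.Mm.Gp (In)
open Vale.Agent.P285S.Mm.Ps.Nvso (eff_iff cls_mon)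

namespace Vale.Agent.P270H

theorem ctr_of (hZ : P270F.Mg.ZC) (hP : PH0) : CTR := by
  classical
  intro d hd T _ κ ι _ A m N L M h cn he
  have hA := h.ok
  choose O σ hO using fun l => P277Z.Slc.stDiv d A.Z.X (A.G l) fun y =>
    (hA.snc y).elim fun ζ k => ⟨ζ l, k.1 l⟩
  have lP := lb_lin (fun l => (hO l).lb) fun l => (((-m l).toNat : ℕ) : ℤ)
  have cP := cls_mon hO fun l => (-m l).toNat
  have c1 := cls_mul hA.lb lP
  have hm : ∀ l, m l + ((-m l).toNat : ℕ) < N := fun l => by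
    have := h.klt l
    have := hA.pos
    omega
  obtain ⟨Ω, h2⟩ := Mm.mkpr d κ A.Z A.G O σ _ (fun l => m l + ((-m l).toNat : ℕ)) N hA.conn
    hA.prj hA.snc hO (lb_mul hA.lb lP) hA.pos hA.even (fun l => (hm l).le) (by
      rw [c1, cP, Xc.cls_eq d κ ι m N A O σ hA hO]
      simp only [add_smul, Finset.sum_add_distrib, natCast_zsmul, add_assoc])
  have cQ := cls_mul lP h.lb
  have hI : In ⟨A.Z, A.G, _, _, Ω⟩ _ _ O σ (fun l => (-m l).toNat) 1 L
      ((lin O fun l => (((-m l).toNat : ℕ) : ℤ)).mul L) :=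
    ⟨h2, fun l => by omega, hO, h.lb, h.nef, one_pos, by rw [one_smul, cQ, cP, add_comm],
      lb_mul lP h.lb, M, h.lbM, h.nfM, cQ.trans (by
        rw [h.cl, ← add_assoc, add_comm _ (cls d A.P)]
        exact congrArg (· + _) c1.symm)⟩
  obtain ⟨H, lH, pH⟩ := id hA.prj
  obtain ⟨R, Ψ, ok, zd, gr, cn'⟩ := hZ d hd κ _ _ _ _ _ _ _ 1 _ _ hI cn H lH pH
  have f0 := hP d κ _ _ _ _ _ _ _ 1 _ _ hI R H Ψ rfl lH ok zd cn' (by
    obtain ⟨H', C, a, b, c⟩ := h.bp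
    refine ⟨H', C, a, b, fun k i n W s k1 k2 k3 => ?_⟩
    simpa only [Xc.PolW, neg_neg, Int.toNat_natCast] using c k i n W s k1 k2
      (by simpa only [Xc.PolW, neg_neg, Int.toNat_natCast] using k3))
  obtain ⟨Λ, H', l1, l2, l3, l4, l5, l6⟩ := gr.rig
  obtain ⟨H₀, g, -⟩ := gr.gd
  have hπ := ok.md.hol
  have lM := hπ.lb h.lbM
  have eQ : cls d R.Q = R.δ • cls d (pull R.π L) := by simpa [f0] using ok.eff
  have eM : cls d R.Q = cls d R.B.P + cls d ((pull R.π M).pow R.δ) := by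
    rw [ok.clQ, ok.cl, cls_pow lM, cls_pull hπ hI.lbQ, (cls_pull hπ h2.lb).trans (congrArg _ c1),
      cls_pull hπ h.lbM, cQ, h.cl]
    simp only [map_add, smul_add]
    abel
  have := ok.ok.conn
  refine ⟨R.κ', R.ι', inferInstance, R.B, R.m, R.N, R.π, _, R.Q, _, Λ, R.δ, ok.md,
    ⟨⟨ok.ok, fun l => (ok.ok.le l).lt_of_ne fun e => ?_, ok.lbQ,
      Tp.nf_of g.lbH g.lbL fun i M hM e => g.pos i 0 M hM (by simpa using e), lb_pow lM _,
      Tp.F4.nf_pw lM (Tp.nf_comp hπ hA.prj h.lbM h.nfM) _, eM⟩, cn', ?_,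
      ⟨l1, l2, H', l3, l4, l5⟩, fun k i W s k1 k2 ⟨j, k3⟩ => l6 k i W s k1 k2
        ⟨j, k3.mono continuous_id fun l => ?_⟩⟩, ok.pos, eQ⟩
  · obtain ⟨y, hy⟩ := (cn' l).nonempty
    obtain ⟨k, k1, -⟩ := ok.up l e y hy
    exact (hm k).ne k1
  · obtain ⟨a, a0, ha⟩ := (eff_iff hA.lb).1 he
    refine (eff_iff ok.ok.lb).2 ⟨a, a0, ?_⟩
    rw [eQ, cls_pow lM, cls_pull hπ h.lb, cls_pull hπ h.lbM, h.cl, map_add, smul_add,
      add_left_inj] at eM
    rw [← eM, smul_comm, ← map_nsmul]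
    exact Tp.ef_smul (Tp.ef_pull ok.md ha) _
  · have := ok.neg l
    split_ifs with a b
    exacts [le_rfl, (b (show -(R.Φ l : ℤ) < 0 by omega)).elim, Nat.cast_nonneg _, le_rfl]

end Vale.Agent.P270H
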