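import Vale.Agent.P270H.Defs
import Vale.Agent.P270G.Dn0
import Vale.Agent.P270G.Contr
import Vale.Agent.P285S.Tp.Blu

/-!
# P270H, row DNG: the data above a given model
-/

open Set Filter
open Vale.Agent.P272.K Vale.Agent.P285.H281.FD Vale.Agent.P281Z Vale.Agent.P280Z
open Vale.Agent.P277Z.Slc (IsDiv lin triv isLB_triv)
open Vale.Agent.P277.HD (pull)
open Vale.Agent.P285N Vale.Agent.P285N.Tp Vale.Agent.P285N.Tp.Lr
open Vale.Agent.P285W Vale.Agent.P285S.Ca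
open Vale.Agent.P270G

noncomputable section

namespace Vale.Agent.P270H

/-- row DNG -/
theorem dng47 (hN' : NZU) : DNG := by
  intro d T hT κ ι _ A m N L M Λ ν V' e S g hν hN he pV'
  have := g.ok.conn
  have := he.conn
  have lP := g.ok.lb
  obtain ⟨a, a0, u, u1, u2⟩ := g.eff
  have lC := lb_pow lP a
  have hC := (he.thin.union (snc_thin_off g.ok.snc)).union (EfH.thin_nz lC u1 (GdfH.nz lC u1 u2))
  have hB := he.pre_thin hC
  obtain ⟨I, hI, -⟩ := Rs.idl (d + 1) V' _ hB.1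
  rw [← hI] at hB
  obtain ⟨R⟩ := Rs.res (d + 1) (d + 1) V' univ I an_univ
    (subM_open (by rw [← compl_eq_univ_sdiff]; exact hB.closed.isOpen_compl))
  have h1 : Modif (d + 1) R.π _ := ⟨hB, R.ovr⟩
  have hM := he.comp rem h1
  have hπ := hM.hol
  have ho : ∀ y ∈ off R.G, R.π y ∉ I.Z := fun y hy k => ((R.bad y).1 k).elim hy
  have pY := R.prj pV'
  have cY := hM.conn
  obtain ⟨m₁, Ω, k1, kb, kn⟩ := P285S.Tp.blow g.ok hM pY R.snc R.conn fun y hy =>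
    ⟨fun c => ho y hy (c.elim (fun c => hI ▸ .inl (.inl c)) fun ⟨z, z1, z2⟩ => by
        rw [hI] at z1 ⊢
        exact mem_preimage.2 (z2 ▸ mem_preimage.1 z1)),
      not_not.1 fun c => ho y hy (hI ▸ .inl (.inr c))⟩
  have k2 : ∀ l, m₁ l < N := fun l => (k1.le l).lt_of_ne fun e => by
    obtain ⟨y, hy⟩ := (R.conn l).nonempty
    obtain ⟨k, k3, -⟩ := kb l e y hy
    exact (g.klt k).ne k3
  have t1 : ∀ y ∈ off R.G, NZ (A.P.pow a) u (e (R.π y)) := fun y hy =>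
    not_not.1 fun c => ho y hy (hI ▸ .inr c)
  obtain ⟨f, hf⟩ := ordu _ R.V _ R.G _ _ R.snc R.conn (hπ.lb lC) (hπ.sec u1) t1
  have hy := Hyp.of_snc R.snc
  obtain ⟨O, σ, hO⟩ := hy.exists_div
  have lO := fun l => (hO l).lb
  have c1 : cls (d + 1) ((pull (fun x => e (R.π x)) A.P).pow a) = ∑ l, (f l : ℤ) • cls _ (O l) :=
    (P285S.Mm.RefH.cls_unit hy.dense (hπ.lb lC) (lb_lin lO _) (hπ.sec u1)
      (sec_mon (fun l => (hO l).sec) f) (fun _ _ hb k => mon_ne hO f hb fun l _ => k l)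
      fun a b x ha hb => hf a x ha _ fun l => (hO l).leq _ x (hb l)).trans (cls_lin lO _)
  have c2 := (cls_pow (hπ.lb lP) 1).symm.trans (Xc.cls_eq _ _ _ m₁ _ _ O σ k1 hO)
  rw [cls_pow (hπ.lb lP)] at c1
  have lt : ∀ l, a * m₁ l - f l < (a * N : ℕ) := fun l => by
    have := mul_lt_mul_of_pos_left (k2 l) (Int.natCast_pos.2 a0)
    push_cast at this ⊢
    linarith [Int.natCast_nonneg (f l)]
  obtain ⟨Ω', ok⟩ := P285S.Mm.mkpr _ _ R.V R.G O σ (triv _) (fun l => a * m₁ l - f l)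
    (a * N) cY pY R.snc hO isLB_triv (mul_pos a0 k1.pos) (k1.even.mul_left a)
    (fun l => (lt l).le) (by
      simp only [cls_triv, sub_smul, mul_smul, Finset.sum_sub_distrib, ← Finset.smul_sum]
      rw [← c1, natCast_zsmul, ← add_sub_assoc, ← smul_add, ← c2]
      module)
  have cw : Cw _ _ _ := ⟨ok, lt, R.conn, 1, one_pos, (one_smul _ _).trans cls_triv⟩
  obtain ⟨k, -, hΛ⟩ := fbu _ _ _ _ _ Λ cY pY hM g.fb
  have lL := hπ.lb g.lb
  have fL := P285S.Tp.nf_comp hπ g.ok.prj g.lb g.nef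
  have nL := J.nf_of hT g.ok.prj g.lb g.nef
  have nu : P285S.B2.Nu T R.V (T.c1 R.V (pull (fun x => e (R.π x)) L)) ν :=
    hT.c1.pull hπ _ g.lb ▸ nuu.nu T hT _ ν A.Z R.V _ _ hM _ ⟨g.ok.conn, g.ok.prj⟩ pY nL hN
  refine ⟨_, _, inferInstance, _, _, _, R.π, _, _, h1, cw, lL, fL, nu, hΛ, fun l hl => ?_⟩
  by_cases h : m₁ l < 0
  · intro D s hD
    have z1 := (nL.mn.pow ν).mul ((J.bf_nf hT ⟨_, g.fb.lb, g.fb.bpf, rfl⟩).mn.pow (d - ν))
    have z2 : T.Dg A.Z d (T.c1 A.Z L ^ ν * T.c1 A.Z Λ ^ (d - ν)) := by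
      have z3 := J.dg_mul hT (J.dg_pow hT (hT.c1.deg A.Z L) ν)
        (J.dg_pow hT (hT.c1.deg A.Z Λ) (d - ν))
      rwa [Nat.add_sub_cancel' hν] at z3
    have k3 := hN' d T hT _ _ A m N R.V _ _ hM _ D s g.ok pY z1 z2 hD.lb hD.sec
      ((P277Z.Slc.Dv.dense_compl hD.ex).mono fun y k a ha => mt (hD.leq a y ha).mem.1 k)
      fun y hy => by
        obtain ⟨b, hb⟩ := hD.lb.cover y
        refine (kn l h y ((hD.leq b y hb).mem.1 ((Ld.not_nz hD.lb hD.sec hb).1 hy))).imp_right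
          fun ⟨j, j1, j2⟩ => ⟨j, ?_, j2⟩
        rw [mul_comm]
        exact rgn d T hT _ _ A m N m Λ L j (d - ν) ν g.ok g.fb g.lb g.nef g.rig j1 (by omega)
    change T.int R.V (T.c1 R.V D * (T.c1 R.V (pull (fun x => e (R.π x)) L) ^ ν *
      T.c1 R.V ((pull (fun x => e (R.π x)) Λ).pow k) ^ (d - ν))) = 0
    rw [map_mul (T.pull _), map_pow (T.pull _), map_pow (T.pull _)] at k3
    rw [hT.c1.pow _ _ _ (hπ.lb g.fb.lb), hT.c1.pull hπ _ g.lb, hT.c1.pull hπ _ g.fb.lb, smul_pow,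
      mul_smul_comm, mul_smul_comm, map_smul, k3, smul_zero]
  have mΛ := (J.bf_nf hT ⟨_, hΛ.lb, hΛ.bpf, rfl⟩).mn.pow (d - ν)
  have m2 := ((J.nf_of hT pY lL fL).mn.pow ν).mul mΛ
  have k3 := nu.2 _ mΛ
  rw [pow_succ', mul_assoc] at k3
  obtain ⟨y, y1, y2⟩ := gen _ R.V _ R.G l R.snc (R.conn l).nonempty
  obtain ⟨j, j1, j2⟩ := znl _ T hT _ _ _ _ _ _ _ _ cw (hπ.lb lC) (hπ.sec u1) t1 m2 (by
    have k4 := J.ef_int hT ⟨_, _, hπ.lb lC, hπ.sec u1, hy.dense.mono t1, rfl⟩ m2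
    have k5 := J.mn_int hT ((J.nf_pull hT hπ (J.nf_of hT g.ok.prj g.lbM g.nfM)).mn.mul m2)
    have k6 : T.c1 A.Z L = T.c1 A.Z A.P + T.c1 A.Z M := by
      obtain ⟨v, hv⟩ := (cls_eq g.lb (lb_mul lP g.lbM)).1 (g.cl.trans (cls_mul lP g.lbM).symm)
      exact ((Ld.iso A.Z _ _ v g.lb (lb_mul lP g.lbM) hv).1 T hT.c1).trans
        (hT.c1.mul _ _ _ lP g.lbM)
    generalize (_ ^ ν * _ : T.H R.V) = z at k3 k4 k5 ⊢
    rw [hT.c1.pull hπ _ g.lb, k6, map_add, add_mul, map_add] at k3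
    rw [hT.c1.pull hπ _ lC, hT.c1.pow A.Z _ _ lP, map_smul, smul_mul_assoc, map_smul,
      smul_eq_mul] at k4 ⊢
    nlinarith [mul_nonneg a.cast_nonneg k5]) y fun hz => by
      obtain ⟨b, hb⟩ := lC.cover (e (R.π y))
      obtain ⟨ζ, hζ, -⟩ := R.snc y
      obtain ⟨v, -, -, v3⟩ := hf b y hb ζ hζ
      refine hz b hb (v3.self_of_nhds.trans (mul_eq_zero_of_right _
        (Finset.prod_eq_zero (Finset.mem_univ l) ?_)))
      rw [(hζ l).mem.2 y1, zero_pow]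
      rintro h0
      have := mul_nonneg (Int.natCast_nonneg a) (not_lt.1 h)
      simp only [h0] at hl
      omega
  obtain rfl : j = l := by_contra fun c => y2 j c j2
  exact j1

end Vale.Agent.P270H
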