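import Vale.Agent.P270H.Defs
import Vale.Agent.P270G.Rfk

/-!
# P270H: the nef part descends too (row DS2)
-/

open scoped Manifold ContDiff Topology
open Set Filter Function
open Vale.Agent.P272.K Vale.Agent.P285.H281.FD Vale.Agent.P281Z Vale.Agent.P280Z
open Vale.Agent.P277.HD (pull)
open Vale.Agent.P285N Vale.Agent.P285W Vale.Agent.P285W.J Vale.Agent.P285W.Bs
open Vale.Agent.P285W.Bs.DescX

noncomputable section

namespace Vale.Agent.P270H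

namespace Ds2H

/-- the descent, above the given fibration -/
theorem dsc {T : CT} (hT : T.OK) {n b d : ℕ} {Y : Mf n} {L A : Bd Y.X}
    (F : Tf T Y (T.c1 Y L) n b) {S : Set Y.X} (hn : n = b + d) (hd : 0 < d) (lL : IsLB n L)
    (lA : IsLB n A) (hpos : ∀ k : ℕ, Pos n ((L.pow k).mul A)) (hS : Modif n F.e S) :
    ∃ (M : Mf n) (B : Mf b) (p : M.X → B.X) (u : M.X → F.V.X) (v : B.X → F.Z.X) (Q : Set F.Z.X)
      (D H : Bd B.X) (δ : ℕ) (S' : Set Y.X) (fM : Fq n b p (v ⁻¹' Q)) (hu : HolM n n u),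
      HolM b b v ∧ Cp M ∧ Cp B ∧ F.Q ⊆ Q ∧ Surjective u ∧ (∀ x, F.π (u x) = v (p x)) ∧
      Modif n (fun x => F.e (u x)) S' ∧ IsLB b D ∧ IsLB b H ∧
      (∀ k : ℕ, Pos b ((D.pow k).mul H)) ∧ 0 < δ ∧
      T.pull fM.hol (T.c1 B D) = (δ : ℝ) • T.pull hu (T.pull F.he (T.c1 Y L)) := by
  have h6 := eq12_of lam (crv0_of Ct.cuts negl)
  have sπ := DescX.surj F.fq
  have cV := F.cV.conn
  have cZ := F.cZ.conn
  obtain ⟨S', i, cS, hi, -, himm⟩ :=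
    msec T hT n b F.V F.Z F.π ∅ F.cV F.cZ F.fq.hol sπ neg_empty
  obtain ⟨H₀, l₀, p₀⟩ := cS.prj
  have hei : HolM b n fun x => F.e (i x) := F.he.comp hi
  obtain ⟨B, v, Q, D, H, δ, W, r, hr, y, hy, hQ, hv, pB, lD, lH, pD, hδ, cW, sr, com, cls⟩ :=
    Bs.norm T hT b S' F.Z (fun x => F.π (i x)) (pull _ L) ((pull _ A).mul H₀) F.Q cS F.cZ
      (F.fq.hol.comp hi) himm F.fq.thin (hei.lb lL) (lb_mul (hei.lb lA) l₀) fun k => by
        refine pos hT (hei.lb lL) (lb_mul (hei.lb lA) l₀) ?_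
        rw [hT.c1.mul _ _ _ (hei.lb lA) l₀, hT.c1.pull hei L lL, hT.c1.pull hei A lA, ← add_assoc,
          ← map_smul, ← map_add, add_comm]
        exact kc_add hT (hT.c1.pos _ _ l₀ p₀)
          (nn_pull hT hei (kc_nn hT (kc hT lL lA (hpos k))))
  have fq : Fq n b F.π Q := ⟨F.fq.hol, hv.thin, fun x hx => F.fq.sbm x fun c => hx (hQ c),
    fun t ht => F.fq.conn t fun c => ht (hQ c)⟩
  have cB : ConnectedSpace B.X := hv.conn
  obtain ⟨t₀, ht₀⟩ := hv.thin_pre.2.nonempty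
  obtain ⟨M, πM, eM, hM, pM⟩ :=
    fpm n b b n F.V F.Z B F.π v Q rfl fq.hol hv.hol fq.thin.an fq.sbm F.cV.prj pB
  obtain ⟨cM, fM, sM, -⟩ := fpc n b b n F.V F.Z B F.π v Q M πM eM hM fq hv.hol cB ⟨t₀, ht₀⟩
  have mM := fpb n b F.V F.Z B F.π v Q M πM eM hM fq.hol cV sπ hv
  have he' : HolM n n fun x => F.e (eM x) := F.he.comp hM.he
  have e1 : T.pull he' (T.c1 Y L) = T.pull hM.he (T.pull F.he (T.c1 Y L)) :=
    hT.rg.pull_comp hM.he F.he he' (fun _ => rfl) _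
  obtain ⟨N, πN, eN, hN, pN⟩ :=
    fpm n b b n M B W πM r (v ⁻¹' Q) rfl fM.hol hr fM.thin.an fM.sbm pM cW.prj
  obtain ⟨w₀, hw₀⟩ := sr t₀
  obtain ⟨cN, -, -, sN⟩ := fpc n b b n M B W πM r _ N πN eN hN fM hr cW.conn ⟨w₀, hw₀ ▸ ht₀⟩
  have hp : HolM n n fun x => eM (eN x) := hM.he.comp hN.he
  have key : ∀ k, T.pull hN.hπ (T.pull (hy k) (T.c1 S' (pull _ L))) =
      T.pull hN.he (T.pull he' (T.c1 Y L)) := fun k => by
    have hq : HolM n b fun x => y k (πN x) := (hy k).comp hN.hπ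
    have hp' : HolM n n fun x => i (y k (πN x)) := hi.comp hq
    have e2 := h6 T hT n n b d n Y L F N _ _ hp hp' hn hd lL (nef hT lL lA hpos) ⟨cN, pN⟩
      (fun x => by rw [hM.comm, hN.comm, com]) (by
        obtain ⟨z, hz⟩ := sM t₀
        obtain ⟨x, hx⟩ := sN cM sr z
        refine ⟨x, fun c => ht₀ ?_⟩
        rw [hM.comm, hx, hz] at c
        exact hQ c)
    rw [e1, ← hT.rg.pull_comp hN.he hM.he hp fun _ => rfl, e2,
      hT.rg.pull_comp hq hi hp' fun _ => rfl, hT.rg.pull_comp hN.hπ (hy k) hq fun _ => rfl,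
      hT.c1.pull hei L lL, hT.rg.pull_comp hi F.he hei fun _ => rfl]
  have e3 : T.pull fM.hol (T.c1 B D) = (δ : ℝ) • T.pull he' (T.c1 Y L) := by
    refine sub_eq_zero.1 (inj.inj T hT n n N M eN hN.he _ ⟨cN, pN⟩ ⟨cM, pM⟩ (sN cM sr) ?_)
    rw [map_sub, map_smul, ← hT.rg.pull_comp hN.he fM.hol (fM.hol.comp hN.he) fun _ => rfl,
      hT.rg.pull_comp hN.hπ hr (fM.hol.comp hN.he) hN.comm, cls, map_sum,
      Finset.sum_congr rfl fun k _ => key k, Finset.sum_const, Finset.card_univ, Fintype.card_fin,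
      Nat.cast_smul_eq_nsmul, sub_self]
  exact ⟨M, B, πM, eM, v, Q, D, H, δ, _, fM, hM.he, hv.hol, ⟨cM, pM⟩, ⟨cB, pB⟩, hQ, mM.surj,
    hM.comm, hS.comp rem mM, lD, lH, pD, hδ, e1 ▸ e3⟩

/-- the nef part is trivial on the fibres -/
theorem triv {T : CT} (hT : T.OK) {n b d : ℕ} {V : Mf n} {L C M : Bd V.X}
    (F : Tf T V (T.c1 V L) n b) {S : Set V.X} (e : n = b + d) (d0 : 0 < d) (cV : Cp V)
    (lC : IsLB n C) (hμ : Nf T V (T.c1 V M)) (hC : St.Psef n C)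
    (cl : T.c1 V L = T.c1 V C + T.c1 V M) (hS : Modif n F.e S) :
    ∀ t ∉ F.Q, Tv T F.V (T.pull F.he (T.c1 V M)) (F.π ⁻¹' {t}) := by
  have := cV.conn
  have := F.cZ.conn
  have := F.cV.conn
  obtain ⟨d, rfl⟩ := Nat.exists_eq_succ_of_ne_zero d0.ne'
  obtain ⟨H, lH, pH⟩ := id cV.prj
  choose j j0 s hs hz using hC H lH pH
  have lk := fun k => lb_pow (lb_mul (lb_pow lC k) lH) (j k)
  have th := fun k => let ⟨_, _, s1, s2⟩ := hz k
    Ps.thin_z (lk k) (hs k) (KodA.dense_nz (lk k) (hs k) s1 s2)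
  obtain ⟨t₀, ht⟩ := (F.fq.thin.neg.union (negf n b F.V F.Z F.π F.Q _ F.fq
    (Neg.iUnion fun k => hS.pre_neg (th k).neg)).1).dense.nonempty
  rw [mem_compl_iff, mem_union, not_or] at ht
  obtain ⟨x, hx, hx'⟩ := not_subset.1 ht.2
  obtain ⟨B, i, hi⟩ := fib_emb (d := d + 1) (y := t₀) e F.fq.hol
    fun x k => F.fq.sbm x (k ▸ ht.1)
  have cB : Cp B := ⟨hi.conn.2 (F.fq.conn t₀ ht.1), prj_of_imm hT hi.hol hi.imm F.cV.prj⟩
  have := cB.conn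
  obtain ⟨v, hv⟩ := (hT.po.kah B).1 (P285S.B2.kah_of hT cB.prj)
  have mv := (kc_nf hT hv).mn.pow d
  have hp := F.he.comp hi.hol
  have pc : ∀ y, T.pull hp y = T.pull hi.hol (T.pull F.he y) :=
    hT.rg.pull_comp hi.hol F.he hp fun _ => rfl
  have z1 : T.pull hp (T.c1 V L) = 0 := (pc _).trans (F.tv t₀ ht.1 _ B i hi.hol cB hi.rng.le)
  obtain ⟨y, rfl⟩ : x ∈ range i := hi.rng ▸ hx
  have z2 : ∀ k : ℕ, 0 ≤ k * T.int B (T.pull hp (T.c1 V C) * v ^ d) +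
      T.int B (T.pull hp (T.c1 V H) * v ^ d) := fun k => by
    have z := ef_int hT (ef_pull hT hp (lk k) (hs k)
      (Thin.pre_of_ex (th k).an hp ⟨y, fun c => hx' (mem_iUnion.2 ⟨k, c⟩)⟩).neg) mv
    rwa [hT.c1.pow V _ _ (lb_mul (lb_pow lC k) lH), hT.c1.mul V _ _ (lb_pow lC k) lH,
      hT.c1.pow V _ _ lC, map_smul, smul_mul_assoc, map_smul, smul_eq_mul,
      mul_nonneg_iff_of_pos_left (Nat.cast_pos.2 (j0 k)), map_add, map_smul, add_mul,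
      smul_mul_assoc, map_add, map_smul, smul_eq_mul] at z
  have z3 := congrArg (fun u => T.int B (T.pull hp u * v ^ d)) cl
  have z4 := mn_int hT ((nf_pull hT hp hμ).mn.mul mv)
  simp only [z1, map_zero, map_add, zero_mul, add_mul] at z3
  have z6 : 0 ≤ T.int B (T.pull hp (T.c1 V C) * v ^ d) := by
    by_contra c
    obtain ⟨k, hk⟩ := exists_nat_gt (T.int B (T.pull hp (T.c1 V H) * v ^ d) /
      -T.int B (T.pull hp (T.c1 V C) * v ^ d))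
    rw [div_lt_iff₀ (by linarith)] at hk
    linarith [z2 k]
  have z5 : T.pull hp (T.c1 V M) = 0 :=
    P270G.RfkH.nf_zero hT cB.conn hv (nf_pull hT hp hμ) (by linarith)
  exact prop_of cur2 lam T hT n b _ F.V F.Z F.π F.Q _ t₀ e d0 F.cV.prj F.cZ F.fq
    (nf_pull hT F.he hμ) ht.1 (hi.rng ▸ tvs.rng T hT _ n B F.V i hi.hol _ cB (by rw [← pc, z5]))

end Ds2H

open Ds2H

/-- **row DS2** -/
theorem ds2 : DS2 := by
  intro T hT n b d V L C M F D H δ e d0 cV lL lC lM _ nM hC cl hD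
  obtain ⟨S, hS⟩ := hD.md
  obtain ⟨A, lA, pA⟩ := id cV.prj
  obtain ⟨X, B, p, u, v, Q, D₁, H₁, δ₁, S', fM, hu, hv, cX, cB, hQ, su, com, md, l1, l2, l3, l4,
    l5⟩ := dsc hT ⟨F.V, F.Z, F.π, F.e, F.Q, F.cV, F.cZ, F.fq, F.he, F.surj,
      triv hT F e d0 cV lC (nf_of hT cV.prj lM nM) hC cl hS⟩ e d0 lM lA (nM A lA pA) hS
  have he' : HolM n n fun x => F.e (u x) := F.he.comp hu
  have e1 : ∀ z, T.pull he' z = T.pull hu (T.pull F.he z) :=
    hT.rg.pull_comp hu F.he he' fun _ => rfl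
  obtain ⟨H₀, l₀, p₀⟩ := cB.prj
  have lD := lb_pow hD.lD δ₁
  have lH := lb_mul (hv.lb hD.lH) l₀
  obtain ⟨q, hq, q1, q2, q3⟩ := scale hT (hv.lb lD) lH fun k => by
    refine pos hT (hv.lb lD) lH ?_
    rw [hT.c1.mul _ _ _ (hv.lb hD.lH) l₀, hT.c1.pull hv _ lD, hT.c1.pull hv _ hD.lH, ← add_assoc,
      ← map_smul, ← map_add, add_comm, hT.c1.pow _ _ _ hD.lD, smul_smul, ← Nat.cast_mul]
    exact kc_add hT (hT.c1.pos _ _ l₀ p₀)
      (nn_pull hT hv (kc_nn hT (kc hT hD.lD hD.lH (hD.pos _))))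
  refine ⟨⟨X, B, p, fun x => F.e (u x), v ⁻¹' Q, cX, cB, fM, he', F.surj.comp su,
    fun t ht => ?_⟩, _, _, D₁.pow (q * δ), q * (δ₁ * δ), ⟨⟨_, md⟩, lb_pow (hv.lb lD) q, lb_pow lH q,
    q1, q2, q3, Nat.mul_pos hq (Nat.mul_pos l4 hD.dpos), ?_⟩, lb_pow l1 _, ?_, ?_⟩
  · rw [e1]
    exact fun m U r hr cU h => tvs.pre T hT n n X F.V u hu _ _
      (F.tv (v t) fun c => ht (hQ c)) m U r hr cU
      (h.trans fun x hx => (com x).trans (congrArg v hx))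
  · change T.pull fM.hol (T.c1 B ((pull v (D.pow δ₁)).pow q)) =
      ((q * (δ₁ * δ) : ℕ) : ℝ) • (T.pull he' (T.c1 V L) : T.H X)
    rw [hT.c1.pow B _ q (hv.lb lD), hT.c1.pull hv _ lD, hT.c1.pow _ _ _ hD.lD, map_smul,
      ← hT.rg.pull_comp fM.hol hv (F.fq.hol.comp hu) com,
      hT.rg.pull_comp hu F.fq.hol (F.fq.hol.comp hu) fun _ => rfl, map_smul, hD.cls, map_smul,
      map_smul, e1, smul_smul, smul_smul, Nat.cast_mul, Nat.cast_mul, mul_assoc]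
  · change Nf T B (T.c1 B (D₁.pow (q * δ)))
    rw [hT.c1.pow B _ _ l1]
    exact nf_smul hT (Nat.cast_nonneg _) (nef hT l1 l2 l3)
  · change T.pull fM.hol (T.c1 B (D₁.pow (q * δ))) =
      ((q * (δ₁ * δ) : ℕ) : ℝ) • (T.pull he' (T.c1 V M) : T.H X)
    rw [hT.c1.pow B _ _ l1, map_smul, l5, e1, smul_smul, ← Nat.cast_mul, mul_assoc, mul_comm δ]

end Vale.Agent.P270H
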