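import Vale.Agent.P270H.Defs
import Vale.Agent.P270G.Hcg
import Vale.Agent.P285S.Mp.Nvso
import Vale.Agent.P285S.Mm.Mkpr

/-!
# P270H, row EFG: non vanishing
-/

open Set Filter
open Vale.Agent.P272.K Vale.Agent.P285.H281.FD Vale.Agent.P281Z Vale.Agent.P285N
open Vale.Agent.P277Z.Slc (lin)
open Vale.Agent.P285S Vale.Agent.P285S.Mm.Ps.Nvso
open Vale.Agent.P285S.Tp (ef_add ef_smul)

namespace Vale.Agent.P270H

/-- row EFG -/
theorem efg66 : EFG := by
  intro n h T hT κ ι _ A m N L M g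
  have ok := g.ok
  have := ok.conn
  obtain ⟨O, σ, hO⟩ := (Hyp.of_snc ok.snc).exists_div
  have lO := fun l => (hO l).lb
  have l0 := lb_lin lO fun l => ((-m l).toNat : ℤ)
  have l1 := lb_mul ok.lb l0
  have c1 := (cls_mul ok.lb l0).trans (congrArg _ (cls_mon hO fun l => (-m l).toNat))
  have lt : ∀ l, m l + (-m l).toNat < N := fun l => by
    have := g.klt l
    have := ok.pos
    omega
  obtain ⟨Ω, ok'⟩ := Mm.mkpr n _ A.Z A.G O σ _ (fun l => m l + (-m l).toNat) N ok.conn ok.prj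
    ok.snc hO l1 ok.pos ok.even (fun l => (lt l).le) (by
      rw [c1, Xc.cls_eq n _ _ m N A O σ ok hO, add_assoc, ← Finset.sum_add_distrib]
      simp only [add_smul, natCast_zsmul])
  obtain ⟨β, hβ⟩ := g.ps
  obtain ⟨a, ha, h4⟩ := (eff_iff l1).1 (h _ _ _ _ _ ok' (fun l => by omega)
    (eq_empty_of_forall_notMem fun y ⟨l, e, _⟩ => (lt l).ne e)
    ⟨β, fun k => (hβ k).imp fun j ⟨hj, s⟩ => ⟨hj, by
      have e := ef_add s (ef_smul (ef_smul (ef_mon hO fun l => (-m l).toNat) k) j)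
      rwa [← smul_add, add_right_comm, ← smul_add, ← c1] at e⟩⟩)
  have hc : HC A m := by
    obtain ⟨W, c, lW, pW, fp⟩ := g.bp
    refine P270G.hcg n _ _ m N A W L ok ⟨⟨lW, g.lb, fun i j B lB e => ?_⟩, c, fp⟩
    have l2 := lb_mul (lb_pow g.lb i) lW
    refine Xc.piso n _ _ _ (lb_mul (lb_pow g.lbM j) l2) lB ?_ (g.nfM _ l2 (g.nef W lW pW i) j)
    rw [e, cls_mul (lb_pow g.lbM _) l2, cls_mul (lb_pow g.lb _) lW, cls_pow g.lbM, cls_pow g.lb,
      ← sub_eq_iff_eq_add'.2 g.cl]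
    abel
  have hE := lb_lin lO fun l => ((a * (-m l).toNat : ℕ) : ℤ)
  have l3 := lb_pow ok.lb a
  obtain ⟨s, x, s1, s2⟩ := ef_cls (lb_mul l3 hE) (by
    rw [cls_mul l3 hE, cls_pow ok.lb, cls_mon hO]
    simpa only [c1, smul_add, Finset.smul_sum, smul_smul] using h4)
  obtain ⟨⟨b, c⟩, hx⟩ := (lb_mul l3 hE).cover x
  obtain ⟨v, v1, v2⟩ := SecP.untwist (i := id) (c := fun _ => 0) holM_id hO l3 isOpen_univ
    (secP_of_sec continuous_id s1 fun _ => le_rfl)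
  obtain ⟨w, w1, w2⟩ := (hc a v (Xc.PolW.pol (j := a) (v1.mono continuous_id fun l => by
    rw [zero_add, Int.cast_natCast]))).isSec ok.snc l3 fun _ => one_pos
  obtain ⟨y, y1, y2, y3⟩ := (((Hyp.of_div hO).freq x).and_eventually
    ((lb_near (lb_mul l3 hE) hx).and ((sec_hol s1 hx).ne_near (s2 _ hx)))).exists
  exact ⟨a, ha, w, w1, b, y, y2.1, fun k => y3
    ((v2 b c y trivial y2.1 y2.2 y1).trans (by rw [← w2 b y y2.1 y1, k, zero_mul]))⟩

end Vale.Agent.P270H
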