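import Vale.Agent.P270H.Defs
import Vale.Agent.P285T.Cb.Hlp2
import Vale.Agent.P270G.Flb
import Vale.Agent.P281Z.Rs.All

/-!
# P270H, row END: the descent
-/

open Set Filter
open Vale.Agent.P272.K Vale.Agent.P285.H281.FD Vale.Agent.P281Z Vale.Agent.P280Z
open Vale.Agent.P277.HD (pull)

noncomputable section

namespace Vale.Agent.P270H

theorem end3 : END := by
  intro T hT hF w e V Q M U C E hU ⟨W, τ, S, hτ, P, z, hW, lP, ⟨k, hk, hP⟩, hz, hc⟩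
  obtain ⟨X₁, f₁, κ₁, _, G₁, δ₁, u, k1, k2, -, -, k3⟩ :=
    P285T.Cb.bcp_row _ w M W τ S hU.fb hτ hU.ok.prj hW
  obtain ⟨B₁, hu⟩ := k2.mu
  obtain ⟨B, hπ⟩ := hU.md
  have lL := hU.q.bir.res.lbL
  have hL := hπ.hol.lb lL
  have hf : HolM _ w f₁ := k1.fibn.hol
  refine P270G.nsd T hT hF _ V X₁ _ _ (hπ.comp P281Z.rem hu) Q.L (pull f₁ P) (z * U.c * U.k)
    ⟨hU.q.conn, hU.q.prj⟩ k3 lL (hf.lb lP) ⟨k, hk, fun x => (hP (f₁ x)).elim fun s h =>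
      ⟨_, hf.sec h.1, h.2⟩⟩ (Nat.mul_pos (Nat.mul_pos hz hU.cp) hU.kp) ?_
  rw [hT.c1.pull hf _ lP, hc, map_smul, ← hT.rg.pull_comp hf hτ.hol (hτ.hol.comp hf) fun _ => rfl,
    hT.rg.pull_comp hu.hol hU.fb.fibn.hol (hτ.hol.comp hf) fun x => (k2.comm x).symm, hU.cD,
    hT.c1.pow _ _ _ hL, hT.c1.pull hπ.hol _ lL,
    hT.rg.pull_comp hu.hol hπ.hol _ fun _ => rfl, map_smul, map_smul, smul_smul, smul_smul]
  push_cast
  rfl

end Vale.Agent.P270H
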