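import Vale.Agent.P270H.Defs
import Vale.Agent.P285T.Cb.Top

/-!
# P270H: the final statements
-/

open Vale.Agent.P272.K Vale.Agent.P285.H281.FD Vale.Agent.P281Z Vale.Agent.P280Z
open Vale.Agent.P285Z (St.logCan St.Divisor)
open Vale.Agent.P285N
open Vale.Agent.P285N.Tp (Rd Wf nefp)
open Vale.Agent.P285N.St (SubPair Iso Psef)
open Vale.Agent.P285S.St (Covered)

namespace Vale.Agent.P270H

variable {n d : ℕ} {V : Mf n} {Q : Rd V} {D : Bd V.X} {t : D.ι → V.X → ℂ} {q : ℕ}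
  {C M : Bd V.X} {w : Wf V}

theorem cv1 (g : CBG) (hQ : Q.Ok) (hw : IsKahler w) (h : SubPair n Q.E Q.s D t q C)
    (hC : Psef n C) (hM : IsLB n M) (hn : Nef w M) (hi : Iso n Q.L (C.mul M)) (hd : n ≤ d + 4)
    (hc : Covered n d Q.L) : NumSemiample n Q.L :=
  g n d V Q D t q C M hQ h hC hM ((nefp n n V V (fun x => x) _ contMDiff_id hM).1 w hw hn) hi hd
    (P285T.Cb.cov_gd hQ.conn hQ.bir.res.lbL hc)

theorem cv0 (g : CBG) (hc : ConnectedSpace V.X) (hP : V.Prj) (hw : IsKahler w)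
    (hD : St.Divisor n D t) (hq : 1 ≤ q) (hk : Klt n q D t) (hC : Psef n (St.logCan n q D))
    (hM : IsLB n M) (hm : Nef w M) (hn : Nef w ((St.logCan n q D).mul M)) (hd : n ≤ d + 4)
    (h : Covered n d ((St.logCan n q D).mul M)) : NumSemiample n ((St.logCan n q D).mul M) := by
  have hL := lb_mul (lb_mul (lb_pow (P277Z.Slc.isLB_can (n := n)) q) hD.lb) hM
  obtain ⟨⟨A, N, S, hQ⟩, k⟩ := Tp.smo n V w _ hc hP hw hL hn
  exact cv1 g hQ hw (k D t q hD hq hk) hC hM hm (Tp.iso_refl hL) hd h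

end Vale.Agent.P270H
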