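import Vale.Agent.P270H.Defs
import Vale.Agent.P285N.D.All
import Vale.Agent.P285N.Xc.Cls
import Vale.Agent.P285W.Bs.Conv
import Vale.Agent.P285W.J.Cuts
import Vale.Agent.P281Z.Ri.One
import Vale.Agent.P281Z.Nt.Neat

/-!
# P270H: the row FK0
-/

open Set
open Vale.Agent.P272.K Vale.Agent.P285.H281.FD Vale.Agent.P281Z Vale.Agent.P285N
open Vale.Agent.P277.HD (pull)
open Vale.Agent.P277Z.Slc (isLB_can isLB_triv triv lin)

namespace Vale.Agent.P270H

theorem fk03 : FK0 := by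
  intro T hT hF w e V Q M U C E hU hm c
  have hM := hU.fb
  have := hM.conn
  have := hM.connY
  have hf := hM.fibn.hol
  have hG := Hyp.of_snc hM.snc
  obtain ⟨S, t, reg⟩ := genS _ w M.X M.Y M.f M.κ M.G hf hM.snc
  obtain ⟨S', t', cn⟩ := hM.fibn.conn
  refine not_neg_compl (t.union t').neg (c.mono fun y hy => ?_)
  have r := reg y fun k => hy (.inl k)
  obtain ⟨F, i, hi, sn⟩ := r.fib rfl hf hM.snc
  have cF := hi.conn.2 (cn y fun k => hy (.inr k))
  have kF := hi.kah hU.ok.prj.kah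
  have lP : IsLB _ U.P := hU.ok.lb
  have l1 := hi.hol.lb lP
  have l2 := lb_zp l1 (-(1 : ℕ))
  have l3 := lb_mul (lb_pow (isLB_can (n := e + 1) (W := F.X)) U.N) l2
  have h0 : T.c1 F (pull i U.P) = 0 := by
    have := congrArg (T.pull hi.hol) hU.cE
    rw [← hT.rg.pull_comp hi.hol hf (hf.comp hi.hol) fun _ => rfl,
      P285W.J.CutsH.pull_const hT _ (fun a b => (hi.fib a).trans (hi.fib b).symm)
        (hT.c1.deg _ _), map_smul] at this
    rw [hT.c1.pull hi.hol _ lP]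
    exact (smul_eq_zero.1 this.symm).resolve_left (Nat.cast_ne_zero.2 hU.cp.ne')
  obtain ⟨O, σ, hO⟩ := hG.exists_div
  obtain ⟨x, hx⟩ := (snc_dense_off sn).nonempty
  have s0 : Sy (e + 1) (w + (e + 1)) i (triv F.X) M.G (fun _ => 0) 0 := (sy_zero isLB_triv).2
    ⟨fun _ _ => 1, ⟨fun _ _ _ _ _ => P277Z.hol_const _ _, fun _ _ _ _ _ _ _ => (one_mul _).symm,
      fun _ _ _ _ _ _ => ⟨1, .of_forall fun _ _ => by simp⟩⟩, x, hx, fun _ _ => one_ne_zero⟩
  have l4 := lb_lin (fun l => (hO l).lb) fun l => -U.m l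
  refine ⟨F, i, hi, (r.kapL hf hM.snc hi).2 (D.d0 _ F M.κ _ M.δ _ U.N cF kF sn hM.bdry l2
    ((hF F _ kF l2).1 (by rw [P285W.Bs.Cnv.c1_neg hT l1, h0, smul_zero, neg_zero])) hU.ok.pos
    ((r.kapL hf hM.snc hi).1 ((s0.div hi.hol isLB_triv hO fun l => -U.m l).kapL hG hi.hol.cont l3
      (lb_mul isLB_triv (hi.hol.lb l4)) one_pos ?_ fun l => ?_)))⟩
  · rw [cls_mul isLB_triv (hi.hol.lb l4), cls_triv, one_smul, cls_mul (lb_pow isLB_can _) l2,
      cls_zp l1, cls_pow isLB_can, cls_pull hi.hol l4, cls_pull hi.hol lP,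
      Ri.On.cls_can r hf hM.snc hi, Xc.cls_eq _ _ _ _ _ U.A O σ hU.ok hO,
      cls_lin fun l => (hO l).lb]
    simp
  · have := hm l
    push_cast
    rw [zero_sub, neg_neg, one_mul]
    exact_mod_cast this

end Vale.Agent.P270H
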