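import Vale.Agent.P270H.Defs
import Vale.Agent.P285T.Cb.Fk1

/-!
# P270H: the fibres have Kodaira dimension at most zero
-/

open scoped Manifold ContDiff Topology
open Set Filter Function
open Vale.Agent.P272.K Vale.Agent.P285.H281.FD Vale.Agent.P281Z
open Vale.Agent.P277Z (at_chart)
open Vale.Agent.P277Z.Slc (lin isLB_can dd)
open Vale.Agent.P277.HD (pull)
open Vale.Agent.P285T.Cb (tv_lc)

noncomputable section

namespace Vale.Agent.P270H

/-- **FK1** -/
theorem fk1_of (h : RF) : FK1 := by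
  intro T hT hF w e V Q M U C E hU hN
  obtain ⟨S, s1, s2⟩ := h T hT hF w e V Q M U C E hU
  have hf := hU.fb.fibn.hol
  have hS := hU.fb.snc
  have hG := Hyp.of_snc hS
  obtain ⟨Z, q1, q2⟩ := genS _ w M.X M.Y M.f _ M.G hf hS
  refine hN ((s1.union q1).neg.mono ?_)
  rintro y ⟨F, i, hi, r, hr, hK⟩
  by_contra hy
  have h1 := q2 y fun c => hy (.inr c)
  choose O σ hO using fun l => P277Z.Slc.stDiv _ M.X.X (M.G l) fun y =>
    (hS y).elim fun ζ k => ⟨ζ l, k.1 l⟩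
  have hP : IsLB _ U.P := hU.ok.lb
  have hC := isLB_can (n := e + 1) (W := F.X)
  have hX := isLB_can (n := w + (e + 1)) (W := M.X.X)
  have hD := fun l => (hO l).lb
  have h2 := lb_pow (lb_pow hC r) U.N
  have h3 := hi.hol.lb (lb_pow hP r)
  have h4 := hi.hol.lb (lb_lin hD fun l => r * U.m l)
  have h5 : cls _ U.P = _ := P285N.Xc.cls_eq _ _ _ U.m U.N U.A O σ hU.ok hO
  obtain ⟨s, a1, x, x1, a, x2, x3, x4⟩ := Sy.of_cls hG hi.hol.cont h3 (lb_mul h2 h4)
    ((Sy.pow hi.hol.cont hK hU.ok.pos).div hi.hol h2 hO fun l => r * U.m l) (by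
      rw [cls_mul h2 h4, cls_pow (lb_pow hC r), cls_pow hC,
        (cls_eq hC (hi.hol.lb hX)).2 (adj_iso hi hf fun _ => h1.sbm hf hS),
        cls_pull hi.hol hX, cls_pull hi.hol (lb_pow hP r), cls_pull hi.hol (lb_lin hD _),
        cls_pow hP, cls_lin hD, h5, ← map_nsmul, ← map_nsmul, ← map_add, nsmul_add, smul_comm,
        Finset.smul_sum]
      simp only [mul_smul, natCast_zsmul]) fun _ => le_rfl
  have key := fun b => s2 y (fun c => hy (.inl c)) F i hi r _ (s b) (fun l hl => by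
    have k : (U.N : ℝ) * M.δ l ≤ U.m l := by exact_mod_cast (hU.del l).resolve_left hl
    have k' := mul_le_mul_of_nonneg_left k (Nat.cast_nonneg r)
    push_cast
    linarith) (a1 b)
  have hn := (hG.isOpen.preimage hi.hol.cont).mem_nhds x1
  have hc : ∃ c : ℂ, ∀ᶠ z in 𝓝 x, s 1 a z / s 0 a z = c := by
    by_cases k : ∃ a x, i x ∈ U.P.U a ∧ i x ∈ off M.G ∧ s 1 a x ≠ 0
    · obtain ⟨τ, t1, t2⟩ := key 0 ⟨a, x, x2, x1, x3⟩
      obtain ⟨τ', t3, t4⟩ := key 1 k
      refine ⟨τ' a x / τ a x, ?_⟩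
      filter_upwards [tv_lc h3 t1 t3.1 x2, hn, lb_near h3 x2] with z z1 z2 z3
      rw [t2 a z z3 z2, t4 a z z3 z2, z1]
    · refine ⟨0, ?_⟩
      filter_upwards [hn, lb_near h3 x2] with z z2 z3
      rw [not_not.1 fun c => k ⟨a, z, z3, z2, c⟩, zero_div]
  obtain ⟨c, hc⟩ := hc
  refine (x4.2 _ (at_chart x)).ne_zero 0 ((P277Z.Slc.dd_congr hc (at_chart x)).trans ?_)
  exact fderiv_const_apply c

end Vale.Agent.P270H
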