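import Vale.Agent.P270H.Defs
import Vale.Agent.P285T.Cb.Fpd

/-!
# P270H: row FPD
-/

open scoped Manifold ContDiff Topology
open Set Filter Function
open Vale.Agent.P272.K Vale.Agent.P285.H281.FD Vale.Agent.P281Z Vale.Agent.P280Z
open Vale.Agent.P277.HD (pull)
open Vale.Agent.P285T.Cb (Ud)
open Vale.Agent.P285T.Cb.FpdH

noncomputable section

namespace Vale.Agent.P270H

/-- **FPD** -/
theorem fpd_of (h : LAM) : FPD := by
  intro T hT hF w e V Q M U C₀ E hU B A z hB hL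
  obtain ⟨Λ, hΛ⟩ := h T hT hF w e V Q M U C₀ E hU
  obtain ⟨S, hπ⟩ := hU.md
  have lu : IsLB _ (uL U) := lb_pow (hπ.hol.lb hU.q.bir.res.lbL) _
  obtain ⟨H', C, h1, h2, h3⟩ := P270G.topb _ T hT _ _ U.A U.m U.N U.xw U.xw Λ (uL U) hU.ok hΛ.fb
    lu hΛ.rig fun _ => id
  obtain ⟨H, lH, pH⟩ := hU.prj
  have hf := hU.fb.fibn.hol
  obtain ⟨C', h4⟩ := fp_tr' hU.ok h1 (hf.lb lH) h2 (fp_tw (a := U.c) (L' := pull M.f U.D) hT h1
    h2 lu (hf.lb hU.lbD) ((hT.c1.pull hf _ hU.lbD).trans hU.cD) h3)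
  refine ⟨H, C', lH, pH, fun k i r M' s hM hc hs => dn hL.sn hL.dom hM hs (fun l => ?_)
    (h4 k i (∑ l, ∑ j, A l j * (r * (-B.μ j).toNat)) _ _ (hf.lb hM) (by
      rw [cls_pull hf hM, hc, map_add, map_nsmul, map_nsmul, cls_pull hf lH, cls_pull hf hU.lbD])
      ((up hL.sn hs).mono continuous_id fun l => ?_))⟩
  · refine Nat.cast_le.2 ?_
    unfold Ud.xw
    split_ifs <;> simp
  · unfold Ud.xw
    split_ifs with hl
    · simp only [neg_neg, Int.toNat_one, mul_one, ← Nat.cast_mul, ← Nat.cast_sum, Nat.cast_le]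
      exact Finset.single_le_sum (f := fun l => ∑ j, A l j * (r * (-B.μ j).toNat))
        (fun _ _ => Nat.zero_le _) (Finset.mem_univ l)
    · refine (Finset.sum_eq_zero fun j _ => ?_).trans_le (Nat.cast_nonneg _)
      by_cases hj : B.μ j < 0
      · rw [show A l j = 0 from by_contra fun c => hl (hL.ex l j hj (by omega)), Nat.cast_zero,
          zero_mul]
      · simp [show (-B.μ j).toNat = 0 by omega]

end Vale.Agent.P270H
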