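import Vale.Agent.P270H.Defs
import Vale.Agent.P285S.Tp.Upc

/-!
# P270H: bounded poles go up (row FPU)
-/

open scoped Topology
open Set Filter
open Vale.Agent.P272.K Vale.Agent.P285.H281.FD Vale.Agent.P281Z
open Vale.Agent.P277.HD (pull)
open Vale.Agent.P277Z (Hol)
open Vale.Agent.P277Z.Slc (lin IsDiv Snc)
open Vale.Agent.P285N Vale.Agent.P285N.Xc
open Vale.Agent.P285N.Tp (mon kodp)
open Vale.Agent.P285N.Tp.En
open Vale.Agent.P285S.Tp (div_bd2 mon_zp)

namespace Vale.Agent.P270H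

/-- row FPU -/
theorem fpu : FPU := by
  intro d κ ι κ' ι' _ _ A A' m m' π B L hZ ⟨H', h1, h2⟩ hS hS' hM lL ho hn ⟨H, C, a1, a2, hC⟩
  classical
  have := hZ.conn
  have hY : ConnectedSpace A'.Z.X := hM.conn
  have hπ := hM.hol
  have hL := hπ.lb lL
  obtain ⟨k₀, τ, s1, c, x, s2, s3⟩ := kodp d A.Z A'.Z π B H _ hY hM a1 a2 (lb_zp h1 (-1))
  have hT := lb_mul (lb_pow (hπ.lb a1) k₀) (lb_zp h1 (-1))
  obtain ⟨C₁, hC₁⟩ := div_bd2 (m := m') hS' hT s1
    ⟨x, (nz_iff hT (fun a b => s1.change a b x) s2).2 s3⟩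
  obtain ⟨O, σ, hD⟩ := (Hyp.of_snc hS).exists_div
  have hO := fun l => (hD l).lb
  set w : κ → ℕ := fun l => (-m l).toNat with hw
  have hE := lb_lin hO fun l => (w l : ℤ)
  have he := sec_mon hD w
  have e0 : ∀ y ∈ off A'.G, ∀ c, π y ∈ (lin O fun l => (w l : ℤ)).U c → mon σ w c (π y) ≠ 0 :=
    fun y hy c hc => mon_ne hD w hc fun l _ => (ho y hy).1 l
  obtain ⟨y₀, hy₀⟩ := (Hyp.of_snc hS').dense.nonempty
  obtain ⟨C₂, hC₂⟩ := div_bd2 (m := m') hS' (hπ.lb hE) (hπ.sec he) ⟨y₀, e0 y₀ hy₀⟩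
  refine ⟨H', C₂ * (C * (k₀ + 1)) + C₁, h1, h2, fun k i n M s m1 m2 m3 => ?_⟩
  have e3 := lb_mul (lb_pow a1 (k * k₀)) (lb_pow lL i)
  set M₀ := (H.pow (k * k₀)).mul (L.pow i)
  have e4 := hπ.lb e3
  have key : ∀ t, PolW A' m' (pull π M₀) n t →
      PolW A' m' (pull π M₀) (0 + C₂ * (C * (k * k₀ + 1))) t := fun t ht => by
    refine hC₂ _ n 0 _ t e4 ht ?_
    set J := ∑ l, ⌈((n * (-m' l).toNat : ℕ) : ℝ)⌉₊
    have hf : ∀ c y, π y ∈ (lin O fun l => (w l : ℤ)).U c →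
        Hol d (fun z => mon σ w c (π z)) y := fun c y k => hπ.hol (sec_hol he k)
    have hc : ∀ (j : ℕ) (p q : M₀.ι × ∀ l, (O l).ι) y, π y ∈ (M₀.mul (lin O fun l => (w l : ℤ))).U p →
        π y ∈ (M₀.mul (lin O fun l => (w l : ℤ))).U q → y ∈ off A'.G →
        t p.1 y * mon σ w p.2 (π y) ^ j = M₀.g p.1 q.1 (π y) *
          (lin O fun l => (w l : ℤ)).g p.2 q.2 (π y) ^ j * (t q.1 y * mon σ w q.2 (π y) ^ j) :=
      fun j p q y k1 k2 k3 => by
        rw [ht.chg p.1 q.1 y trivial k1.1 k2.1 k3, he.change p.2 q.2 _ k1.2 k2.2, mul_pow]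
        exact mul_mul_mul_comm _ _ _ _
    obtain ⟨Φ, b1, b2⟩ := P285N.Tp.Har2H.har0 (H := M₀.mul ((lin O fun l => (w l : ℤ)).pow J))
      (s := fun p y => t p.1 y * mon σ w p.2 (π y) ^ J) hM hS' (lb_mul e3 (lb_pow hE _))
      ⟨fun p y _ k1 k2 => (ht.hol p.1 y trivial k1.1 k2).mul ((hf p.2 y k1.2).pow _),
        fun p q y _ => hc J p q y, fun p y k1 k2 =>
          P285N.Tp.Har2H.kill hS' (ht.bdP trivial k2.1) (hf p.2 y k2.2) fun l k => by
          filter_upwards [Imm.near k1 (hπ.at y),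
            hπ.cont.continuousAt.eventually (lb_near hE k2.2)] with z b1 b2 b3
          obtain ⟨l₀, b4, b5⟩ := (hn l (by
            by_contra h
            simp [show (-m' l).toNat = 0 by omega] at k) z b3).resolve_left (not_not.2 b1)
          exact Finset.prod_eq_zero (Finset.mem_univ l₀) (by
            rw [((hD l₀).leq _ _ (b2 l₀)).mem.2 b5, zero_pow (by simp only [hw]; omega)])⟩
    have l1 := fun j : ℤ => holM_id.lb (lb_lin hO fun l => j * w l)
    have l2 := lb_mul (lb_mul e3 (lb_pow hE J)) (l1 (-J))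
    obtain ⟨v, v1, v2⟩ := ((hC (k * k₀) i J _ _ l2 (by
      rw [cls_mul (lb_mul e3 (lb_pow hE J)) (l1 _), cls_mul e3 (lb_pow hE J), cls_pow hE,
        cls_mul (lb_pow a1 _) (lb_pow lL _), cls_pow a1, cls_pow lL, add_assoc,
        add_eq_left, cls_lin hO]
      refine (congrArg (_ + ·) (cls_lin hO _)).trans ?_
      rw [Finset.smul_sum, ← Finset.sum_add_distrib]
      exact Finset.sum_eq_zero fun l _ => by
        rw [neg_mul, neg_smul, mul_smul, natCast_zsmul _ J, add_neg_cancel])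
      (((secP_of_sec (c := fun _ => 0) continuous_id b1 fun _ => le_rfl).mul continuous_id
        (secP_div holM_id hD fun l => -J * w l).1).mono continuous_id fun l => by
          rw [show (-m l).toNat = w l from rfl]
          simp)).mul continuous_id
      (secP_div holM_id hD fun l => (C * (k * k₀ + 1) : ℕ) * w l).1).isSec hS
      (lb_mul l2 (l1 _)) fun l => by
        rw [show (-m l).toNat = w l from rfl]
        simp
    refine ⟨fun p y _ k1 k2 => (ht.hol p.1 y trivial k1.1 k2).mul ((hf p.2 y k1.2).pow _),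
      fun p q y _ => hc _ p q y, fun p y _ k1 => ?_⟩
    refine (bdP_of_cont continuousAt_id (fun _ _ => Nat.cast_nonneg _)
      (hπ.hol (sec_hol v1 (a := ((p, p.2), p.2)) ⟨⟨k1, k1.2⟩, k1.2⟩)).cont).congr ?_
    filter_upwards [lb_near (lb_mul e4 (hπ.lb hE)) (a := p) k1] with z q1 q2
    rw [v2 ((p, p.2), p.2) _ ⟨⟨q1, q1.2⟩, q1.2⟩ (ho z q2).1, ← b2 p z q1 q2 (ho z q2).2]
    refine .trans ?_ (congrArg₂ _ (congrArg _ (mon_zp σ w _ p.2 _).symm) (mon_zp σ w _ p.2 _).symm)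
    rw [zpow_neg, zpow_natCast, zpow_natCast,
      mul_inv_cancel_right₀ (pow_ne_zero _ (e0 z q2 _ q1.2))]
  refine SecP.mono continuous_id (hC₁ k n _ M s m1 m3 (secP_of_cls hS' e4
    (lb_mul m1 (lb_pow hT k)) ?_ key (SecP.mono continuous_id (SecP.mul continuous_id m3
      ((secP_of_sec (c := fun _ => 0) continuous_id s1 fun _ => le_rfl).pow continuous_id k))
        fun l => by simp))) fun l => ?_
  · rw [cls_mul m1 (lb_pow hT k), cls_pow hT, cls_mul (lb_pow (hπ.lb a1) k₀) (lb_zp h1 _),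
      cls_zp h1, m2, cls_pow (hπ.lb a1), smul_add, ← mul_smul, neg_one_zsmul,
      smul_neg, ← cls_pow (hπ.lb a1), ← cls_pow hL]
    refine (cls_mul (lb_pow (hπ.lb a1) _) (lb_pow hL _)).trans ?_
    abel
  · refine Nat.cast_le.2 (Nat.mul_le_mul_right _ ?_)
    rw [zero_add, add_mul, mul_assoc, mul_assoc]
    gcongr
    · nlinarith
    · omega

end Vale.Agent.P270H
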