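import Vale.Agent.P270H.Defs
import Vale.Agent.P270G.Gdf
import Vale.Agent.P285T.Cb.Gdw6
import Vale.Agent.P285S.Tp.Nfp

/-!
# P270H: an effective good pair in the class of a multiple of `L` (row GDG)
-/

open scoped Manifold ContDiff Topology
open Set Filter Function
open Vale.Agent.P272.K Vale.Agent.P285.H281.FD Vale.Agent.P281Z Vale.Agent.P280Z
open Vale.Agent.P277Z.Slc (IsDiv Snc lin)
open Vale.Agent.P277.HD (pull)
open Vale.Agent.P285N Vale.Agent.P285N.Tp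
open Vale.Agent.P285S.Ca

noncomputable section

namespace Vale.Agent.P270H

open P270G.GdfH in
/-- row GDG -/
theorem gdg6 (hU : FPU) (hF : P270G.FPF) : GDG := by
  intro n T hT κ ι _ A m₀ N L M h hB hE ⟨V', e, S, he, _, pV', ⟨D₀, η, d1, d2, d3, rfl⟩, hK⟩
  have hA := h.ok
  have := hA.conn
  have := he.conn
  have hL := h.lb
  have hZ := (he.pre_thin (he.thin.union (snc_thin_off hA.snc))).union
    (EfH.thin_nz d1 d2 d3.nonempty)
  obtain ⟨I, hI, -⟩ := Rs.idl n V' _ hZ.1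
  rw [← hI] at hZ
  obtain ⟨R⟩ := Rs.res n n V' univ I an_univ
    (subM_open (by rw [← compl_eq_univ_sdiff]; exact hZ.closed.isOpen_compl))
  have h1 : Modif n R.π _ := ⟨hZ, R.ovr⟩
  have hM := he.comp rem h1
  have ho : ∀ y ∈ off R.G, R.π y ∉ I.Z := fun y hy k => ((R.bad y).1 k).elim hy
  have pY := R.prj pV'
  have cY := hM.conn
  have hf : ∀ y ∈ off R.G, Imm n n (fun x => e (R.π x)) y ∧ e (R.π y) ∈ off A.G := fun y hy =>
    ⟨.comp (he.hol.at _) (h1.hol.at _) (he.imm fun c => ho y hy (hI ▸ .inl (.inl c)))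
      (h1.imm (ho y hy)), not_not.1 fun c => ho y hy (hI ▸ .inl (.inr c))⟩
  obtain ⟨m, k1, k3, k4, -⟩ := P285S.Lq.upp n _ _ _ _ _ A R.V _ R.G hA cY pY hM.hol R.snc R.conn hf
  have k2 : ∀ l, m l < N := fun l => (k1.le l).lt_of_ne fun c =>
    let ⟨y, hy⟩ := (R.conn l).nonempty
    let ⟨j, c', _⟩ := k3 l c y hy
    (h.klt j).ne c'
  have lD := h1.hol.lb d1
  have sD := h1.hol.sec d2
  have hy := Hyp.of_snc R.snc
  obtain ⟨O, σ, hO⟩ := hy.exists_div
  obtain ⟨f, c1, -⟩ := P285T.Cb.Gdw6H.dec R.snc R.conn hO lD sD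
    fun y hy => not_not.1 fun c => ho y hy (hI ▸ .inr c)
  obtain ⟨a, r, _, j1, ⟨W, w1, w2, rfl⟩, j2⟩ := hK (∑ l, f l)
  have j3 : ∀ l, (r * f l : ℤ) < a := fun l => by
    have := Nat.mul_le_mul_right r (Finset.single_le_sum (f := f) (fun _ _ => Nat.zero_le _)
      (Finset.mem_univ l))
    zify at this j1
    nlinarith
  have a0 : 0 < a := by omega
  have lW := h1.hol.lb w1
  obtain ⟨Δ, δ, b1, b2⟩ := Lf.bertini R.V lW
    (fun x => (w2 (R.π x)).elim fun _ k => ⟨_, h1.hol.sec k.1, k.2⟩) R.snc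
  have lC := hM.hol.lb hA.lb
  have c2 : cls n (pull (fun x => e (R.π x)) A.P) = _ := Xc.cls_eq n _ _ m _ _ O σ k1 hO
  have lP := lb_mul (lb_mul (lb_pow lC a) lW) (lb_pow lD r)
  have c3 := cls_mul (lb_mul (lb_pow lC a) lW) (lb_pow lD r)
  rw [cls_mul (lb_pow lC a) lW, cls_pow lC, cls_pow lD] at c3
  have c4 := hT.c1.mul _ _ _ (lb_mul (lb_pow lC a) lW) (lb_pow lD r)
  rw [hT.c1.mul _ _ _ (lb_pow lC a) lW, hT.c1.pow _ _ _ lC, hT.c1.pow _ _ _ lD,
    hT.c1.pull hM.hol _ hA.lb, hT.c1.pull h1.hol W w1, hT.c1.pull h1.hol D₀ d1] at c4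
  generalize (((pull (fun x => e (R.π x)) A.P).pow a).mul (pull R.π W)).mul
    ((pull R.π D₀).pow r) = P at lP c3 c4
  have c5 : T.c1 R.V P = ((2 * a : ℕ) : ℝ) • T.pull hM.hol (T.c1 A.Z L) := by
    have i1 := c1_cls hT hL (lb_mul hA.lb h.lbM) (h.cl.trans (cls_mul hA.lb h.lbM).symm)
    rw [hT.c1.mul _ _ _ hA.lb h.lbM] at i1
    have i2 := congrArg (T.pull h1.hol) j2
    rw [map_smul, ← hT.rg.pull_comp h1.hol he.hol hM.hol fun _ => rfl, map_add, map_add,
      map_smul] at i2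
    have i3 := congrArg (T.pull hM.hol) i1
    rw [map_add] at i3
    rw [c4, add_assoc, ← i2, i3]
    push_cast
    module
  have hq := hA.pos
  obtain ⟨Ω', ok⟩ := P285S.Mm.mkpr n (Option (Fin R.r)) R.V (fun o => o.elim Δ R.G)
    (fun o => o.elim (pull R.π W) O) (fun o => Option.rec δ σ o) P
    (fun o => o.elim 1 fun l => a * m l + r * f l) (a * N) cY pY b2
    (fun o => Option.rec b1 hO o) lP (by positivity) (hA.even.mul_left a)
    (fun o => by
      cases o with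
      | none =>
        show (1 : ℤ) ≤ _
        exact_mod_cast Nat.mul_pos a0 hq
      | some l =>
        have := k2 l
        have := j3 l
        show a * m l + (r * f l : ℤ) ≤ _
        push_cast at *
        nlinarith) (by
      rw [c3, c2, c1, Fintype.sum_option]
      simp only [Option.elim, add_smul, mul_smul, Finset.sum_add_distrib, ← Finset.smul_sum]
      module)
  obtain ⟨H, c, lH, pH, hp⟩ := hU n _ _ _ _ A (P285S.Lq.up A N R.V _ R.G) m₀ m _ _ L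
    ⟨hA.conn, hA.prj⟩ pY hA.snc R.snc hM hL (fun y hy => (hf y hy).symm) k4 hB
  have lL := hM.hol.lb hL
  have c6 := c5.trans (congrArg _ (hT.c1.pull hM.hol L hL).symm)
  obtain ⟨c', hp'⟩ := hF n T hT _ _ _ m _ H _ P c (2 * a) Δ
    (fun o => o.elim 1 fun l => a * m l + r * f l) _ P.U P.g Ω' k1 lH pH lL lP c6 b2
    zero_le_one (fun l => by
      have := j3 l
      have : (0 : ℤ) ≤ r * f l := by positivity
      show a * m l + (r * f l : ℤ) < 0 ↔ _
      constructor <;> intro k <;> nlinarith) hp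
  have nf := P285S.Tp.nf_comp hM.hol hA.prj hL h.nef H lH pH
  refine ⟨_, _, inferInstance, _, _, _, _, _, hM, 2 * a, ⟨ok, H, ⟨lH, lP, fun i j N lN k => ?_⟩,
    c', hp'⟩, ?_, by omega, c5⟩
  · have l2 := lb_mul (lb_pow lP i) lH
    have k3 := hT.c1.pos _ _ (lb_mul (lb_pow lL _) lH) (nf (i * (2 * a)))
    refine hT.kp _ _ lN ?_
    rw [c1_cls hT lN l2 (by
      rw [k, cls_mul (lb_pow lP i) lH, cls_pow lP, add_comm (i • _)]
      exact (congrArg (_ + j • ·) (sub_self _)).trans (by rw [smul_zero, add_zero])),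
      hT.c1.mul _ _ _ (lb_pow lP i) lH, hT.c1.pow _ _ _ lP, c6, smul_smul]
    rwa [hT.c1.mul _ _ _ (lb_pow lL _) lH, hT.c1.pow _ _ _ lL, Nat.cast_mul] at k3
  · obtain ⟨k, k0, s, s1, s2⟩ := hE
    obtain ⟨x, hx⟩ := nz (lb_pow hA.lb k) s1 s2
    obtain ⟨y, rfl⟩ := hM.surj x
    obtain ⟨-, e1, e2, e3, -⟩ := efa n R.V cY
    have f1 : P285S.Ef R.V (k • cls n (pull (fun x => e (R.π x)) A.P)) :=
      ⟨_, _, lb_pow lC k, cls_pow lC k, hM.hol.sec s1, y, hx⟩
    obtain ⟨z, hz⟩ := hy.dense.nonempty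
    have f2 : P285S.Ef R.V (cls n (pull R.π D₀)) :=
      ⟨_, _, lD, rfl, sD, z, not_not.1 fun c => ho z hz (hI ▸ .inr c)⟩
    refine eff (L := P) lP k0 (Eq.subst ?_ (e1 _ _ (e1 _ _ (e2 _ a f1)
      (e2 _ k (e3 _ _ _ b1))) (e2 _ (k * r) f2)))
    rw [c3]
    module

end Vale.Agent.P270H
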