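import Vale.Agent.P270H.Defs
import Vale.Agent.P285T.Cb.Gdw97

/-!
# P270H: a klt pair on a model of the base (row GDW)
-/

open Set
open Vale.Agent.P272.K Vale.Agent.P285.H281.FD Vale.Agent.P281Z
open Vale.Agent.P277Z.Slc (IsDiv Snc lin isLB_can)
open Vale.Agent.P277.HD (pull)
open Vale.Agent.P285N Vale.Agent.P285N.Tp
open Vale.Agent.P285S.Ca Vale.Agent.P285T.Cb

noncomputable section

namespace Vale.Agent.P270H

theorem gdw : P270H.GDW := by
  intro w W B h ⟨_, t, ⟨D₀, η, d1, rfl, d2, d3⟩, hK⟩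
  have := h.cp.1
  have pW := h.cp.2
  have hX := B.Y.div
  have lX := fun j => (hX j).lb
  have hD := Hyp.of_snc h.snc
  have lK := isLB_can (n := w) (W := W.X)
  have l0 := lb_mul (lb_pow lK B.x) (lb_lin lX B.μ)
  have c0 := cls_mul (lb_pow lK B.x) (lb_lin lX B.μ)
  rw [cls_pow lK, cls_lin lX] at c0
  generalize ((Bd.can w W.X).pow B.x).mul (lin B.Y.O B.μ) = P₀ at l0 c0
  obtain ⟨Ω₀, ok₀⟩ := P285S.Mm.mkpr w _ W B.D _ _ P₀ B.μ B.x this pW h.snc hX l0 h.xp h.even
    (fun j => (h.klt j).le) c0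
  have hZ := (hD.thin_pre (holM_id (n := w)) hD.dense.nonempty).union (EfH.thin_nz d1 d2 d3)
  obtain ⟨I, hI, -⟩ := Rs.idl w W _ hZ.1
  rw [← hI] at hZ
  obtain ⟨R⟩ := Rs.res w w W univ I an_univ
    (subM_open (by rw [← compl_eq_univ_sdiff]; exact hZ.closed.isOpen_compl))
  have h1 : Modif w R.π _ := ⟨hZ, R.ovr⟩
  have hp := h1.hol
  have ho : ∀ y ∈ off R.G, R.π y ∉ I.Z := fun y hy k => ((R.bad y).1 k).elim hy
  have ho' : ∀ y ∈ off R.G, R.π y ∈ off B.D := fun y hy =>
    not_not.1 fun c => ho y hy (hI ▸ .inl c)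
  have pY := R.prj pW
  obtain ⟨m, Ω, k1, k2, k3⟩ := P285S.Tp.blow ok₀ h1 pY R.snc R.conn fun y hy => ⟨ho y hy, ho' y hy⟩
  obtain ⟨O, σ, hO⟩ := (Hyp.of_snc R.snc).exists_div
  obtain ⟨f, c1, -⟩ := Gdw97.ord R.snc R.conn hO (hp.lb d1) (hp.sec d2)
    fun y hy => not_not.1 fun c => ho y hy (hI ▸ .inr c)
  have lN := lb_lin lX fun j => ((-B.μ j).toNat : ℤ)
  obtain ⟨g, c2, g0⟩ := Gdw97.ord R.snc R.conn hO (hp.lb lN) (hp.sec (En.sec_mon hX _))
    fun y hy c hc => En.mon_ne hX _ hc fun l _ => ho' y hy l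
  obtain ⟨a, r, S, j1, w1, w2, j2⟩ := hK (∑ l, f l)
  have j3 : ∀ l, (r * f l : ℤ) < a := fun l => by
    have := Nat.mul_le_mul_right r (Finset.single_le_sum (f := f) (fun _ _ => Nat.zero_le _)
      (Finset.mem_univ l))
    zify at this j1
    nlinarith
  have a0 : 0 < a := by omega
  have x0 := h.xp
  obtain ⟨Δ, δ, b1, b2⟩ := Lf.bertini R.V (hp.lb w1)
    (fun x => (w2 (R.π x)).elim fun _ k => ⟨_, hp.sec k.1, k.2⟩) R.snc
  have c3 := (cls_pow (hp.lb l0) 1).symm.trans (Xc.cls_eq w _ _ m _ _ O σ k1 hO)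
  have lP := hp.lb h.lb
  have c4 := cls_pow lP (a + r * t)
  have c5 := congrArg hp.pic (h.cl.trans (congrArg (· + _) c0.symm))
  have c6 := congrArg hp.pic j2
  rw [cls_pull hp lN, cls_lin lX] at c2
  simp only [natCast_zsmul] at c2
  rw [map_add, map_nsmul, ← cls_pull hp h.lb, ← cls_pull hp l0, ← one_nsmul (cls w (pull _ P₀)),
    c3] at c5
  rw [map_add, map_add, map_nsmul, map_nsmul, map_nsmul, map_nsmul, map_nsmul, map_add, c2,
    ← cls_pull hp h.lb, ← cls_pull hp w1, ← cls_pull hp d1, c1] at c6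
  have kl : ∀ o : Option (Fin R.r), (o.elim 1 fun l => a * m l + r * f l - r * (t * g l) : ℤ) <
      (a * B.x : ℕ) := fun o => by
    cases o with
    | none =>
      obtain ⟨y, hy⟩ := h.even
      exact Nat.one_lt_cast.2 (lt_of_lt_of_le (by omega) (Nat.le_mul_of_pos_left _ a0))
    | some l =>
      have k : m l < B.x := (k1.le l).lt_of_ne fun e => (R.conn l).nonempty.elim fun y hy =>
        (k2 l e y hy).elim fun j c => (h.klt j).ne c.1
      have := j3 l
      have : (0 : ℤ) ≤ r * (t * g l) := by positivity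
      show a * m l + r * f l - r * (t * g l : ℤ) < _
      push_cast
      nlinarith
  obtain ⟨Ω', ok⟩ := P285S.Mm.mkpr w (Option (Fin R.r)) R.V (fun o => o.elim Δ R.G)
    (fun o => o.elim (pull R.π S) O) (fun o => Option.rec δ σ o) _ _ (a * B.x) h1.conn pY b2
    (fun o => Option.rec b1 hO o) (lb_pow lP (a + r * t)) (by positivity) (h.even.mul_left a)
    (fun o => (kl o).le) (by
      rw [c4, Fintype.sum_option]
      simp only [Option.elim, add_smul, sub_smul, mul_smul, Finset.sum_add_distrib,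
        Finset.sum_sub_distrib, ← Finset.smul_sum, natCast_zsmul] at c6 ⊢
      linear_combination (norm := module) a • c5 + c6)
  refine ⟨_, _, inferInstance, _, _, _, R.π, _, ⟨ok, ⟨_, h1⟩, by omega, c4, fun y hy =>
    ⟨ho' y fun l => hy (some l), h1.imm (ho y fun l => hy (some l))⟩, fun o k y hy => ?_⟩, kl⟩
  cases o with
  | none => exact absurd k (not_lt.2 zero_le_one)
  | some l =>
    by_cases e : g l = 0
    · refine k3 l (by_contra fun c => ?_) y hy
      have k' : a * m l + r * f l - r * (t * g l : ℤ) < 0 := k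
      rw [e, Nat.cast_zero, mul_zero, mul_zero, sub_zero] at k'
      have := not_lt.1 c
      exact absurd k' (not_lt.2 (by positivity))
    · refine .inr (by_contra fun c => g0 l e y hy fun b hb => En.mon_ne hX _ hb fun j hj k' =>
        c ⟨j, by omega, k'⟩)

end Vale.Agent.P270H
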