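import Vale.Agent.P270H.Defs
import Vale.Agent.P285S.Tp.Thr
import Vale.Agent.P285S.Tp.Nfp
import Vale.Agent.P285S.Bs2.Big
import Vale.Agent.P285N.Xc.Piso
import Vale.Agent.P280Z.Ld.Iso

/-!
# P270H, row GUP: the data go up
-/

open Set Filter
open Vale.Agent.P272.K Vale.Agent.P285.H281.FD Vale.Agent.P281Z Vale.Agent.P280Z
open Vale.Agent.P277.HD (pull)
open Vale.Agent.P285N Vale.Agent.P285W

noncomputable section

namespace Vale.Agent.P270H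

theorem gup3_of (hF : FPU) : GUP := by
  intro T hT w W B κ ι _ A m N τ z z' D E hB ⟨h, ps⟩ hm klt lD lE nD nE cP bp
  obtain ⟨S, hM⟩ := hm.md
  have hτ := hM.hol
  have lP := hm.ok.lb
  have l1 := hτ.lb lD
  have lL := lb_pow l1 (z * z')
  have lM := lb_mul lL (lb_zp lP (-1))
  have cc : ∀ {L L' : Bd A.Z.X}, IsLB w L → IsLB w L' → cls w L = cls w L' →
      T.c1 A.Z L = T.c1 A.Z L' := fun h h' e =>
    let ⟨t, ht⟩ := (cls_eq h h').1 e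
    (Ld.iso A.Z _ _ t h h' ht).1 T hT.c1
  have cl : cls w ((pull τ D).pow (z * z')) =
      cls w A.P + cls w (((pull τ D).pow (z * z')).mul (zp A.P (-1))) := by
    rw [cls_mul lL (lb_zp lP _), cls_zp lP, neg_one_zsmul, add_add_neg_cancel'_right]
  have pos : ∀ {L : Bd A.Z.X}, IsLB w L → J.Nf T A.Z (T.c1 A.Z L) → Tp.Nf A.Z L :=
    fun hL k H h1 h2 i => hT.kp _ _ (lb_mul (lb_pow hL i) h1) (by
      rw [hT.c1.mul _ _ _ (lb_pow hL i) h1, hT.c1.pow _ _ _ hL, add_comm]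
      exact P285S.B2.kc_nf_add hT (hT.c1.pos _ _ h1 h2) (J.nf_smul hT i.cast_nonneg k))
  obtain ⟨H, C, h1, h2, h3⟩ := hF w _ _ κ ι (wA B) A B.μ m τ S D hB.cp hm.ok.prj hB.snc hm.ok.snc hM
    lD hm.off hm.neg bp
  refine ⟨_, ⟨hm.ok, klt, lL, fun H h1 h2 i => ?_, lM, pos lM ?_, cl⟩, ⟨hτ.pic h, fun k => ?_⟩,
    H, C, h1, h2, fun k i n M s m1 m2 => h3 k (i * (z * z')) n M s m1 (by
      rw [m2, cls_pow l1, mul_smul i])⟩
  · refine Xc.piso w _ _ _ (lb_mul (lb_pow l1 (i * (z * z'))) h1) (lb_mul (lb_pow lL i) h1) ?_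
      (P285S.Tp.nf_comp hτ hB.cp.prj lD nD H h1 h2 _)
    rw [cls_mul (lb_pow l1 _) h1, cls_mul (lb_pow lL _) h1, cls_pow lL, cls_pow l1, cls_pow l1,
      mul_smul i]
  · have e1 := cc lL (lb_mul lP lM) (cl.trans (cls_mul lP lM).symm)
    have e2 := cc lP (lb_pow (hτ.lb hB.lb) z) (hm.cl.trans (cls_pow (hτ.lb hB.lb) z).symm)
    rw [hT.c1.mul _ _ _ lP lM, e2, hT.c1.pow _ _ _ l1, hT.c1.pow _ _ _ (hτ.lb hB.lb),
      hT.c1.pull hτ _ lD, hT.c1.pull hτ _ hB.lb, cP, map_smul, smul_smul, ← Nat.cast_mul] at e1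
    rw [eq_sub_of_add_eq' e1.symm, ← smul_sub, ← map_sub]
    exact J.nf_smul hT (Nat.cast_nonneg _) (J.nf_pull hT hτ nE)
  · obtain ⟨j, j0, e⟩ := ps (k * z)
    refine ⟨j, j0, ?_⟩
    have := P285S.Tp.ef_pull hM e
    rwa [map_nsmul, map_add, map_nsmul, ← cls_pull hτ hB.lb, mul_smul, ← hm.cl] at this

end Vale.Agent.P270H
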