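import Vale.Agent.P270H.Defs
import Vale.Agent.P285T.Cb.Null

/-!
# P270H: the exceptional components are contracted on the fibres
-/

open Set Function
open Vale.Agent.P272.K Vale.Agent.P285.H281.FD Vale.Agent.P281Z Vale.Agent.P280Z
open Vale.Agent.P285N Vale.Agent.P285W Vale.Agent.P285W.J
open Vale.Agent.P285T.Cb (Ud)

noncomputable section

namespace Vale.Agent.P270H

/-- **row NUL** -/
theorem nul : NUL := by
  intro T hT _ w e V Q M U C E _ hU Λ h hΛ hh l hl O σ hO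
  have := hU.fb.conn
  have hf := hU.fb.fibn.hol
  have nD := nf_of hT hU.prj hU.lbD hU.nfD
  have c0 : (0 : ℝ) < U.c := Nat.cast_pos.2 hU.cp
  have nP : Nf T M.X (T.c1 M.X (uL U)) := by
    have := nf_smul hT (inv_pos.2 c0).le (nf_pull hT hf nD)
    rwa [hU.cD, smul_smul, inv_mul_cancel₀ c0.ne', one_smul] at this
  have h1 := P285T.Cb.NulH.rg (d := w + e) hT hU.ok hΛ.fb
    (hU.md.elim fun _ k => lb_pow (k.hol.lb hU.q.bir.res.lbL) _) nP hΛ.rig (k := l)
    (by simp [Ud.xw, hl]) O σ hO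
  obtain ⟨Z, i, hc, cZ, -⟩ := P270G.Rig2.cut (n := w + e) hO (hU.conn l)
  have hi := hc.emb.hol
  have ec := hT.rg.pull_comp hi hf (hf.comp hi) fun _ => rfl
  rw [hT.pl hc, map_pow] at h1
  rw [hT.pl hc, map_mul, map_pow, map_pow, ← ec]
  refine P285T.Cb.NulH.core hT (hf.comp hi) cZ (hU.fb.fibn.surj.connectedSpace hf.cont)
    (bf_pull hT hi ⟨Λ, hΛ.fb.lb, hΛ.fb.bpf, rfl⟩) hh nD hU.ntb h1 fun d b e1 hb h0 => ?_
  rw [ec, hU.cD, map_smul, smul_mul_assoc, map_smul,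
    hΛ.nt _ d Z i hi b e1 cZ P281Z.neg_empty hb h0, smul_zero]

end Vale.Agent.P270H
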