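import Vale.Agent.P270H.Defs
import Vale.Agent.P281Z.Pk.UpB
import Vale.Agent.P281Z.Pk.Ord
import Vale.Agent.P281.H864.Toc.Hur

/-!
# P270H: rows NZT and HOR
-/

open scoped Manifold ContDiff Topology
open Set Filter Function Metric
open Vale.Agent.P272.K Vale.Agent.P285.H281.FD Vale.Agent.P281Z Vale.Agent.P280Z
open Vale.Agent.P277Z (Hol at_chart nz_of_ne)
open Vale.Agent.P277Z.Slc (LEq isLB_can)
open Vale.Agent.P277.HD (pull)
open Vale.Agent.P285N (Tv)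
open Vale.Agent.P285N.Tp (Rd)
open Vale.Agent.P281Z.Pk (Fd)
open Vale.Agent.P285T.Cb (Ud Cf)

noncomputable section

namespace Vale.Agent.P270H

namespace Nzb

theorem line {E : Type} [NormedAddCommGroup E] [NormedSpace ℂ E] {g : E → ℂ}
    (hg : AnalyticAt ℂ g 0) (hne : ¬ ∀ᶠ z in 𝓝 0, g z = 0) :
    ∃ v : E, ¬ ∀ᶠ t in 𝓝 (0 : ℂ), g (t • v) = 0 := by
  obtain ⟨r, hr, hb⟩ := Metric.eventually_nhds_iff_ball.1 hg.eventually_analyticAt
  obtain ⟨y, hy, hyb⟩ := ((not_eventually.1 hne).and_eventually (ball_mem_nhds 0 hr)).exists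
  refine ⟨y, fun hz => hy ?_⟩
  have hT : Convex ℝ {t : ℂ | t • y ∈ ball (0 : E) r} :=
    (convex_ball (0 : E) r).is_linear_preimage (f := fun t : ℂ => t • y)
      { map_add := fun a b => add_smul a b _
        map_smul := fun a b => smul_assoc a b _ }
  have han : AnalyticOnNhd ℂ (fun t : ℂ => g (t • y)) {t : ℂ | t • y ∈ ball (0 : E) r} :=
    fun t ht => AnalyticAt.fun_comp (g := g) (f := fun t : ℂ => t • y) (hb _ ht)
      (analyticAt_id.smul analyticAt_const)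
  simpa using han.eqOn_zero_of_preconnected_of_eventuallyEq_zero hT.isPreconnected (z₀ := 0)
    (by simpa using hr) hz (show (1 : ℂ) ∈ _ by simpa using hyb)

variable {T : CT} {w e m : ℕ} {V : Mf (w + (e + 1))} {Q : Rd V} {F : Fd w (e + 1) w m}
  {A : Bd F.Z.X} {U : Ud Q F.T.toFb} {i : F.d.l.ι} {a : U.P.ι} {c : Chart (w + (e + 1)) F.T.X.X}
  {x : F.T.X.X} {C : Bd V.X} {E : Bd F.T.Y.X}

/-- the quotient of the two forms -/
def sg (U : Ud Q F.T.toFb) (i : F.d.l.ι) (a : U.P.ι) (x : F.T.X.X) : ℂ :=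
  F.d.t i (chartAt _ x) x ^ U.N / U.Ω (chartAt _ x) a x ^ m

theorem sg_eq (hU : Ok T U C E) (hF : Cf F A) (h1 : F.T.f x ∈ F.d.l.U i \ F.d.Q) (h2 : x ∈ U.P.U a)
    (hc : At c x) (hx : x ∈ off F.T.G) : sg U i a x = F.d.t i c x ^ U.N / U.Ω c a x ^ m := by
  have k1 : _ = (jacM _ c x).det ^ m * _ := (hF.sec i).chg _ c x h1 (at_chart x) hc hx
  have k2 : U.Ω _ a x * U.P.g a a x = _ * U.Ω c a x :=
    hU.ok.chg _ c a a x (at_chart x) hc h2 h2 hx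
  have k3 : (jacM _ c x).det ≠ 0 := isLB_can.ne_zero _ c x (at_chart x) hc
  rw [show U.P.g a a x = 1 from lb_self hU.ok.lb h2, mul_one] at k2
  rw [sg, k1, k2, mul_pow, mul_pow, ← pow_mul, ← pow_mul, mul_comm m,
    mul_div_mul_left _ _ (pow_ne_zero _ k3)]

theorem near (hU : Ok T U C E) (hF : Cf F A) (h1 : F.T.f x ∈ F.d.l.U i \ F.d.Q) :
    ∀ᶠ y in 𝓝 x, F.T.f y ∈ F.d.l.U i \ F.d.Q :=
  hU.fb.fibn.hol.cont.continuousAt.eventually ((lb_near hF.or.ok.base.lb h1.1).and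
    (hF.or.ok.thin.closed.isOpen_compl.mem_nhds h1.2))

theorem loc (hU : Ok T U C E) (hF : Cf F A) (h1 : F.T.f x ∈ F.d.l.U i \ F.d.Q) (h2 : x ∈ U.P.U a)
    (hc : At c x) {ζ : F.T.κ → F.T.X.X → ℂ} (hζ : ∀ l, LEq (w + (e + 1)) (F.T.G l) x (ζ l)) :
    ∃ u, Hol (w + (e + 1)) u x ∧ u x ≠ 0 ∧ ∀ᶠ y in 𝓝 x, y ∈ off F.T.G →
      sg U i a y = u y * (F.d.t i c y ^ U.N * ∏ l, ζ l y ^ ((m : ℤ) * U.m l)) := by
  obtain ⟨u, u1, u2, u3⟩ := hU.ok.unit c a x hc h2 ζ hζ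
  refine ⟨fun y => (u y)⁻¹ ^ m, (u1.inv u2).pow m, pow_ne_zero _ (inv_ne_zero u2), ?_⟩
  filter_upwards [u3, at_near hc, lb_near hU.ok.lb h2, near hU hF h1, off_iff hζ]
    with y y1 y2 y3 y4 y5 y6
  have k1 : ∏ l, ζ l y ^ ((m : ℤ) * U.m l) = (∏ l, ζ l y ^ U.m l) ^ m := by
    rw [← Finset.prod_pow]
    exact Finset.prod_congr rfl fun l _ => by rw [mul_comm, zpow_mul, zpow_natCast]
  have k2 : ∏ l, ζ l y ^ U.m l ≠ 0 :=
    Finset.prod_ne_zero_iff.2 fun l _ => zpow_ne_zero _ (y5.1 y6 l)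
  rw [sg_eq hU hF y4 y3 y2 y6, ← y1 y6, k1, mul_inv, mul_pow, inv_pow, inv_pow, mul_assoc,
    mul_comm (_ ^ U.N), inv_mul_cancel_left₀ (pow_ne_zero _ k2), div_eq_inv_mul]

theorem sec (hU : Ok T U C E) (hF : Cf F A) (i : F.d.l.ι) :
    SecP (w + (e + 1)) (w + (e + 1)) id (F.T.f ⁻¹' (F.d.l.U i \ F.d.Q)) (U.P.pow m) F.T.G
      (fun l => U.N * (m * (F.T.δ l : ℝ)) - ((m : ℤ) * U.m l : ℤ)) (sg U i) := by
  have hG := Hyp.of_snc hU.fb.snc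
  refine ⟨fun a x h1 h2 hx => ?_, fun a b x h1 h2 h3 hx => ?_, fun a x h1 h2 => ?_⟩
  · obtain ⟨ζ, hζ⟩ := hG x
    obtain ⟨u, u1, -, u3⟩ := loc hU hF h1 h2 (at_chart x) hζ
    refine (u1.mul ((((hF.sec i).hol _ x h1 (at_chart x) hx).pow U.N).mul (Hol.prod Finset.univ
      fun l _ => (hζ l).hol.zpow (mt (hζ l).mem.1 (hx l)) ((m : ℤ) * U.m l)))).congr ?_
    filter_upwards [u3, hG.isOpen.mem_nhds hx] with y y1 y2 using (y1 y2).symm
  · have k : U.Ω _ a x * U.P.g a b x = _ * U.Ω _ b x :=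
      hU.ok.chg _ _ a b x (at_chart x) (at_chart x) h2 h3 hx
    rw [show (jacM _ _ x).det = 1 from lb_self isLB_can (at_chart x), one_pow, one_mul] at k
    show _ / _ = U.P.g a b x ^ m * (_ / _)
    rw [← k, mul_pow, mul_div_assoc', mul_comm (U.P.g a b x ^ m),
      mul_div_mul_right _ _ (pow_ne_zero _ (hU.ok.lb.ne_zero a b x h2 h3))]
  · obtain ⟨ζ, hζ⟩ := hG x
    obtain ⟨u, u1, -, u3⟩ := loc hU hF h1 h2 (at_chart x) hζ
    exact (((((hF.sec i).bdP h1 (at_chart x)).pow continuousAt_id _).mul_mono continuousAt_id hζ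
      _).cmul u1.cont).congr u3

theorem fib (hU : Ok T U C E) (hF : Cf F A) (hr : U.Rf (e + 1) (F.T.f x))
    (h1 : F.T.f x ∈ F.d.l.U i \ F.d.Q) : ∃ (W : Mf (e + 1)) (j : W.X → F.T.X.X) (z : W.X),
      Emb (e + 1) (w + (e + 1)) j (F.T.f ⁻¹' {F.T.f x}) ∧ j z = x ∧ ∃ τ, Tv (pull j (U.P.pow m)) τ ∧
        ∀ a z, j z ∈ U.P.U a → j z ∈ off F.T.G → sg U i a (j z) = τ a z := by
  obtain ⟨W, j, hj, -⟩ := (hF.or.ok.reg _ h1.2).fib rfl hU.fb.fibn.hol hU.fb.snc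
  obtain ⟨z, hz⟩ : x ∈ range j := hj.rng.symm ▸ rfl
  obtain ⟨a, ha⟩ := hU.ok.lb.cover x
  obtain ⟨ζ, hζ, -⟩ := hU.fb.snc x
  obtain ⟨u, u1, u2, u3⟩ := loc hU hF h1 ha (at_chart x) hζ
  obtain ⟨y, ⟨y1, y2, y3⟩, y4, y5, y6, y7⟩ := ((hF.or.ok.ne i _ x h1.1 h1.2 (at_chart x)).and_eventually
    (u3.and ((u1.ne_near u2).and ((off_iff hζ).and (lb_near hU.ok.lb ha))))).exists
  obtain ⟨z', rfl⟩ : y ∈ range j := hj.rng.symm ▸ y1
  refine ⟨W, j, z, hj, hz, hr W j hj m _ _ (fun l hl => ?_)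
    (((sec hU hF i).comp hj.hol).res fun z _ => show F.T.f (j z) ∈ _ from hj.fib z ▸ h1)
    ⟨a, z', y7, y2.2, ?_⟩⟩
  · have k : (U.N : ℝ) * F.T.δ l ≤ U.m l := by exact_mod_cast (hU.del l).resolve_left hl
    have k' := mul_le_mul_of_nonneg_left k (Nat.cast_nonneg m)
    push_cast
    linarith
  · rw [y4 y2.2]
    exact mul_ne_zero y5 (mul_ne_zero (pow_ne_zero _ y3)
      (Finset.prod_ne_zero_iff.2 fun l _ => zpow_ne_zero _ (y6.1 y2.2 l)))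

end Nzb

open Nzb

/-- **NZT** -/
theorem nzt61 (h : RF) : NZT := by
  intro T hT hL w e m V Q F A U C E hU hF i c x h1 hc hx h0
  classical
  obtain ⟨S, s1, s2⟩ := h T hT hL w e V Q _ U C E hU
  have hf := hU.fb.fibn.hol
  have hQ : ∀ y ∈ off F.T.G, F.T.f y ∉ F.d.Q := fun y hy k => (hF.or.hQ ▸ k) (hF.or.sn.pre y hy)
  have hχ := at_chart (n := w) (F.T.f x)
  obtain ⟨ζ, hζ, -⟩ := hU.fb.snc x
  obtain ⟨p, -, p1, p2, p3, p4, -⟩ := Pk.Up.reg_pc (T := ∅) hf.cont.continuousAt hχ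
    (hF.or.ok.reg _ (hQ x hx)) hζ fun _ k => absurd k (Finset.notMem_empty _)
  have a1 : AnalyticAt ℂ (fun v => F.d.t i c (p.symm v)) (p x) := p1.an_hol (p.map_source p3)
    ((p.left_inv p3).symm ▸ (hF.sec i).hol c x ⟨h1, hQ x hx⟩ hc hx)
  have a2 : ∀ᶠ v in 𝓝 (p x), v ∈ p.target ∧ p.symm v ∈ off F.T.G ∧ At c (p.symm v) ∧
      F.T.f (p.symm v) ∈ F.d.l.U i \ F.d.Q := (p.open_target.eventually_mem (p.map_source p3)).and
    ((p.tendsto_symm p3).eventually (((Hyp.of_snc hU.fb.snc).isOpen.eventually_mem hx).and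
      ((at_near hc).and (near hU hF ⟨h1, hQ x hx⟩))))
  have a0 : F.d.t i c (p.symm (p x)) = 0 := (p.left_inv p3).symm ▸ h0
  have a3 : Tendsto (fun y => (p y).2) (𝓝 x) (𝓝 0) := by
    simpa [p4] using (p.continuousAt p3).snd.tendsto
  rw [p4] at a0 a1 a2
  obtain ⟨v, hv⟩ := line (g := fun z => F.d.t i c (p.symm (chartAt _ (F.T.f x) (F.T.f x), z)))
    (a1.fun_comp (f := fun z => (chartAt _ (F.T.f x) (F.T.f x), z)) (by fun_prop)) fun k => by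
      obtain ⟨y, ⟨y1, -, y2⟩, y3, y4⟩ := ((hF.or.ok.ne i c x h1 (hQ x hx) hc).and_eventually
        ((a3.eventually k).and (p.open_source.eventually_mem p3))).exists
      refine y2 (.trans ?_ y3)
      rw [show (chartAt _ (F.T.f x) (F.T.f x), (p y).2) = p y from Prod.ext
        ((congrArg _ y1.symm).trans (p2.fst y y4).2.symm) rfl, p.left_inv y4]
  have k1 : Tendsto (fun y => (chartAt (Cm w) (F.T.f x) y, (0 : Cm (e + 1)))) (𝓝 (F.T.f x)) (𝓝 _) :=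
    ((chartAt (Cm w) (F.T.f x)).continuousAt hχ.2).tendsto.prodMk_nhds tendsto_const_nhds
  obtain ⟨y, y1, ⟨s, ⟨y2, y3, y4, y5⟩, y6⟩, y7⟩ := ((s1.freq (F.T.f x)).and_eventually
    ((k1.eventually (P281.H864.Toc.hurwitz (v := (0, v)) a1 a0 (by simpa using hv) a2)).and
      (at_near hχ))).exists
  have y8 := p2.fst _ (p.map_target y2)
  rw [p.right_inv y2] at y8
  rw [(chartAt (Cm w) (F.T.f x)).injOn y7.2 y8.1 (by simpa using y8.2)] at y1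
  obtain ⟨W, j, z, -, hz, τ, t1, t2⟩ := fib hU hF (s2 _ y1) y5
  obtain ⟨a, ha⟩ := hU.ok.lb.cover (j z)
  refine t1.2 z a ha ?_
  rw [← t2 a z ha (hz ▸ y3), hz, sg_eq hU hF y5 (hz ▸ ha) y4 y3, y6, zero_pow hU.ok.pos.ne',
    zero_div]

/-- **HOR** -/
theorem hor61 (h : RF) : HOR := by
  intro T hT hL w e m V Q F A U C E hU hF l hl
  classical
  obtain ⟨S, s1, s2⟩ := h T hT hL w e V Q _ U C E hU
  have hf := hU.fb.fibn.hol
  obtain ⟨x₀, h0⟩ := (hU.conn l).nonempty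
  obtain ⟨x₁, h1, h2⟩ := ((Pk.Og.od_only hU.fb.snc l).freq h0).exists
  have h3 : F.T.f x₁ ∉ F.d.Q := fun k => (hF.or.hQ ▸ k) fun j b =>
    (hF.or.sn.pos h2 b).ne' (hl j)
  obtain ⟨i, hi⟩ := hF.or.ok.base.lb.cover (F.T.f x₁)
  obtain ⟨ζ, hζ, -⟩ := hU.fb.snc x₁
  obtain ⟨b, b1, -, b2, b3⟩ := hF.or.ot i _ x₁ hi (at_chart x₁) ζ hζ
  obtain ⟨x₂, ⟨c1, c2⟩, c3⟩ := ((b3 l h1).and_eventually (b1.near.and (b2.eventually_nhds.and
    ((near hU hF ⟨hi, h3⟩).and ((at_near (at_chart (n := w + (e + 1)) x₁)).and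
      (eventually_all.2 fun k => (hζ k).near))))).eventually_nhds).exists
  have c4 := c3.self_of_nhds
  obtain ⟨x, ⟨d1, d2⟩, d3, d4, d5, d6, d7, d8⟩ := ((Pk.Up.move (T := {l}) hf.cont.continuousAt
    (hF.or.ok.reg _ c4.2.2.1.2) c4.2.2.2.2 (fun k hk => Finset.mem_singleton.1 hk ▸ c1)
      s1).and_eventually ((c4.1.ne_near c2).and c3)).exists
  obtain ⟨W, j, z, hj, rfl, τ, t1, t2⟩ := fib hU hF (s2 _ d2) d6
  obtain ⟨a, ha⟩ := hU.ok.lb.cover (j z)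
  obtain ⟨u, u1, u2, u3⟩ := loc hU hF d6 ha d7 d8
  have hr := hF.or.ok.reg _ d6.2
  have hc := hj.hol.cont.continuousAt (x := z)
  have fr : ∀ {β : W.X → ℂ}, β z ≠ 0 → ∀ k, z ∈ j ⁻¹' F.T.G k →
      ∃ᶠ y in 𝓝 z, y ∈ j ⁻¹' F.T.G k ∧ β y ≠ 0 := fun k1 _ k2 =>
    mem_closure_iff_frequently.1 (subset_closure ⟨k2, k1⟩)
  have e1 := mul_ne_zero u2 (pow_ne_zero U.N d3)
  refine (ordAt_of_one (u := fun y => sg U i a (j y)) (k := fun k => U.N * F.o k + m * U.m k)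
    (hr.leq hf hj d8) (b := fun y => u (j y) * b (j y) ^ U.N) (hj.hol.hol (u1.mul (d4.pow _)))
    (nz_of_ne e1) ?_ (fr e1)).unique (hr.snc hf hU.fb.snc hj) (ordAt_of_one (k := fun _ => 0)
      (hr.leq hf hj d8) (sec_hol t1.1 ha) (nz_of_ne (t1.2 z a ha)) ?_ (fr (t1.2 z a ha)))
    (d1 l (Finset.mem_singleton_self l))
  · filter_upwards [hc.eventually u3, hc.eventually d5, hc.eventually (off_iff d8)] with y y1 y2 y3 y4
    rw [y1 y4, y2 y4, mul_pow, mul_assoc, mul_assoc, ← Finset.prod_pow, ← Finset.prod_mul_distrib]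
    refine congrArg _ (congrArg _ (Finset.prod_congr rfl fun k _ => ?_))
    rw [zpow_add₀ (y3.1 y4 k), mul_comm (U.N : ℤ), zpow_mul _ (F.o k), zpow_natCast]
  · filter_upwards [hc.eventually (lb_near hU.ok.lb ha)] with y y1 y2
    simpa using t2 a y y1 y2

end Vale.Agent.P270H
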