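import Vale.Agent.P270H.Defs
import Vale.Agent.P270G.Contr
import Vale.Agent.P285T.Cb.Wpr

/-!
# P270H, row PH0: the nef bundle is the positive part
-/

open scoped Topology
open Set Filter
open Vale.Agent.P272.K Vale.Agent.P285.H281.FD Vale.Agent.P281Z
open Vale.Agent.P277Z (Hol)
open Vale.Agent.P277Z.Slc (IsDiv lin)
open Vale.Agent.P277.HD (pull)
open Vale.Agent.P285N
open Vale.Agent.P270G.CtH (pow_sec)

noncomputable section

namespace Vale.Agent.P270H

/-- a section without a zero at a point of `G l` bounds the multiplicity -/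
theorem Ph0.bound {d : ℕ} {κ ι : Type} [Fintype κ] {A : Pr d κ ι} {m : κ → ℤ} {O : κ → Bd A.Z.X}
    {σ : ∀ l, (O l).ι → A.Z.X → ℂ} {H L M : Bd A.Z.X} {C a b : ℕ} {f : κ → ℕ}
    (hS : P277Z.Slc.Snc d A.G) (hO : ∀ l, IsDiv d (A.G l) (O l) (σ l)) (hF : Xc.Fp A m H L C)
    (hm : ∀ l, m l = -1 ∨ m l = 0 ∧ f l = 0) (hM : IsLB d M)
    (e : cls d M = a • cls d H + b • cls d L + ∑ l, f l • cls d (O l))
    {s : M.ι → A.Z.X → ℂ} (hs : IsSec d M s) {z : A.Z.X} {l₀ : κ} (hz : z ∈ A.G l₀)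
    (h0 : NZ M s z) : f l₀ ≤ C * (a + 1) := by
  classical
  have lO := fun l => (hO l).lb
  let k : κ → ℤ := fun l => -(f l : ℤ)
  have l2 := holM_id.lb (lb_lin lO k)
  have h1 := hF a b (∑ l, f l) _ _ (lb_mul hM l2) (by
      rw [cls_mul hM l2, e]
      refine (congrArg (_ + ·) (cls_lin lO k)).trans ?_
      have : ∑ l, k l • cls d (O l) = -∑ l, f l • cls d (O l) := by
        rw [← Finset.sum_neg_distrib]
        exact Finset.sum_congr rfl fun l _ => by rw [neg_smul, natCast_zsmul]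
      rw [this, add_neg_cancel_right])
    (((secP_of_sec (c := fun _ => 0) continuous_id hs fun _ => le_rfl).mul
      continuous_id (secP_div holM_id hO k).1).mono continuous_id fun l => by
        have q : f l ≤ (∑ l, f l) * (-m l).toNat := by
          rcases hm l with h | h
          · rw [h, neg_neg, Int.toNat_one, mul_one]
            exact Finset.single_le_sum (fun _ _ => Nat.zero_le _) (Finset.mem_univ l)
          · rw [h.2]
            exact Nat.zero_le _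
        rw [zero_add, Int.cast_neg, neg_neg, Int.cast_natCast]
        exact Nat.cast_le.2 q)
  obtain ⟨i, hi⟩ := hM.cover z
  choose g hg using fun l => (lO l).cover z
  have u0 := h0 i hi
  have h2 := ((ordAt_of_one (k := k) (u := fun w => s i w * ∏ l, σ l (g l) w ^ k l)
    (fun l => (hO l).leq _ z (hg l)) (sec_hol hs hi)
    (fun h => u0 h.self_of_nhds) (.of_forall fun _ _ => rfl)
    fun l hl h => h.self_of_nhds ⟨hl, u0⟩).bdP_iff hS).1
    (h1.bdP (a := (i, g)) trivial ⟨hi, hg⟩) l₀ hz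
  rw [Int.cast_neg, Int.cast_natCast, ← sub_eq_add_neg, sub_nonneg, Nat.cast_le] at h2
  rcases hm l₀ with h | h
  · rwa [h, neg_neg, Int.toNat_one, mul_one] at h2
  · rw [h.2]
    exact Nat.zero_le _

/-- row PH0 -/
theorem ph0_of (hU : FPU) : PH0 := by
  intro d κ ι _ A m N O σ φ c L Q hI R H Ψ hc hH hR hZ hG hB l₀
  classical
  subst hc
  by_contra p0
  have hπ := hR.md.hol
  have hL := hπ.lb hI.lb
  have hH₀ := hπ.lb hH
  obtain ⟨H', C, hH', hP, hF⟩ := hU d κ ι R.κ' R.ι' A R.B _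
    (fun l => if R.Φ l ≠ 0 ∨ R.φ l ≠ 0 then -1 else 0) R.π _ L ⟨hI.ok.conn, hI.ok.prj⟩ hR.ok.prj
    hI.ok.snc hR.ok.snc hR.md hI.lb (fun y hy =>
      have k : R.π y ∈ off A.G := fun k a => (hR.pre y k a).elim fun l b => hy l b.1
      ⟨k, hR.md.imm fun ⟨l, _, a⟩ => k l a⟩)
    (fun l hl y hy => .inr <| by
      obtain ⟨k, a, b⟩ := hR.sup l (by_contra fun h => by simp [h] at hl) y hy
      exact ⟨k, by omega, b⟩) hB
  have hb : ∀ b, IsLB d (![H', pull R.π H] b) := Fin.forall_fin_two.2 ⟨hH', hH₀⟩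
  obtain ⟨c, hc⟩ := Xc.gg_of Xc.pa d R.B.Z (Fin 2) ![H', pull R.π H] ![1, 0] ![0, -1] hb
    (Xc.piso d _ H' _ hH' (lb_lin hb _) (by rw [cls_lin hb]; simp) hP)
  obtain ⟨W, w1, w2⟩ := hc c le_rfl
  have hV := lb_lin hb (![0, -1] + c • ![1, 0])
  have eV : cls d (lin ![H', pull R.π H] (![0, -1] + c • ![1, 0])) =
      c • cls d H' - cls d (pull R.π H) := by
    rw [cls_lin hb, sub_eq_add_neg]
    simp
  set V := lin ![H', pull R.π H] (![0, -1] + c • ![1, 0])
  obtain ⟨x, y, hy, hx, hf⟩ := hZ.free (C * (R.δ * c + 1))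
  obtain ⟨M, hM, e⟩ := P285T.Cb.Wpr.ex_cls (x • cls d R.Q +
    y • (R.δ • cls d (pull R.π H) + ∑ l, Ψ l • cls d (R.O l)))
  obtain ⟨z, hz⟩ := (hG l₀).nonempty
  obtain ⟨s, s1, s2⟩ := hf M hM e z
  obtain ⟨v, v1, v2⟩ := w2 z
  have hv := pow_sec (w1 v v1) (y * R.δ)
  have l1 := lb_pow hV (y * R.δ)
  have h1 := Ph0.bound (a := y * R.δ * c) (b := x * R.δ) (f := fun l => x * R.φ l + y * Ψ l)
    (s := fun a w => s a.1 w * v a.2 w ^ (y * R.δ)) hR.ok.snc hR.div hF (fun l => by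
      by_cases h : R.Φ l ≠ 0 ∨ R.φ l ≠ 0
      · exact .inl (if_pos h)
      · refine .inr ⟨if_neg h, ?_⟩
        have k := not_or.1 h
        rw [not_not.1 k.2, show Ψ l = 0 from by_contra fun a => k.1 (hZ.psi l a)]
        rfl)
    (lb_mul hM l1) (by
      have k := hR.eff
      rw [one_smul] at k
      rw [cls_mul hM l1, cls_pow hV, e, eV, k]
      simp only [add_smul, mul_smul, Finset.sum_add_distrib, ← Finset.smul_sum, smul_add, smul_sub]
      abel)
    (isSec_of (fun a w ha => (sec_hol s1 ha.1).mul (sec_hol hv ha.2)) fun a b w ha hb => by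
      have k := hv.change a.2 b.2 w ha.2 hb.2
      rw [s1.change a.1 b.1 w ha.1 hb.1, k]
      exact mul_mul_mul_comm _ _ _ _)
    hz fun a ha => mul_ne_zero (s2 _ ha.1) (pow_ne_zero _ (v2 _ ha.2))
  have q1 : x ≤ x * R.φ l₀ := Nat.le_mul_of_pos_right _ (Nat.pos_of_ne_zero p0)
  have q2 : C * (y * R.δ * c + 1) ≤ C * (R.δ * c + 1) * y := by
    rw [mul_assoc C]
    exact Nat.mul_le_mul_left _ (by rw [add_mul, one_mul, mul_comm _ y, mul_assoc]; omega)
  omega

end Vale.Agent.P270H
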