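import Vale.Agent.P270H.Defs
import Vale.Agent.P285T.Cb.Wpr
import Vale.Agent.P285S.Tp.Upc
import Vale.Agent.P285S.Tp.Thr
import Vale.Agent.P285S.Mm.Grz
import Vale.Agent.P285W.J.Scale
import Vale.Agent.P285W.Bs.All

/-!
# P270H: pseudo-effective classes go down (row PSB)
-/

open Set Filter Function
open Vale.Agent.P272.K Vale.Agent.P285.H281.FD Vale.Agent.P281Z Vale.Agent.P280Z
open Vale.Agent.P277.HD (pull)
open Vale.Agent.P285S (Ef Pse)
open Vale.Agent.P285S.Tp (ef_add ef_smul dense_nz')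
open Vale.Agent.P285T.Cb.Wpr (ex_cls ex_cp)

namespace Vale.Agent.P270H

namespace PsbH

/-- a class which is numerically positive has an effective multiple -/
theorem ef_kc {T : CT} (hT : T.OK) {n : ℕ} {V : Mf n} [Nonempty V.X] {L : Bd V.X} (hL : IsLB n L)
    (h : T.Kc V (T.c1 V L)) : ∃ r : ℕ, 0 < r ∧ Ef V (r • cls n L) := by
  obtain ⟨r, hr, k⟩ := P285W.J.ScaleX.ex_bpf hL (hT.kp V L hL h)
  obtain ⟨x⟩ : Nonempty V.X := inferInstance
  obtain ⟨s, s1, s2⟩ := k x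
  exact ⟨r, hr, _, s, lb_pow hL r, cls_pow hL r, s1, x, s2⟩

end PsbH

open PsbH

theorem psb_of (h1 : P285W.Bs.MSEC) (h2 : P285W.J.PUSH) : PSB := by
  intro T hT n w X W f hf P E c cX cW sf lP lE e ⟨η, hη⟩
  have := cX.conn
  have := cW.conn
  obtain ⟨B, lB, rfl⟩ := ex_cls η
  choose j hj D t lD cD ht hx using hη
  obtain ⟨S, i, cS, hi, hN, x, hx'⟩ := h1 T hT n w X W f (⋃ k, {x | ¬ NZ (D k) (t k) x}) cX cW hf
    sf (.iUnion fun k => (P285W.J.Ps.thin_z (lD k) (ht k) (dense_nz' (lD k) (ht k) (hx k))).neg)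
  have := cS.conn
  have hg : HolM w w fun x => f (i x) := hf.comp hi
  have sg : Surjective fun x => f (i x) := range_eq_univ.1 (An.eq_univ (x := f (i x))
    (image_univ (f := fun x => f (i x)) ▸ rem w w S W _ univ hg an_univ) (by
      rw [← (imm_iff_sbm.1 hx').map_nhds (hg.at x)]
      exact range_mem_map))
  obtain ⟨A, lA, pA⟩ := id cW.prj
  have l0 := lb_zp (hi.lb lB) (-1)
  obtain ⟨a, s, s1, s2⟩ := P285S.Tp.kod_fin cS.conn hg ⟨x, hx'⟩ lA pA l0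
  obtain ⟨cS', kS⟩ := ex_cp hT S
  obtain ⟨cX', kX⟩ := ex_cp hT X
  obtain ⟨cW', kW⟩ := ex_cp hT W
  refine ⟨(a + 1) • cls w A, fun k => ?_⟩
  have l1 := lb_mul (lb_pow lE k) (lb_pow lA a)
  have l2 := lb_mul (lb_pow (hg.lb lA) a) l0
  obtain ⟨y, hy⟩ := hN.dense.nonempty
  obtain ⟨M, σ, m1, m2, m3, m4⟩ := ef_add (⟨_, _, hi.lb (lD (k * c)), rfl, hi.sec (ht _), y,
    not_not.1 fun c => hy (mem_iUnion.2 ⟨_, c⟩)⟩ : Ef S _)
    (ef_smul (P285S.Mm.ef_of l2 s1 s2) (j (k * c)))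
  have pg : ∀ b, T.pull hg b = T.pull hi (T.pull hf b) := fun b =>
    hT.rg.pull_comp hi hf hg (fun _ => rfl) b
  obtain ⟨m, hm, M', σ', a1, a2, a3, a4⟩ := h2 T hT w W _ cW.conn cW.prj l1 ⟨S, _, hg, j (k * c),
    cS.conn, cS.prj, sg, Nat.cast_pos.2 (hj _), M, σ, m1, m3, dense_nz' m1 m3 m4, by
      rw [← kS _ m1, m2, map_add, map_nsmul, kS _ (hi.lb (lD _)), hT.c1.pull hi _ (lD _),
        ← kX _ (lD _), cD, cls_mul (lb_pow (hg.lb lA) a) l0, cls_pow (hg.lb lA),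
        cls_zp (hi.lb lB), hT.c1.mul _ _ _ (lb_pow lE k) (lb_pow lA a), hT.c1.pow _ _ _ lE,
        hT.c1.pow _ _ _ lA]
      simp only [map_add, map_nsmul, map_smul, map_neg, neg_smul, one_smul, kX _ lP, kX _ lB,
        kS _ (hg.lb lA), kS _ (hi.lb lB), hT.c1.pull hg _ lA, hT.c1.pull hi _ lB, pg, e,
        ← Nat.cast_smul_eq_nsmul ℝ, Nat.cast_mul]
      module⟩
  obtain ⟨R, lR, cR⟩ := ex_cls (m • (k • cls w E + (a + 1) • cls w A) - cls w M')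
  obtain ⟨r, hr, e1⟩ := ef_kc hT lR (by
    have : T.c1 W R = (m : ℝ) • T.c1 W A := by
      rw [← kW _ lR, cR, map_sub, kW _ a1, a4, hT.c1.mul _ _ _ (lb_pow lE k) (lb_pow lA a),
        hT.c1.pow _ _ _ lE, hT.c1.pow _ _ _ lA]
      simp only [map_add, map_nsmul, kW _ lE, kW _ lA, ← Nat.cast_smul_eq_nsmul ℝ, Nat.cast_succ]
      module
    exact this ▸ hT.po.smul _ (Nat.cast_pos.2 hm) (hT.c1.pos W A lA pA))
  have e2 := ef_add e1 (ef_smul (⟨M', σ', a1, rfl, a2, a3.nonempty⟩ : Ef W _) r)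
  rw [← smul_add, cR, sub_add_cancel, smul_smul] at e2
  exact ⟨_, Nat.mul_pos hr hm, e2⟩

theorem psb : PSB := psb_of P285W.Bs.msec P285W.Ct.push

end Vale.Agent.P270H
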