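import Vale.Agent.P270H.Defs
import Vale.Agent.P285T.Cb.Rf66

/-!
# P270H, row RF: rigidity on the fibres
-/

open scoped Manifold ContDiff Topology
open Set Filter Function
open Vale.Agent.P272.K Vale.Agent.P285.H281.FD Vale.Agent.P281Z Vale.Agent.P280Z
open Vale.Agent.P277.HD (pull)
open Vale.Agent.P285W Vale.Agent.P285W.J Vale.Agent.P285W.Bs
open Vale.Agent.P270G.Mm1H (ex_cp)
open Vale.Agent.P285T.Cb.Rf66 (onF out num)

noncomputable section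

namespace Vale.Agent.P270H

/-- row RF -/
theorem rf_of (hZ : P285S.Sf.FCZ) (h1 : LAM) (h2 : NUL) : RF := by
  intro T hT hF w e V Q M U C E hU
  classical
  obtain ⟨Λ, hΛ⟩ := h1 T hT hF w e V Q M U C E hU
  obtain ⟨H, lH, pH, D, t, d1, d2, d3, d4⟩ := hΛ.fb.big
  have lΛ := hΛ.fb.lb
  have hM := hU.fb
  have := hM.conn
  have := hM.fibn.connY
  have hf := hM.fibn.hol
  have cX : Cp M.X := ⟨hM.conn, hU.ok.prj⟩
  obtain ⟨S₁, q1, q2⟩ := genS _ w M.X M.Y M.f _ M.G hf hM.snc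
  obtain ⟨S₂, q3, q4⟩ := out hf hM.fibn.surj (P285S.Ca.EfH.thin_nz d1 d3 d4)
  obtain ⟨A, lA, pA⟩ := id hU.prj
  obtain ⟨r, r0, hr⟩ := ScaleX.ex_bpf lA pA
  have kA : T.Kc M.Y (T.c1 M.Y (A.pow r)) := hT.c1.pow _ _ r lA ▸
    hT.po.smul r (Nat.cast_pos.2 r0) (hT.c1.pos _ _ lA pA)
  have bA : Bf T M.Y (T.c1 M.Y (A.pow r)) := ⟨_, lb_pow lA r, hr, rfl⟩
  have fq : Fq (w + (e + 1)) w M.f S₁ := ⟨hf, q1, fun x hx => (q2 _ hx).sbm hf hM.snc rfl,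
    fun y _ => hM.fibn.conn_all y⟩
  obtain ⟨O, σ, hO⟩ := (Hyp.of_snc hM.snc).exists_div
  obtain ⟨cp, hp⟩ := ex_cp hT M.X
  refine ⟨S₁ ∪ S₂, q1.union q3, fun y hy F i hi j c s hc hs ⟨a, x, x1, x2, x3⟩ => ?_⟩
  have hr := q2 y fun k => hy (.inl k)
  have hj := hi.hol
  have cF : Cp F := ⟨hi.conn.2 (hM.fibn.conn_all y), _, hj.lb lH, Lf.pos_pull hj hi.imm pH⟩
  have := cF.conn
  have lP := lb_pow hU.ok.lb j
  have hs' := (hr.secP hf hM.snc hi).1 hs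
  obtain ⟨x', rfl, x5⟩ := q4 y fun k => hy (.inr k)
  obtain ⟨z, rfl⟩ := hi.ex (rfl : x' ∈ M.f ⁻¹' {M.f x'})
  refine onF hT cF (hr.snc hf hM.snc hi) (O := fun l => pull i (O l)) (σ := fun l a x => σ l a (i x))
    (fun l => ⟨hj.lb (hO l).lb, hj.sec (hO l).sec, fun a x ha =>
      hr.leq1 hf hM.snc hi ((hO l).leq a _ ha)⟩) (hj.lb lP) ?_
    (bf_pull hT hj ⟨Λ, lΛ, hΛ.fb.bpf, rfl⟩) (kc_pull hT hj hi.imm (hT.c1.pos _ H lH pH))
    ⟨_, _, hj.lb d1, hj.sec d3, P285S.Tp.dense_nz' (hj.lb d1) (hj.sec d3) ⟨z, not_not.1 x5⟩, by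
      rw [hT.c1.pull hj D d1, ← map_sub, ← hp _ d1, d2, map_sub, hp _ lΛ, hp _ lH]⟩
    (fun l => if U.Ex l then ⌈c l⌉₊ else 0) (fun l hl => ?_) (hs'.mono continuous_id fun l => ?_)
    ⟨x, x2, (hs'.nz_iff (hj.lb lP) trivial x2 x1).2 x3⟩
  · have e1 := congrArg (T.pull hj) hU.cE
    rw [← hT.rg.pull_comp hj hf (hf.comp hj) fun _ => rfl, CutsH.pull_const hT (hf.comp hj)
      (fun a b => (hi.fib a).trans (hi.fib b).symm) (hT.c1.deg _ _), map_smul] at e1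
    rw [hT.c1.pull hj _ lP, hT.c1.pow _ _ _ hU.ok.lb, map_smul,
      (smul_eq_zero.1 e1.symm).resolve_left (Nat.cast_ne_zero.2 hU.cp.ne'), smul_zero]
  · have hx : U.Ex l := by_contra fun k => hl (if_neg k)
    have e1 := h2 T hT hF w e V Q M U C E hU hU Λ _ hΛ bA l hx _ _ (hO l)
    rw [hT.c1.pull hj _ (hO l).lb, ← map_pow, ← map_mul]
    refine num hZ hT fq hi cX ⟨inferInstance, hU.prj⟩ (fun k => hy (.inl k)) kA bA
      (by rw [mul_comm]; exact dg_mul hT (dg_pow hT (hT.c1.deg _ _) e) (hT.c1.deg _ _)) ?_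
    rw [mul_left_comm]
    exact e1
  · split_ifs with k
    exacts [Nat.le_ceil _, (hc l k).trans_eq Nat.cast_zero.symm]

end Vale.Agent.P270H
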