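import Vale.Agent.P270H.Defs
import Vale.Agent.P270G.Rfk

/-!
# P270H: the nef reduction (row RKG)
-/

open scoped Manifold ContDiff Topology
open Set Filter Function
open Vale.Agent.P272.K Vale.Agent.P285.H281.FD Vale.Agent.P281Z Vale.Agent.P280Z
open Vale.Agent.P285N Vale.Agent.P285W Vale.Agent.P285W.J Vale.Agent.P285W.Bs
open Vale.Agent.P285S.B2 (Zr Nu Ba)
open Vale.Agent.P270G (nuu)
open Vale.Agent.P270G.KdH Vale.Agent.P270G.RfkH

noncomputable section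

namespace Vale.Agent.P270H

/-- **row RKG** -/
theorem rkg : RKG := by
  intro T hT n ν V L C M cV lL lC lM nL nM hE eC ν0 νn hν
  have := cV.conn
  have hl := nf_of hT cV.prj lL nL
  have hμ := nf_of hT cV.prj lM nM
  obtain ⟨H, lH, pH⟩ := id cV.prj
  by_cases hTr : Neg n (Tr T V (T.c1 V L))
  · have kH := hT.c1.pos V H lH pH
    refine .inr ⟨V, _, _, modif_id, T.c1 V H, Tr T V (T.c1 V L), cV.prj, ?_⟩
    rw [hT.rg.pull_id]
    refine ⟨kc_nf hT kH, fun k => hν.1 (P270F.Tk.zr_dm hT (kc_nf hT kH) (P270F.Tk.dm_kc kH)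
      (hl.mn.pow ν) (dg_pow hT (nf_dg hT hl) ν) (j := n - (ν + 1) + 1) (by omega) ?_), hTr,
      nt_of Ct.cuts T hT n V _ _ hl (hT.c1.deg V H)⟩
    rw [pow_succ', ← mul_assoc]
    exact k _ ((kc_nf hT kH).mn.pow _)
  obtain ⟨q, q0, q1, q2, q3⟩ := DescX.scale hT lL lH (nL H lH pH)
  have q4 : (q : ℝ) ≠ 0 := Nat.cast_ne_zero.2 q0.ne'
  have eq := hT.c1.pow V L q lL
  have l2 : T.c1 V L ^ ν ≠ 0 := fun k => hν.1 fun y _ => by rw [k, zero_mul, map_zero]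
  obtain ⟨b, d, F, D', H', δ, e, d0, hD, g2⟩ := P285S.B2.red hT
    (⟨cV.conn, lb_pow lL q, lb_pow lH q, q1, q2, q3⟩ : Ba V _ _)
    (by rw [eq]; exact smul_ne_zero q4 fun k => l2 (by rw [k, zero_pow ν0.ne']))
    fun k => hTr (k.mono fun y ⟨c, f, hf, a1, a2, a3, a4⟩ =>
      ⟨c, f, hf, a1, a2, a3, by rw [eq, map_smul, map_smul, a4, smul_zero]⟩)
  obtain ⟨S, hS⟩ := hD.md
  have := F.cZ.conn
  have := F.cV.conn
  rcases lt_trichotomy b ν with k | rfl | k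
  · have h1 := congrArg (T.pull F.fq.hol) (dg_zero hT (dg_pow hT (hT.c1.deg _ D') ν) k)
    rw [map_pow, hD.cls, map_zero, smul_pow, ← map_pow,
      smul_eq_zero_iff_right (pow_pos (Nat.cast_pos.2 hD.dpos) ν).ne'] at h1
    have h2 := inj.inj T hT n n F.V V F.e F.he _ F.cV cV F.surj h1
    rw [eq, smul_pow, smul_eq_zero_iff_right (pow_ne_zero ν q4)] at h2
    exact (l2 h2).elim
  · left
    obtain ⟨d, rfl⟩ := Nat.exists_eq_succ_of_ne_zero d0.ne'
    obtain ⟨a, a0, s, hs, i₀, x₀, s1, s2⟩ := hE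
    have lCa := lb_pow lC a
    have th := Ps.thin_z lCa hs (KodA.dense_nz lCa hs s1 s2)
    obtain ⟨t₀, ht⟩ := (F.fq.thin.neg.union
      (negf n b F.V F.Z F.π F.Q _ F.fq (hS.pre_neg th.neg)).1).dense.nonempty
    rw [mem_compl_iff, mem_union, not_or] at ht
    obtain ⟨x, hx, hx'⟩ := not_subset.1 ht.2
    obtain ⟨B, i, hi⟩ := fib_emb (d := d + 1) (y := t₀) e F.fq.hol
      fun x k => F.fq.sbm x (k ▸ ht.1)
    have cB : Cp B := ⟨hi.conn.2 (F.fq.conn t₀ ht.1), prj_of_imm hT hi.hol hi.imm F.cV.prj⟩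
    have := cB.conn
    obtain ⟨v, hv⟩ := (hT.po.kah B).1 (P285S.B2.kah_of hT cB.prj)
    have mv := (kc_nf hT hv).mn.pow d
    have hp := F.he.comp hi.hol
    have pc : ∀ y, T.pull hp y = T.pull hi.hol (T.pull F.he y) :=
      hT.rg.pull_comp hi.hol F.he hp fun _ => rfl
    have z1 : T.pull hp (T.c1 V L) = 0 := by
      have := (congrArg (T.pull hp) eq).symm.trans
        ((pc _).trans (F.tv t₀ ht.1 _ B i hi.hol cB hi.rng.le))
      rwa [map_smul, smul_eq_zero_iff_right q4] at this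
    obtain ⟨y, rfl⟩ : x ∈ range i := hi.rng ▸ hx
    have z2 := ef_int hT (ef_pull hT hp lCa hs (Thin.pre_of_ex th.an hp ⟨y, hx'⟩).neg) mv
    have z3 := congrArg (fun u => T.int B (T.pull hp u * v ^ d)) eC
    have z4 := mn_int hT ((nf_pull hT hp hμ).mn.mul mv)
    rw [hT.c1.pow V _ _ lC, map_smul, smul_mul_assoc, map_smul, smul_eq_mul,
      mul_nonneg_iff_of_pos_left (Nat.cast_pos.2 a0)] at z2
    simp only [z1, map_zero, map_add, zero_mul, add_mul] at z3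
    have z5 : T.pull hp (T.c1 V M) = 0 := nf_zero hT cB.conn hv (nf_pull hT hp hμ) (by linarith)
    have eX := hT.c1.mul V _ _ lL lM
    have nX : Nf T V (T.c1 V (L.mul M)) := eX ▸ nf_add hT hl hμ
    obtain ⟨F', D₁, H₁, δ₁, hD₁⟩ := desc T hT n b _ V (L.mul M) H
      ⟨F.V, F.Z, F.π, F.e, F.Q, F.cV, F.cZ, F.fq, F.he, F.surj,
        prop_of cur2 lam T hT n b _ F.V F.Z F.π F.Q _ t₀ e d0 F.cV.prj F.cZ F.fq
          (nf_pull hT F.he nX) ht.1 (hi.rng ▸ tvs.rng T hT _ n B F.V i hi.hol _ cB (by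
            rw [← pc, eX, map_add, z1, z5, add_zero]))⟩ S e d0 cV (lb_mul lL lM) lH
      (pos hT cV.prj lL lM lH pH nL nM) hS
    obtain ⟨_, ⟨E, σ, e1, e2, e3, rfl⟩, h2⟩ := core hT F'.cZ.conn hD₁.lD hD₁.lH hD₁.pos
      fun k => hν.1 (zr hT hl hμ fun y _ => by
        rw [← eX, P285S.B2.pow_zero_of hT hD₁ cV k, zero_mul, map_zero])
    obtain ⟨S', hS'⟩ := hD₁.md
    have := F'.cV.conn
    refine ⟨F'.V, F'.e, S', hS', _, F'.cV.prj, ef_pull hT F'.fq.hol e1 e2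
      ((Ps.thin_z e1 e2 e3).pre_surj F'.fq.hol (DescX.surj F'.fq)).neg, fun j => ?_⟩
    obtain ⟨c, r, u, u1, u2, u3⟩ := h2 j
    refine ⟨c * δ₁, r, _, u1.trans_le (Nat.le_mul_of_pos_right _ hD₁.dpos),
      bf_pull hT F'.fq.hol u2, ?_⟩
    have k := congrArg (T.pull F'.fq.hol) u3
    rw [map_add, map_smul, map_smul, hD₁.cls, smul_smul, ← Nat.cast_mul] at k
    exact (congrArg (fun z => ((c * δ₁ : ℕ) : ℝ) • T.pull F'.he z) eX).symm.trans k
  · have kH : T.Kc F.Z (T.c1 F.Z H') := by simpa using DescX.kc hT hD.lD hD.lH (hD.pos 0)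
    have nα := nf_pull hT F.fq.hol (kc_nf hT kH)
    have g3 := ntb_of nim c1p fpm fpc negf T hT _ _ d V _ F D' H' δ e hD g2
    subst e
    refine .inr ⟨F.V, F.e, S, hS, _, F.π ⁻¹' Tr T F.Z (T.c1 F.Z D'), F.cV.prj, nα, fun z => ?_,
      g3.pre fun _ z => z.pre_surj F.fq.hol (DescX.surj F.fq), fun m j U p hp y e hU h1 h2 h3 => ?_⟩
    · have nD := DescX.nef hT hD.lD hD.lH hD.pos
      have nl := nf_pull hT F.he hl
      have c1 : (1 : ℝ) ≤ δ * q := by exact_mod_cast Nat.mul_pos hD.dpos q0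
      have e1 : T.pull F.fq.hol (T.c1 F.Z D') = ((δ : ℝ) * q) • T.pull F.he (T.c1 V L) := by
        rw [hD.cls, congrArg (T.pull F.he) eq, map_smul, smul_smul]
      replace z := (P270F.Tk.nu_dom hT F.cV (P270F.Tk.Nq.pull hT ⟨hl, _, lL, rfl⟩ F.he)
        (P270F.Tk.Nq.pull hT ⟨kc_nf hT kH, _, hD.lH, rfl⟩ F.fq.hol)
        ((le_of_nf hT zero_le_one (by
          have := nf_smul hT (sub_nonneg.2 c1) nl
          rwa [sub_smul, ← e1, one_smul, ← one_smul ℝ (T.pull F.fq.hol _)] at this)).trans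
          (le_kc_pull hT F.fq.hol kH nD))
        (nuu.nu T hT _ ν V F.V F.e S hS _ cV F.cV.prj hl hν) (by rwa [mul_comm] at z)).2
      obtain ⟨v, hv⟩ := (hT.po.kah F.V).1 (P285S.B2.kah_of hT F.cV.prj)
      obtain ⟨r, r0, hr⟩ := inj.pos T hT b d F.V F.Z F.π F.fq.hol v F.cV F.cZ (DescX.surj F.fq) hv
      have := z _ ((nα.mn.pow (b - (ν + 1))).mul ((kc_nf hT hv).mn.pow d))
      rw [← mul_assoc, ← pow_add, Nat.add_sub_cancel' k, ← map_pow, hr] at this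
      exact (mul_pos r0 (kc_pos hT kH)).ne' this
    · have pc : ∀ z, T.pull (F.fq.hol.comp hp) z = T.pull hp (T.pull F.fq.hol z) :=
        hT.rg.pull_comp hp F.fq.hol _ fun _ => rfl
      rw [← pc]
      refine nt_of Ct.cuts T hT b F.Z _ _ (DescX.nef hT hD.lD hD.lH hD.pos) (hT.c1.deg _ H') m j U
        _ _ y e hU h1 h2 ?_
      rw [pc, hD.cls, congrArg (T.pull F.he) eq, map_smul, map_smul, map_smul, smul_mul_assoc,
        smul_mul_assoc, map_smul, map_smul, h3, smul_zero, smul_zero]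

end Vale.Agent.P270H
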