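import Vale.Agent.P270H.Defs
import Vale.Agent.P285T.Cb.St0
import Vale.Agent.P285N.Tp.Hod

/-!
# P270H: the row ST0
-/

open scoped Manifold ContDiff Topology
open Set Filter Function
open Vale.Agent.P272.K Vale.Agent.P285.H281.FD Vale.Agent.P281Z Vale.Agent.P280Z
open Vale.Agent.P277.HD (pull)
open Vale.Agent.P277Z.Slc (lin)
open Vale.Agent.P285N.St (SubPair)
open Vale.Agent.P285N.Tp (Rd LR)
open Vale.Agent.P285N.Tp.Lr
open Vale.Agent.P285W Vale.Agent.P285W.J Vale.Agent.P285W.Bs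
open Vale.Agent.P285T.Cb Vale.Agent.P285T.Cb.St0

noncomputable section

namespace Vale.Agent.P270H

namespace St071

theorem model {n : ℕ} {V W : Mf n} {Q : Rd V} {D C : Bd V.X} {t : D.ι → V.X → ℂ} {q : ℕ}
    {e : W.X → V.X} {S : Set V.X} (hQ : Q.Ok) (K : SubPair n Q.E Q.s D t q C) (he : Modif n e S)
    (hW : W.Prj) :
    ∃ (Y : Mf n) (u : Y.X → W.X) (B : Set W.X) (p : ℕ) (G : Fin p → Set Y.X) (m : Fin p → ℤ)
      (Ω : Chart n Y.X → C.ι → Y.X → ℂ), Modif n u B ∧ (∀ l, IsConnected (G l)) ∧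
      (LR.mk Y (fun y => e (u y)) G m (2 * q) 2 Ω : LR V C (Fin p)).Ok2 Q ∧
      ∀ l, m l < (2 * q : ℕ) := by
  have := hQ.conn
  have hT := K.div.lb
  have ht := K.div.sec
  have hE := hQ.bir.res.lbE
  have hσ := hQ.bir.res.secE
  obtain ⟨Y, u, B, p, G, hM, hY, hG, hc, t0⟩ := res1 he hW _ _ (thin_mul hE hT hσ ht
    (thin_Z (s := fun _ : Fin (0 + 1) => Q.s) hE (fun _ => hσ) ⟨0, hQ.bir.res.nzE⟩)
    (thin_Z (s := fun _ : Fin (0 + 1) => t) hT (fun _ => ht) ⟨0, K.div.nz⟩))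
  obtain ⟨m, Ω, h1, h2⟩ := core hQ K (he.comp rem hM) hY hG hc (fun y h => (t0 y h).1)
    (fun y h c k => (hT.cover (e (u y))).elim fun b hb =>
      left_ne_zero_of_mul ((t0 y h).2 (c, b) ⟨k, hb⟩))
    fun y h b k => (hE.cover (e (u y))).elim fun c hc =>
      right_ne_zero_of_mul ((t0 y h).2 (c, b) ⟨hc, k⟩)
  exact ⟨Y, u, B, p, G, m, Ω, hM, hc, h1, h2⟩

variable {T : CT} {n w d : ℕ} {V : Mf n} {l : T.H V} {F : Tf T V l n w} {D H : Bd F.Z.X} {δ : ℕ}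

theorem ds_nf (hD : Ds F D H δ) : P285N.Tp.Nf F.Z (D.pow 2) :=
  P285S.Tp.nf_of hD.lH (lb_pow hD.lD 2) fun i M h1 h2 =>
    P285N.Xc.piso _ _ _ _ (lb_mul (lb_pow hD.lD _) hD.lH) h1 (by
      rw [h2, cls_mul (lb_pow hD.lD _) hD.lH, cls_pow hD.lD, cls_pow hD.lD, mul_smul]
      exact add_comm _ _) (hD.pos (i * 2))

theorem ds_ntb (hT : T.OK) (hD : Ds F D H δ) (e : n = w + d) (g : Neg n (Bs.Gd T V l (d + 1))) :
    Neg w (Tr T F.Z (T.c1 F.Z (D.pow 2))) := by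
  refine (ntb_of nim c1p fpm fpc negf T hT _ _ _ V _ F D H δ e hD g).mono ?_
  rintro y ⟨C, f, hf, k1, k2, k3, k4⟩
  refine ⟨C, f, hf, k1, k2, k3, ?_⟩
  rw [hT.c1.pow _ _ _ hD.lD, map_smul, map_smul, smul_eq_mul] at k4
  exact (mul_eq_zero.1 k4).resolve_left (by norm_num)

end St071

open St071

theorem st071 (h : DS2) : ST0 := by
  intro T hT w e V Q D₀ t q C L hQ K pC lM nM iso g1 g2
  have lL := hQ.bir.res.lbL
  have cl := (P285N.Tp.HodH.c1_iso hT lL (lb_mul K.lb lM) iso).trans (hT.c1.mul _ _ _ K.lb lM)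
  obtain ⟨F₀, D', H', δ', hD', -⟩ := st0a T hT w e V Q hQ lL g1 g2
  obtain ⟨F, D, H, D₁, δ, hD, l1, n1, c1⟩ := h T hT _ w (e + 1) V Q.L C L F₀ D' H' δ' rfl
    e.succ_pos ⟨hQ.conn, hQ.prj⟩ lL K.lb lM (rd_nf hQ) nM pC cl hD'
  obtain ⟨S, hS⟩ := hD.md
  obtain ⟨Y, u, B, p, G, m, Ω, hu, hc, hR, lt⟩ := St071.model hQ K hS F.cV.prj
  have N0 : 0 < 2 * q := hR.ok.pos
  have he := F.he.comp hu.hol
  have fb : Fb.Ok ⟨Y, F.Z, fun y => F.π (u y), Fin p, G,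
      fun l => ((max (m l) 0 : ℤ) : ℚ) / (2 * q : ℕ)⟩ :=
    ⟨hR.ok.conn, (fibn F.fq).modif hu, hR.ok.snc, fun l => bdry N0 (lt l)⟩
  have hB : ∀ a, IsLB w (![D, D₁] a) := fun a => by
    fin_cases a
    exacts [hD.lD, l1]
  have cE : T.c1 F.Z (lin ![D, D₁] ![2, -2]) = (2 : ℝ) • T.c1 F.Z D - (2 : ℝ) • T.c1 F.Z D₁ := by
    rw [hT.c1.lin _ _ _ hB]
    simp [Fin.sum_univ_two, sub_eq_add_neg]
  refine ⟨_, ⟨fun y => F.e (u y), (pull (fun y => F.e (u y)) C).pow 2, Ω, m, 2 * q, 2, δ,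
    D.pow 2⟩, lin ![D, D₁] ![2, -2], ⟨hQ, fb, hR.ok, lt, hc, hR.md, two_pos, K.lb,
      cls_pow (he.lb K.lb) 2, hR.exc, fun l => ?_, F.cZ.prj, lb_pow hD.lD 2, ds_nf hD, hD.dpos,
      cls2 hT lL hD hu.hol _, ds_ntb hT hD rfl g2, lb_lin hB _, ?_, ?_⟩, fun l => ?_⟩
  · rcases lt_or_ge (m l) 0 with h | h
    · exact .inl (hR.exc l h)
    · refine .inr ((mul_del (m l) N0).trans_le ?_)
      rw [max_eq_left h]
  · change T.pull (F.fq.hol.comp hu.hol) (T.c1 F.Z (lin ![D, D₁] ![2, -2])) =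
      (δ : ℝ) • T.c1 Y ((pull (fun y => F.e (u y)) C).pow 2)
    rw [cE, hT.rg.pull_comp hu.hol F.fq.hol _ fun _ => rfl, map_sub, map_smul, map_smul,
      hD.cls, c1, congrArg (T.pull F.he) cl, hT.c1.pow _ _ _ (he.lb K.lb), hT.c1.pull he _ K.lb,
      hT.rg.pull_comp hu.hol F.he he fun _ => rfl]
    simp only [map_add, map_smul, smul_add, add_sub_cancel_right, Nat.cast_ofNat]
    exact smul_comm _ _ _
  · change Nf T F.Z (T.c1 F.Z (D.pow 2) - T.c1 F.Z (lin ![D, D₁] ![2, -2]))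
    rw [cE, hT.c1.pow _ _ _ hD.lD, Nat.cast_ofNat, sub_sub_cancel]
    exact nf_smul hT zero_le_two n1
  · exact (Int.cast_le.2 (le_max_left _ _)).trans_eq (mul_del (m l) N0).symm

end Vale.Agent.P270H
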