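import Vale.Agent.P270H.Defs
import Vale.Agent.P285T.Cb.Wpr

/-!
# P270H, row WPR: the pair on the base
-/

open scoped Manifold ContDiff Topology
open Set Filter Function
open Vale.Agent.P272.K Vale.Agent.P285.H281.FD Vale.Agent.P281Z Vale.Agent.P280Z
open Vale.Agent.P277Z.Slc (IsDiv Snc lin isLB_can)
open Vale.Agent.P277.HD (pull)
open Vale.Agent.P281Z.Pk (Dom)
open Vale.Agent.P285T.Cb (CLE ZAR1 ZAR2)

noncomputable section

namespace Vale.Agent.P270H

open P285T.Cb.Wpr in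
theorem wpr53 (h1 : NZT) (h2 : HOR) (h3 : CLE) (h4 : ZAR1) (h5 : ZAR2) : WPR := by
  classical
  intro T hT hF w e m V Q F A U C E hU hC hE
  have sn := hC.or.sn
  have hf := sn.ok.fibn.hol
  obtain ⟨X⟩ := ex_dv hU.ok.snc
  obtain ⟨Y⟩ := ex_dv sn.snc
  have lX := fun l => (X.div l).lb
  have lY := fun j => (Y.div j).lb
  have lM := hC.or.hγ.lb hC.or.lbM
  have lP := hU.ok.lb
  obtain ⟨cX, kX⟩ := ex_cp hT F.T.X
  obtain ⟨cY, kY⟩ := ex_cp hT F.T.Y
  have kf : ∀ β, cX (hf.pic β) = T.pull hf (cY β) := fun β => by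
    obtain ⟨L, l1, rfl⟩ := ex_cls β
    rw [← cls_pull hf l1, kX _ (hf.lb l1), kY _ l1, hT.c1.pull hf L l1]
  have e1 := P285N.Xc.cls_eq _ _ _ U.m U.N U.A X.O X.σ hU.ok X.div
  have e2 := h3 w (e + 1) w m F X Y hC.or (h1 T hT hF w e m V Q F A U C E hU hC)
  generalize hR : (F.a * m) • cls w (Bd.can w F.T.Y.X) + cls w (pull F.γ F.M) +
    ∑ j, F.b j • cls w (Y.O j) = R at e2
  obtain ⟨B₀, l0, e0⟩ := ex_cls ((F.a * m) • cls w E - (U.c * U.N) • R)
  have e3 : T.c1 F.T.X (lin X.O fun l => U.c * F.a * (U.N * F.o l + m * U.m l)) =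
      T.pull hf (T.c1 F.T.Y B₀) := by
    have k1 : cls (w + (e + 1)) (lin X.O fun l => U.c * F.a * (U.N * F.o l + m * U.m l)) =
        (F.a * m) • U.c • cls (w + (e + 1)) U.P - (U.c * U.N) • hf.pic R := by
      rw [cls_lin lX, e1, ← sub_eq_iff_eq_add.2 e2, show ∑ l, ((U.c : ℤ) * F.a *
        (U.N * F.o l + m * U.m l)) • cls (w + (e + 1)) (X.O l) =
          (U.c * U.N) • ∑ l, ((F.a : ℤ) * F.o l) • cls (w + (e + 1)) (X.O l) +
          (F.a * m) • U.c • ∑ l, U.m l • cls (w + (e + 1)) (X.O l) by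
        simp only [Finset.smul_sum, ← Finset.sum_add_distrib]
        exact Finset.sum_congr rfl fun l _ => by module]
      module
    rw [← kX _ (lb_lin lX _), ← kY _ l0, k1, e0, map_sub, map_sub, map_sub, map_nsmul, map_nsmul,
      map_nsmul, map_nsmul, map_nsmul, map_nsmul, map_nsmul, kf, kX _ lP, kY _ hU.lbE, hU.cE,
      Nat.cast_smul_eq_nsmul]
  have z0 : ∀ l, (∀ j, F.A l j = 0) → (U.c : ℤ) * F.a * (U.N * F.o l + m * U.m l) = 0 :=
    fun l k => by rw [h2 T hT hF w e m V Q F A U C E hU hC l k, mul_zero]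
  have z1 := h4 T hT hF _ w _ _ F.D F.A X Y _ B₀ sn hU.ok.prj hU.prj l0 z0 e3
  have z2 := h5 T hT hF _ w _ _ F.D F.A X Y _ B₀ sn hU.ok.prj hU.prj l0 z0 e3
  choose s s1 s2 using hC.upp
  have r0 : 0 < ∏ j, F.A (s j) j := Finset.prod_pos fun j _ => (s1 j).1
  obtain ⟨c', hc'⟩ : ∃ c' : Fin F.k → ℤ, ∀ l j, Dom F.T.toFb F.A l j → (∏ j, F.A (s j) j : ℕ) *
      ((U.c : ℤ) * F.a * (U.N * F.o l + m * U.m l)) = c' j * F.A l j :=
    ⟨fun j => (∏ i ∈ Finset.univ.erase j, F.A (s i) i : ℕ) *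
      (U.c * F.a * (U.N * F.o (s j) + m * U.m (s j))), fun l j k => by
        have k1 := z1 l _ j k (s1 j)
        rw [← Finset.prod_erase_mul _ _ (Finset.mem_univ j), Nat.cast_mul]
        linear_combination (∏ i ∈ Finset.univ.erase j, F.A (s i) i : ℕ) * k1⟩
  replace z2 := z2 _ c' hc'
  generalize ∏ j, F.A (s j) j = r at r0 hc' z2
  have a0 := hC.or.pos
  have m0 := hC.pos
  have c0 := hU.cp
  have N0 := hU.ok.pos
  obtain ⟨P, p1, p2⟩ := ex_cls ((2 * (r * U.c * U.N) * (F.a * m)) • cls w (Bd.can w F.T.Y.X) +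
    ∑ j, (2 * ((r : ℤ) * U.c * U.N * F.b j + c' j)) • cls w (Y.O j) +
    (2 * (r * U.c * U.N)) • cls w (pull F.γ F.M))
  have p3 : T.c1 F.T.Y P = ((2 * r * (F.a * m) : ℕ) : ℝ) • T.c1 F.T.Y E := by
    have k1 : cls w P = (2 * r * (F.a * m)) • cls w E + 2 • (cls w (lin Y.O c') - r • cls w B₀) := by
      rw [p2, e0, ← hR, cls_lin lY, show ∑ j, (2 * ((r : ℤ) * U.c * U.N * F.b j + c' j)) •
        cls w (Y.O j) = (2 * (r * U.c * U.N)) • ∑ j, F.b j • cls w (Y.O j) +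
          2 • ∑ j, c' j • cls w (Y.O j) by
        simp only [Finset.smul_sum, ← Finset.sum_add_distrib]
        exact Finset.sum_congr rfl fun l _ => by module]
      module
    rw [← kY _ p1, k1, map_add, map_nsmul, map_nsmul, map_sub, map_nsmul, kY _ hU.lbE, kY _ l0,
      kY _ (lb_lin lY _), ← z2, Nat.cast_smul_eq_nsmul, Nat.cast_smul_eq_nsmul, sub_self, smul_zero,
      add_zero]
  have := hU.ok.conn
  refine ⟨⟨F.k, F.D, Y, fun j => 2 * (r * U.c * U.N * F.b j + c' j),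
    2 * (r * U.c * U.N) * (F.a * m), 2 * (r * U.c * U.N), F.r, F.Z, F.γ, F.M, A, P⟩, F.A,
    2 * r * (F.a * m), ⟨⟨sn.ok.fibn.surj.connectedSpace hf.cont, hU.prj⟩, sn.snc, sn.connD,
      by positivity, (even_two_mul _).mul_right _, fun j => ?_, by positivity, hC.or.hγ, hC.surj,
      hC.zk, p1, p2⟩,
    sn, by positivity, p3, fun j => ⟨_, s1 j⟩, fun l j k1 k2 => (hE l).elim id fun k3 => ?_⟩
  · have k := s2 j
    push_cast at k ⊢
    exact klt (by positivity) (by positivity) (by positivity) (by positivity) (by positivity)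
      (Nat.cast_pos.2 (s1 j).1) (hU.klt _) k (hc' _ j (s1 j))
  · have k := hC.low l j ⟨k2, k3⟩
    push_cast at k
    exact hU.neg l (neg (by positivity) (by positivity) (by positivity) (by positivity)
      (by positivity) (Nat.cast_pos.2 k2) k1 k (hc' l j ⟨k2, k3⟩))

end Vale.Agent.P270H
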