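import Vale.Agent.P270H.Top
import Vale.Agent.P270H.Fin
import Vale.Agent.P270H.St071
import Vale.Agent.P270H.Ds2
import Vale.Agent.P270H.Crp
import Vale.Agent.P270H.Fk03
import Vale.Agent.P270H.Fk1
import Vale.Agent.P270H.Wpr53
import Vale.Agent.P270H.Nzt61
import Vale.Agent.P270H.Fpd
import Vale.Agent.P270H.Psb
import Vale.Agent.P270H.Fibk
import Vale.Agent.P270H.Amb
import Vale.Agent.P270H.Gdw
import Vale.Agent.P270H.Gup3
import Vale.Agent.P270H.End3
import Vale.Agent.P270H.Lam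
import Vale.Agent.P270H.Null
import Vale.Agent.P270H.Rf
import Vale.Agent.P270H.Fpu
import Vale.Agent.P270H.Cnn47
import Vale.Agent.P270H.Efg66
import Vale.Agent.P270H.Ctr
import Vale.Agent.P270H.Ph0
import Vale.Agent.P270H.Rkg
import Vale.Agent.P270H.Dng47
import Vale.Agent.P270H.Gdg6
import Vale.Agent.P270G.All4
import Vale.Agent.P285T.Cb.All

/-!
# P270H: all the rows
-/

open Vale.Agent.P285S

namespace Vale.Agent.P270H

theorem nvs4 : ∀ d ≤ 4, Mm.Ps.NVS d := fun d hd =>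
  Mm.Ps.nvs d hd fun d' κ ι _ A m N hA h => Tp.As.nv4 d' κ ι A m N hA (h.le.trans hd)

theorem rf : RF := rf_of Sf.fcz2 lam nul

theorem gag : GAG :=
  gag_of P270G.rf0 P270G.mach P270G.fyn P270G.rfu P270G.kd3 P270G.topb P270F.Mg.sae nvs4
    (cnn47 fpu) efg66 (ctr_of P270F.Mg.zc (ph0_of fpu)) rkg (dng47 P270G.nzu) (gdg6 fpu P270G.fpf)

/-- **CBG** -/
theorem cbg : CBG :=
  cbg_of P270G.ga4 P270G.efq4 nvs4 (st071 ds2) crp fk03 (fk1_of rf) P285T.Cb.one0 P285T.Cb.cbf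
    (wpr53 (nzt61 rf) (hor61 rf) P285T.Cb.cle59 P285T.Cb.zar1b P285T.Cb.zar97) (fpd_of lam) psb
    fibk amb gdw (gup3_of fpu) gag end3

end Vale.Agent.P270H
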