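import Vale.Agent.P270H.Defs
import Vale.Agent.P285T.Cb.Amb

/-!
# P270H, row AMB: the trick of Ambro
-/

open Set
open Vale.Agent.P272.K Vale.Agent.P285.H281.FD Vale.Agent.P281Z
open Vale.Agent.P277Z.Slc (Snc lin isLB_can)
open Vale.Agent.P277.HD (pull)
open Vale.Agent.P285S (Ef)

noncomputable section

namespace Vale.Agent.P270H

theorem amb42_of (hU : U1) : AMB := by
  intro w W B h hF
  have := h.cp.conn
  obtain ⟨N, c, θ, N0, θ1, z, θ2⟩ := h.zk.theta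
  obtain ⟨z, rfl⟩ := h.surj z
  have hx : (0 : ℚ) < B.x := Nat.cast_pos.2 h.xp
  have lK := isLB_can (n := w) (W := W.X)
  have lZ := isLB_can (n := B.r) (W := B.Z.X)
  have lM := h.zk.lbM
  have lA := h.zk.lbA
  have hγ := h.hγ
  have l1 : ∀ i, IsLB w (![Bd.can w W.X, pull B.γ (Bd.can B.r B.Z.X), pull B.γ B.A] i) :=
    Fin.forall_fin_succ.2 ⟨lK, Fin.forall_fin_two.2 ⟨hγ.lb lZ, hγ.lb lA⟩⟩
  have l2 : ∀ i, IsLB B.r (![Bd.can B.r B.Z.X, B.M, B.A] i) :=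
    Fin.forall_fin_succ.2 ⟨lZ, Fin.forall_fin_two.2 ⟨lM, lA⟩⟩
  obtain ⟨m, m0, e1⟩ := P285T.Cb.AmbH.ef_of B.Y h.snc (lb_lin l1 _) (k := fun j => N * max (B.μ j) 0)
    (fun j => by
      have : (B.x : ℝ) ≠ 0 := Nat.cast_ne_zero.2 h.xp.ne'
      push_cast
      field_simp)
    (hU w B.r W B.Z B.γ B.A _ B.D (fun j => (max (B.μ j) 0 : ℤ) / B.x) this h.cp.prj.kah hγ h.surj
      lA h.zk.posA h.snc (fun j => ⟨div_nonneg (Int.cast_nonneg (le_max_right _ _)) hx.le,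
        (div_le_one hx).2 (by exact_mod_cast max_le (h.klt j).le (Int.natCast_nonneg _))⟩) hF
      (N * B.x) (mul_pos N0 h.xp))
  obtain ⟨-, a1, a2, -⟩ := P285S.Ca.efa w W this
  have e2 := a1 _ _ e1
    (a2 _ (B.x * m) ⟨_, _, hγ.lb (lb_lin l2 _), rfl, hγ.sec θ1, z, θ2⟩)
  refine ⟨_, m * N, e2, fun j => ?_⟩
  obtain ⟨u, hu⟩ : ∃ u, B.x = u + 1 + 1 := ⟨B.x - 2, by
    have := h.xp
    obtain ⟨v, hv⟩ := h.even
    omega⟩
  obtain ⟨m, rfl⟩ := Nat.exists_eq_add_one_of_ne_zero m0.ne'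
  obtain ⟨k, k0, hb⟩ := h.zk.nef ((m + 1) * N * B.y + j * B.y + 1) (Nat.succ_pos _)
  have l3 := lb_mul (lb_pow lM (((m + 1) * N * B.y + j * B.y + 1) * k)) (lb_pow lA k)
  refine ⟨k * (j * B.y + 1 + (((m + 1) * N * B.y + j * B.y + 1) * (m * u + m + u) +
    (m + 1) * B.x * c)), k * B.y, _, ?_, lb_pow (hγ.lb l3) (B.y * ((m + 1) * (u + 1))),
    fun y => ?_, ?_⟩
  · rw [mul_left_comm]
    exact mul_lt_mul_of_pos_left (by omega) k0
  · obtain ⟨s, s1, s2⟩ := hb (B.γ y)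
    have s3 := hγ.sec s1
    exact ⟨fun b x => s b (B.γ x) ^ _, ⟨fun b e x he hb => (s3.holo b e x he hb).pow _,
      fun b b' x hb hb' => (congrArg (· ^ _) (s3.change b b' x hb hb')).trans (mul_pow _ _ _)⟩,
      fun b hb => pow_ne_zero _ (s2 b hb)⟩
  · have hs : ∑ i, (-B.μ i).toNat • cls w (B.Y.O i) =
        ∑ i, max (B.μ i) 0 • cls w (B.Y.O i) - ∑ i, B.μ i • cls w (B.Y.O i) := by
      rw [← Finset.sum_sub_distrib]
      exact Finset.sum_congr rfl fun i _ => by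
        rw [← sub_smul, ← natCast_zsmul]
        exact congrArg (· • _) (by omega)
    rw [hs, h.cl, cls_pow (hγ.lb l3), cls_pull hγ l3, cls_mul (lb_pow lM _) (lb_pow lA _),
      cls_pow lM, cls_pow lA, cls_pull hγ (lb_lin l2 _), cls_lin l1, cls_lin l2, hu]
    simp only [Fin.sum_univ_three, Matrix.cons_val, cls_pull hγ lZ, cls_pull hγ lA,
      cls_pull hγ lM, map_add, map_nsmul, map_zsmul, mul_smul (N : ℤ), ← Finset.smul_sum]
    module

/-- row AMB -/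
theorem amb42 : AMB := amb42_of U1.u1

end Vale.Agent.P270H
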