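import Vale.Agent.P270H.Defs
import Vale.Agent.P285S.Tp.Blu
import Vale.Agent.P285S.Tp.Nfp

/-!
# P270H: a model on which the components are connected
-/

open scoped Manifold ContDiff Topology
open Set Filter Function
open Vale.Agent.P272.K Vale.Agent.P285.H281.FD Vale.Agent.P281Z Vale.Agent.P280Z
open Vale.Agent.P277.HD (pull)
open Vale.Agent.P285N
open Vale.Agent.P285N.Tp (LR)
open Vale.Agent.P285S (Pse)

noncomputable section

namespace Vale.Agent.P270H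

theorem CnnX.pse_pull {n : ℕ} {Y V : Mf n} {π : Y.X → V.X} {B : Set V.X} (hM : Modif n π B)
    {β : Pic n V.X} (h : Pse V β) : Pse Y (hM.hol.pic β) := by
  obtain ⟨η, h⟩ := h
  refine ⟨hM.hol.pic η, fun k => ?_⟩
  obtain ⟨j, j0, D, t, h1, h2, h3, x, h4⟩ := h k
  obtain ⟨y, rfl⟩ := hM.surj x
  refine ⟨j, j0, _, _, hM.hol.lb h1, ?_, hM.hol.sec h3, y, h4⟩
  rw [cls_pull hM.hol h1, h2, map_nsmul, map_add, map_nsmul]

/-- **CNN** -/
theorem cnn_of (fpu : FPU) : CNN := by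
  intro d T _ κ ι _ A m N L M h
  have := h.ok.conn
  have hZ := snc_thin_off h.ok.snc
  obtain ⟨I, hI, -⟩ := Rs.idl d A.Z _ hZ.1
  rw [← hI] at hZ
  obtain ⟨R⟩ := Rs.res d d A.Z univ I an_univ
    (subM_open (by rw [← compl_eq_univ_sdiff]; exact hZ.closed.isOpen_compl))
  have h1 : Modif d R.π _ := ⟨hZ, R.ovr⟩
  have k : ∀ y ∈ off R.G, R.π y ∉ I.Z := fun y hy k => ((R.bad y).1 k).elim hy
  have k' : ∀ y ∈ off R.G, R.π y ∈ off A.G := fun y hy => not_not.1 fun c => k y hy (hI ▸ c)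
  have hY := R.prj h.ok.prj
  obtain ⟨m', Ω, h2, h3, h4⟩ := P285S.Tp.blow h.ok h1 hY R.snc R.conn fun y hy => ⟨k y hy, k' y hy⟩
  have hπ := h1.hol
  set A' := (LR.mk R.V R.π R.G m' N 1 Ω : LR A.Z A.P _).A
  have e : cls d A'.P = hπ.pic (cls d A.P) := by
    show cls d ((pull R.π A.P).pow 1) = _
    rw [cls_pow (hπ.lb h.ok.lb), one_smul, cls_pull hπ h.ok.lb]
  refine ⟨_, inferInstance, A', m', R.π, _, h1, ⟨⟨h2, fun l => (h2.le l).lt_of_ne fun c => ?_,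
    hπ.lb h.lb, P285S.Tp.nf_comp hπ h.ok.prj h.lb h.nef, hπ.lb h.lbM,
    P285S.Tp.nf_comp hπ h.ok.prj h.lbM h.nfM, ?_⟩, ?_, ?_⟩, R.conn⟩
  · obtain ⟨y, hy⟩ := (R.conn l).nonempty
    obtain ⟨j, k1, -⟩ := h3 l c y hy
    exact (h.klt j).ne k1
  · rw [e, cls_pull hπ h.lb, cls_pull hπ h.lbM, h.cl, map_add]
  · rw [e]
    exact CnnX.pse_pull h1 h.ps
  · exact fpu d κ ι _ ι A A' m m' R.π _ L ⟨this, h.ok.prj⟩ hY h.ok.snc R.snc h1 h.lb
      (fun y hy => ⟨k' y hy, h1.imm (k y hy)⟩) h4 h.bp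

end Vale.Agent.P270H
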