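import Vale.Agent.P270H.Defs
import Vale.Agent.P285T.Cb.Fk0b
import Vale.Agent.P285T.Cb.Fk1

/-!
# P270H: the rows FK0, FK1
-/

noncomputable section

namespace Vale.Agent.P270H

section

open Set
open Vale.Agent.P272.K Vale.Agent.P285.H281.FD Vale.Agent.P281Z Vale.Agent.P285N
open Vale.Agent.P277.HD (pull)
open Vale.Agent.P277Z.Slc (isLB_can isLB_triv triv lin)

theorem fk05 : FK0 := by
  intro T hT hF w e V Q M U C E hU hm c
  have hM := hU.fb
  have := hM.conn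
  have := hM.connY
  have hf := hM.fibn.hol
  have hG := Hyp.of_snc hM.snc
  obtain ⟨S, t, reg⟩ := genS _ w M.X M.Y M.f M.κ M.G hf hM.snc
  obtain ⟨S', t', cn⟩ := hM.fibn.conn
  refine not_neg_compl (t.union t').neg (c.mono fun y hy => ?_)
  have r := reg y fun k => hy (.inl k)
  obtain ⟨F, i, hi, sn⟩ := r.fib rfl hf hM.snc
  have cF := hi.conn.2 (cn y fun k => hy (.inr k))
  have kF := hi.kah hU.ok.prj.kah
  have lP : IsLB _ U.P := hU.ok.lb
  have l1 := hi.hol.lb lP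
  have l2 := lb_zp l1 (-(1 : ℕ))
  have l3 := lb_mul (lb_pow (isLB_can (n := e + 1) (W := F.X)) U.N) l2
  have h0 : T.c1 F (pull i U.P) = 0 := by
    have := congrArg (T.pull hi.hol) hU.cE
    rw [← hT.rg.pull_comp hi.hol hf (hf.comp hi.hol) fun _ => rfl,
      P285W.J.CutsH.pull_const hT _ (fun a b => (hi.fib a).trans (hi.fib b).symm)
        (hT.c1.deg _ _), map_smul] at this
    rw [hT.c1.pull hi.hol _ lP]
    exact (smul_eq_zero.1 this.symm).resolve_left (Nat.cast_ne_zero.2 hU.cp.ne')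
  obtain ⟨O, σ, hO⟩ := hG.exists_div
  obtain ⟨x, hx⟩ := (snc_dense_off sn).nonempty
  have s0 : Sy (e + 1) (w + (e + 1)) i (triv F.X) M.G (fun _ => 0) 0 := (sy_zero isLB_triv).2
    ⟨fun _ _ => 1, ⟨fun _ _ _ _ _ => P277Z.hol_const _ _, fun _ _ _ _ _ _ _ => (one_mul _).symm,
      fun _ _ _ _ _ _ => ⟨1, .of_forall fun _ _ => by simp⟩⟩, x, hx, fun _ _ => one_ne_zero⟩
  have l4 := lb_lin (fun l => (hO l).lb) fun l => -U.m l
  refine ⟨F, i, hi, (r.kapL hf hM.snc hi).2 (D.d0 _ F M.κ _ M.δ _ U.N cF kF sn hM.bdry l2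
    ((hF F _ kF l2).1 (by rw [P285W.Bs.Cnv.c1_neg hT l1, h0, smul_zero, neg_zero])) hU.ok.pos
    ((r.kapL hf hM.snc hi).1 ((s0.div hi.hol isLB_triv hO fun l => -U.m l).kapL hG hi.hol.cont l3
      (lb_mul isLB_triv (hi.hol.lb l4)) one_pos ?_ fun l => ?_)))⟩
  · rw [cls_mul isLB_triv (hi.hol.lb l4), cls_triv, one_smul, cls_mul (lb_pow isLB_can _) l2,
      cls_zp l1, cls_pow isLB_can, cls_pull hi.hol l4, cls_pull hi.hol lP,
      Ri.On.cls_can r hf hM.snc hi, Xc.cls_eq _ _ _ _ _ U.A O σ hU.ok hO,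
      cls_lin fun l => (hO l).lb]
    simp
  · have := hm l
    push_cast
    rw [zero_sub, neg_neg, one_mul]
    exact_mod_cast this

end

section

open scoped Manifold ContDiff Topology
open Set Filter Function
open Vale.Agent.P272.K Vale.Agent.P285.H281.FD Vale.Agent.P281Z
open Vale.Agent.P277Z (at_chart)
open Vale.Agent.P277Z.Slc (lin isLB_can dd)
open Vale.Agent.P277.HD (pull)
open Vale.Agent.P285T.Cb (tv_lc)

theorem fk15 (h : RF) : FK1 := by
  intro T hT hF w e V Q M U C E hU hN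
  obtain ⟨S, s1, s2⟩ := h T hT hF w e V Q M U C E hU
  have hf := hU.fb.fibn.hol
  have hS := hU.fb.snc
  have hG := Hyp.of_snc hS
  obtain ⟨Z, q1, q2⟩ := genS _ w M.X M.Y M.f _ M.G hf hS
  refine hN ((s1.union q1).neg.mono ?_)
  rintro y ⟨F, i, hi, r, hr, hK⟩
  by_contra hy
  have h1 := q2 y fun c => hy (.inr c)
  choose O σ hO using fun l => P277Z.Slc.stDiv _ M.X.X (M.G l) fun y =>
    (hS y).elim fun ζ k => ⟨ζ l, k.1 l⟩
  have hP : IsLB _ U.P := hU.ok.lb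
  have hC := isLB_can (n := e + 1) (W := F.X)
  have hX := isLB_can (n := w + (e + 1)) (W := M.X.X)
  have hD := fun l => (hO l).lb
  have h2 := lb_pow (lb_pow hC r) U.N
  have h3 := hi.hol.lb (lb_pow hP r)
  have h4 := hi.hol.lb (lb_lin hD fun l => r * U.m l)
  have h5 : cls _ U.P = _ := P285N.Xc.cls_eq _ _ _ U.m U.N U.A O σ hU.ok hO
  obtain ⟨s, a1, x, x1, a, x2, x3, x4⟩ := Sy.of_cls hG hi.hol.cont h3 (lb_mul h2 h4)
    ((Sy.pow hi.hol.cont hK hU.ok.pos).div hi.hol h2 hO fun l => r * U.m l) (by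
      rw [cls_mul h2 h4, cls_pow (lb_pow hC r), cls_pow hC,
        (cls_eq hC (hi.hol.lb hX)).2 (adj_iso hi hf fun _ => h1.sbm hf hS),
        cls_pull hi.hol hX, cls_pull hi.hol (lb_pow hP r), cls_pull hi.hol (lb_lin hD _),
        cls_pow hP, cls_lin hD, h5, ← map_nsmul, ← map_nsmul, ← map_add, nsmul_add, smul_comm,
        Finset.smul_sum]
      simp only [mul_smul, natCast_zsmul]) fun _ => le_rfl
  have key := fun b => s2 y (fun c => hy (.inl c)) F i hi r _ (s b) (fun l hl => by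
    have k : (U.N : ℝ) * M.δ l ≤ U.m l := by exact_mod_cast (hU.del l).resolve_left hl
    have k' := mul_le_mul_of_nonneg_left k (Nat.cast_nonneg r)
    push_cast
    linarith) (a1 b)
  have hn := (hG.isOpen.preimage hi.hol.cont).mem_nhds x1
  have hc : ∃ c : ℂ, ∀ᶠ z in 𝓝 x, s 1 a z / s 0 a z = c := by
    by_cases k : ∃ a x, i x ∈ U.P.U a ∧ i x ∈ off M.G ∧ s 1 a x ≠ 0
    · obtain ⟨τ, t1, t2⟩ := key 0 ⟨a, x, x2, x1, x3⟩
      obtain ⟨τ', t3, t4⟩ := key 1 k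
      refine ⟨τ' a x / τ a x, ?_⟩
      filter_upwards [tv_lc h3 t1 t3.1 x2, hn, lb_near h3 x2] with z z1 z2 z3
      rw [t2 a z z3 z2, t4 a z z3 z2, z1]
    · refine ⟨0, ?_⟩
      filter_upwards [hn, lb_near h3 x2] with z z2 z3
      rw [not_not.1 fun c => k ⟨a, z, z3, z2, c⟩, zero_div]
  obtain ⟨c, hc⟩ := hc
  refine (x4.2 _ (at_chart x)).ne_zero 0 ((P277Z.Slc.dd_congr hc (at_chart x)).trans ?_)
  exact fderiv_const_apply c

end

end Vale.Agent.P270H
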