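import Vale.Agent.P270H.Defs
import Vale.Agent.P270G.Rfk
import Vale.Agent.P270G.Gdf

/-!
# P270H: the assembly on the base
-/

open Set
open Vale.Agent.P272.K Vale.Agent.P285.H281.FD Vale.Agent.P281Z Vale.Agent.P280Z
open Vale.Agent.P277.HD (pull)
open Vale.Agent.P285N Vale.Agent.P285W.J Vale.Agent.P285W.Bs
open Vale.Agent.P285N.Tp (FLC Eff)
open Vale.Agent.P285S.B2 (Zr Nu)
open Vale.Agent.P270G (ForP Dn Rf RF0 MACH FYN RFU KD3 TOPB)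

namespace Vale.Agent.P270H

theorem key (h0 : RF0) (h1 : MACH) (h2 : FYN) : ∀ ν, ∀ d ≤ 3,
    ForP (d + 1) fun T _ _ _ A m N => FLC T → ∀ (L Λ : Bd A.Z.X) (α : T.H A.Z) (S : Set A.Z.X),
      ν ≤ d → Dn T A m N L Λ ν → ¬ Rf T A.Z (T.c1 A.Z L) ν α S := fun ν => by
  induction ν with
  | zero =>
    intro d _ T hT κ ι _ A m N _ L Λ α S _ h
    exact h0 T hT d _ _ α S ⟨h.cw.ok.conn, h.cw.ok.prj⟩ h.nu.2
  | succ ν ih =>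
    intro d hd T hT κ ι _ A m N hF L Λ α S hν h r
    obtain ⟨d, rfl⟩ : ∃ e, d = e + 1 := ⟨d - 1, by omega⟩
    obtain ⟨κ', ι', _, B, m', N', L', Λ', α', S', k1, k2⟩ := h2 d (by omega) T hT κ ι A m N L Λ ν α
      S (by omega) h r (h1 _ hd T hT κ ι A m N hF L Λ _ ν.succ_pos hν h)
    exact ih d (by omega) T hT κ' ι' B m' N' hF L' Λ' α' S' (by omega) k1 k2

variable {T : CT} {d : ℕ}

theorem Sm.down (hT : T.OK) {Z Y : Mf d} {π : Y.X → Z.X} {S : Set Z.X} (hπ : Modif d π S)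
    {l : T.H Z} {l' : T.H Y} {a : ℕ} (ha : 0 < a) (e : l' = (a : ℝ) • T.pull hπ.hol l)
    (h : Sm T Y l') : Sm T Z l := by
  obtain ⟨W, τ, S', hτ, P, z, h1, h2, h3, h4, h5⟩ := h
  refine ⟨W, _, _, hπ.comp rem hτ, P, z * a, h1, h2, h3, Nat.mul_pos h4 ha, ?_⟩
  rw [h5, e, map_smul, smul_smul, Nat.cast_mul,
    hT.rg.pull_comp hτ.hol hπ.hol (hπ.comp rem hτ).hol fun _ => rfl]

theorem sm_zero (hT : T.OK) {Z : Mf d} (cZ : Cp Z) : Sm T Z 0 := by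
  obtain ⟨H, lH, pH⟩ := id cZ.prj
  refine ⟨Z, _, _, modif_id, H.pow 0, 1, cZ.prj, lb_pow lH 0, ⟨1, le_rfl, fun x =>
    ⟨fun _ _ => 1, isSec_of (fun _ _ _ => P277Z.hol_const _ _) fun _ _ _ _ _ => ?_,
      fun _ _ => one_ne_zero⟩⟩, one_pos, ?_⟩
  · simp [Bd.pow]
  · rw [hT.c1.pow Z H 0 lH, map_zero, smul_zero, Nat.cast_zero, zero_smul]

theorem ggs (h0 : RF0) (h1 : MACH) (h2 : FYN) (ru : RFU) (k3 : KD3) (tb : TOPB)
    (sa : P270F.Mg.SAE) (rk : RKG) (dn : DNG) (gd : GDG) (hd : d ≤ 4) (hT : T.OK) (hF : FLC T)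
    {κ ι : Type} [Fintype κ] {A : Pr d κ ι} {m : κ → ℤ} {N : ℕ} {L M Λ : Bd A.Z.X}
    (h : Gg A m N L M Λ) : Sm T A.Z (T.c1 A.Z L) := by
  classical
  have cV : Cp A.Z := ⟨h.ok.conn, h.ok.prj⟩
  have := cV.conn
  have nl := nf_of hT cV.prj h.lb h.nef
  have dz : T.c1 A.Z L ^ (d + 1) = 0 :=
    dg_zero hT (dg_pow hT (hT.c1.deg A.Z L) (d + 1)) (by omega)
  have ex : ∃ j, Zr T A.Z (T.c1 A.Z L ^ (j + 1)) := ⟨d, fun y _ => by rw [dz, zero_mul, map_zero]⟩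
  have z1 := Nat.find_spec ex
  have z2 : Nat.find ex ≤ d := Nat.find_min' ex fun y _ => by rw [dz, zero_mul, map_zero]
  have z3 := fun j => Nat.find_min ex (m := j)
  generalize Nat.find ex = ν at z1 z2 z3
  rcases ν with _ | ν
  · suffices e : T.c1 A.Z L = 0 from e ▸ sm_zero hT cV
    rcases d with _ | d
    · simpa using dz
    obtain ⟨H, lH, pH⟩ := id cV.prj
    have kH := hT.c1.pos A.Z H lH pH
    exact P270G.RfkH.nf_zero hT cV.conn kH nl (by simpa using z1 _ ((kc_nf hT kH).mn.pow d))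
  have nu : Nu T A.Z (T.c1 A.Z L) (ν + 1) := ⟨z3 ν ν.lt_succ_self, z1⟩
  have kd : P270G.Kd T A.Z (T.c1 A.Z L + T.c1 A.Z M) := by
    rcases z2.eq_or_lt with e | z2
    · exact k3 T hT _ _ L M cV h.lb h.lbM h.nef h.nfM (e ▸ nu.1)
    obtain ⟨d, rfl⟩ : ∃ e, d = e + 1 := ⟨d - 1, by omega⟩
    have l1 := lb_mul h.ok.lb h.lbM
    refine (rk T hT _ _ A.Z L A.P M cV h.lb h.ok.lb h.lbM h.nef h.nfM h.eff
      ((P270G.GdfH.c1_cls hT h.lb l1 (h.cl.trans (cls_mul h.ok.lb h.lbM).symm)).trans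
        (hT.c1.mul _ _ _ h.ok.lb h.lbM)) ν.succ_pos z2 nu).elim id ?_
    rintro ⟨V', e, B, he, α, S, pV, rf⟩
    obtain ⟨κ', ι', _, A', m', N', π, S', Λ', hπ, k⟩ :=
      dn d T hT κ ι A m N L M Λ _ V' e B h (by omega) nu he pV
    refine (key h0 h1 h2 _ d (by omega) T hT κ' ι' A' m' N' hF _ Λ' (T.pull hπ.hol α) (π ⁻¹' S)
      (by omega) k ?_).elim
    rw [hT.c1.pull hπ.hol _ (he.hol.lb h.lb), hT.c1.pull he.hol _ h.lb]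
    exact ru T hT _ _ V' A'.Z π S' hπ _ α S ⟨he.conn, pV⟩ k.cw.ok.prj rf
  obtain ⟨κ', ι', _, A', m', N', π, S, hπ, a, g1, g2, g3, g4⟩ := gd d T hT κ ι A m N L M h.toG0
    (tb d T hT κ ι A m N m m Λ L h.ok h.fb h.lb h.rig fun _ k => k) h.eff kd
  exact ⟨A'.Z, π, S, hπ, A'.P, a, g1.ok.prj, g1.ok.lb, sa d κ' ι' A' m' N' g1 ⟨hd, g2⟩, g3, g4⟩

theorem gag_of (h0 : RF0) (h1 : MACH) (h2 : FYN) (ru : RFU) (k3 : KD3) (tb : TOPB)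
    (sa : P270F.Mg.SAE) (nvs : ∀ d ≤ 4, P285S.Mm.Ps.NVS d) (cn : CNN) (ef : EFG) (ct : CTR)
    (rk : RKG) (dn : DNG) (gd : GDG) : GAG := by
  intro d hd T hT κ ι _ A m N hF L M h
  obtain ⟨κ₁, _, A₁, m₁, π, S, hπ, g, c⟩ := cn d T hT κ ι A m N L M h
  obtain ⟨κ₂, ι₂, _, A₂, m₂, N₂, τ, S', L', M', Λ, δ, hτ, g', δ0, e⟩ :=
    ct d hd T hT κ₁ ι A₁ m₁ N _ _ g c (ef d (nvs d hd) T hT κ₁ ι A₁ m₁ N _ _ g)
  have l1 := hτ.hol.lb g.lb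
  refine Sm.down hT hπ (l' := T.c1 A₁.Z (pull π L)) one_pos
    (by rw [Nat.cast_one, one_smul, hT.c1.pull hπ.hol _ h.lb])
    (Sm.down hT hτ δ0 ?_ (ggs h0 h1 h2 ru k3 tb sa rk dn gd hd hT hF g'))
  rw [P270G.GdfH.c1_cls hT g'.lb (lb_pow l1 δ) (e.trans (cls_pow l1 δ).symm),
    hT.c1.pow _ _ _ l1, hT.c1.pull hτ.hol _ g.lb]

end Vale.Agent.P270H
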