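import Vale.Agent.P270H.Defs
import Vale.Agent.P285T.Cb.Lam
import Vale.Agent.P285T.Cb.Trv

/-!
# P270H, row LAM: the big and free bundle
-/

open Set Filter
open Vale.Agent.P272.K Vale.Agent.P285.H281.FD Vale.Agent.P281Z Vale.Agent.P280Z
open Vale.Agent.P277.HD (pull)
open Vale.Agent.P285N Vale.Agent.P285N.Tp
open Vale.Agent.P285T.Cb (Ud)

noncomputable section

namespace Vale.Agent.P270H

theorem lam : LAM := by
  intro T hT _ w e V Q M U C E hU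
  have hQ := hU.q
  have := hU.ok.conn
  obtain ⟨H, h1, h2⟩ := hU.ok.prj
  have a1 := hQ.bir.res.lbA
  have lL := hQ.bir.res.lbL
  obtain ⟨Z, hM⟩ := hU.md
  have hπ := hM.hol
  have hL := hπ.lb lL
  have hA := hπ.lb a1
  have bA : Bpf _ (pull U.π Q.A) := fun y => by
    obtain ⟨c, hc⟩ := a1.cover (U.π y)
    obtain ⟨a, ha⟩ := hQ.bir.res.free c _ hc
    exact ⟨_, hπ.sec (hQ.bir.res.sec a),
      (nz_iff a1 (fun b b' => (hQ.bir.res.sec a).change b b' _) hc).2 ha⟩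
  obtain ⟨k, s, s1, c, x, s2, s3⟩ := kodp2 _ V M.X Q U.π Z _ hQ hU.ok.conn hM (lb_zp h1 (-1))
  have hT' := lb_mul (lb_pow hA k) (lb_zp h1 (-1))
  have hΛ := lb_pow hA (k + 1)
  have mu : Q.Mu Q.L 1 1 := ⟨hQ, lL, one_pos, N2.refl lL⟩
  refine ⟨(pull U.π Q.A).pow (k + 1), ⟨hΛ, fun y => ?_, H, h1, h2, ?_⟩,
    fun k' i N t m1 m2 ⟨j, m3⟩ => ?_, fun m d W p hp b e1 e2 e3 e4 e5 => ?_⟩
  · obtain ⟨u, u1, u2⟩ := bA y
    exact ⟨_, N2.pow_sec u1 (k + 1), fun a ha => pow_ne_zero _ (u2 a ha)⟩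
  · obtain ⟨u, u1, u2⟩ := bA x
    have k1 := P285S.Tp.ef_add (Y := M.X) ⟨_, s, hT', rfl, s1, x,
      (nz_iff hT' (fun a b => s1.change a b x) s2).2 s3⟩ ⟨_, u, hA, rfl, u1, x, u2⟩
    rw [cls_mul (lb_pow hA k) (lb_zp h1 _), cls_zp h1, cls_pow hA] at k1
    convert k1 using 1
    rw [cls_pow hA]
    module
  · have e := lb_mul (lb_pow lL (i * U.k)) (lb_pow a1 (k' * (k + 1)))
    refine Xc.secP_of_cls hU.ok.snc (hπ.lb e) m1 ?_ (fun t' ht => ?_) m3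
    · rw [m2, cls_pow hL, cls_pow hA, ← mul_smul, ← mul_smul, ← cls_pow hA, ← cls_pow hL,
        add_comm (cls _ _), ← cls_mul (lb_pow hL _) (lb_pow hA _)]
      rfl
    · obtain ⟨u, u1, u2⟩ := har2 _ V M.X Q U.π Z _ M.G _ _ t' hQ hM hU.ok.snc e
        (rg _ V Q _ 1 1 mu _ _).2 (fun l hl => by
          by_contra h
          simp [Ud.xw, show ¬ U.Ex l from h] at hl) ht
      exact (secP_of_sec continuous_id (hπ.sec u1) fun _ => le_rfl).congr (hπ.lb e) isOpen_univ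
        (Hyp.of_snc hU.ok.snc).isOpen fun a y _ ha hy => u2 a y ha hy
  · have pc := hT.rg.pull_comp hp hπ (hπ.comp hp) fun _ => rfl
    rw [hT.c1.pow _ _ _ hA, hT.c1.pull hπ _ a1, map_smul, ← pc, smul_mul_assoc, map_smul,
      smul_eq_mul] at e5
    rw [hT.c1.pow _ _ _ hL, hT.c1.pull hπ _ lL, map_smul, ← pc, smul_mul_assoc, map_smul,
      P285T.Cb.trv T hT _ V Q hQ m d W _ (hπ.comp hp) b e1 e2 e3 e4
        ((mul_eq_zero.1 e5).resolve_left (by positivity)), smul_zero]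

end Vale.Agent.P270H
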