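import Vale.Agent.P270H.Gag
import Vale.Agent.P270G.Top2
import Vale.Agent.P285T.Cb.Asm
import Vale.Agent.P285S.Tp.Nvk
import Vale.Agent.P270G.Efq

/-!
# P270H: the assembly
-/

open Set
open Vale.Agent.P272.K Vale.Agent.P285.H281.FD Vale.Agent.P281Z Vale.Agent.P280Z
open Vale.Agent.P277.HD (pull)
open Vale.Agent.P285N.Tp (Rd flc)
open Vale.Agent.P285N.St (SubPair Psef)
open Vale.Agent.P285S (Pse)
open Vale.Agent.P280Z.Co (ct ct_ok)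
open Vale.Agent.P285T.Cb (Ud ONE0 CBF)

namespace Vale.Agent.P270H

theorem pse_up {n : ℕ} {V Y : Mf n} {π : Y.X → V.X} {S : Set V.X} (hπ : Modif n π S)
    (pV : V.Prj) {C : Bd V.X} (lC : IsLB n C) (h : Psef n C) (k : ℕ) :
    Pse Y (k • cls n (pull π C)) := by
  obtain ⟨A, lA, pA⟩ := pV
  refine ⟨hπ.hol.pic (cls n A), fun i => ?_⟩
  obtain ⟨j, hj, s, s1, s2⟩ := h A lA pA (i * k)
  have l1 := lb_mul (lb_pow lC (i * k)) lA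
  refine ⟨j, hj, (congrArg (P285S.Ef Y) ?_).mp
    (P285S.Tp.ef_pull hπ (P270G.EfqH.ef_of (lb_pow l1 j) s1 s2))⟩
  rw [cls_pow l1, cls_mul (lb_pow lC _) lA, cls_pow lC, map_nsmul, map_add, map_nsmul,
    cls_pull hπ.hol lC, mul_smul]

/-- **CBG** from the rows -/
theorem cbg_of (ga : ∀ n ≤ 4, P270G.GA n) (eq : ∀ n ≤ 4, P270G.EFQ n)
    (nvs : ∀ d ≤ 4, P285S.Mm.Ps.NVS d) (st0 : ST0) (crp : CRP) (fk0 : FK0) (fk1 : FK1)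
    (one0 : ONE0) (cbf : CBF) (wpr : WPR) (fpd : FPD) (psb : PSB) (fibk : FIBK) (amb : AMB)
    (gdw : GDW) (gup : GUP) (gag : GAG) (en : END) : CBG := by
  intro n d V Q D t q C L hQ K hC lL nL iso hn hd
  obtain ⟨d', h1, h2, h3⟩ := P285T.Cb.AsmH.mx
    (p := fun d => ¬ Neg n (P285W.Bs.Gd ct V (ct.c1 V Q.L) d)) (fun _ => P285T.Cb.AsmH.gd_le) hd
  have h4 := P285T.Cb.AsmH.gd_le h2
  rcases d' with _ | e
  · exact ga n (by omega) V Q D t q C L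
      ⟨hQ, K, eq n (by omega) V Q D t q C L hQ K hC lL nL iso, lL, nL, iso⟩
  obtain ⟨w, rfl⟩ : ∃ w, n = w + (e + 1) := ⟨n - (e + 1), by omega⟩
  have hw : w ≤ 4 := by omega
  obtain ⟨M, U, E, hU, h5⟩ := st0 ct ct_ok w e V Q D t q C L hQ K hC lL nL iso h2 (not_not.1 h3)
  obtain ⟨m, h6⟩ := one0 w (e + 1) M hU.fb (Mf.Prj.kah hU.ok.prj) (Mf.Prj.kah hU.prj)
    (fk0 ct ct_ok flc w e V Q M U C E hU h5) (fk1 ct ct_ok flc w e V Q M U C E hU)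
  obtain ⟨M₀, F, A, u, v, ⟨U₀, E₀, k0⟩, k1, k2, k3, k4, k5⟩ := cbf w (e + 1) m
    (fun M => ∃ (U : Ud Q M) (E : Bd M.Y.X), Ok ct U C E) (fun _ ⟨_, _, k⟩ => ⟨k.ok.prj, k.prj⟩)
    (fun M M₁ u v ⟨U, E, k⟩ a b c d f =>
      (crp ct ct_ok flc w e V Q M U C E k M₁ u v a b c d f).imp fun _ k => k.imp fun _ k => k.1)
    M ⟨U, E, hU⟩ h6
  obtain ⟨U₁, E₁, k6, k7⟩ := crp ct ct_ok flc w e V Q M₀ U₀ C E₀ k0 F.T.toFb u v k1.or.sn.ok k2 k3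
    k4 k1.or.sn.connG
  obtain ⟨B, A', z, b1, b2⟩ := wpr ct ct_ok flc w e m V Q F A U₁ C E₁ k6 k1
    fun l => (k5 l).imp_left (k7 l)
  obtain ⟨S₀, hπ⟩ := k6.md
  have ps : Pse F.T.Y (cls w B.P) := psb ct ct_ok _ w F.T.X F.T.Y _ k6.fb.fibn.hol U₁.P B.P
    (z * U₁.c) ⟨k6.ok.conn, k6.ok.prj⟩ b1.cp k6.fb.fibn.surj k6.ok.lb b1.lb
    (by rw [b2.cl, map_smul, k6.cE, smul_smul, Nat.cast_mul])
    (k6.cl ▸ pse_up hπ hQ.prj k6.lbC hC _)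
  obtain ⟨κ, ι, _, P, μ, N, τ, z', b3, b4⟩ :=
    gdw w _ B b1 (amb w _ B b1 (fibk nvs w hw _ B b1 ps))
  obtain ⟨M', b5⟩ := gup ct ct_ok w _ B κ ι P μ N τ z' z U₁.D E₁ b1 ps b3 b4 k6.lbD k6.lbE k6.nfD
    k6.nfE b2.cl (fpd ct ct_ok flc w e V Q _ U₁ C E₁ k6 B A' z b1 b2)
  obtain ⟨S, hτ⟩ := b3.md
  refine en ct ct_ok flc w e V Q _ U₁ C E₁ k6 (Sm.down ct_ok hτ (Nat.mul_pos b3.zp b2.zp) ?_
    (gag w hw ct ct_ok κ ι P μ N flc _ M' b5))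
  rw [ct_ok.c1.pow _ _ _ (hτ.hol.lb k6.lbD), ct_ok.c1.pull hτ.hol _ k6.lbD]

end Vale.Agent.P270H
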