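import Vale.Agent.P270H.Defs
import Vale.Agent.P281Z.U1.Fin

/-!
# P270H: row AMB
-/

open scoped Manifold ContDiff Topology
open Set Filter Function
open Vale.Agent.P272.K Vale.Agent.P285.H281.FD Vale.Agent.P281Z Vale.Agent.P280Z
open Vale.Agent.P277Z.Slc (IsDiv Snc lin LEq isLB_can)
open Vale.Agent.P277.HD (pull)
open Vale.Agent.P285S (Ef)

noncomputable section

namespace Vale.Agent.P270H

namespace Amb89

variable {n : ℕ} {Y : Mf n} {β γ : Pic n Y.X}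

theorem thin_nz [ConnectedSpace Y.X] {H : Bd Y.X} {t : H.ι → Y.X → ℂ} (hH : IsLB n H)
    (ht : IsSec n H t) (h : ∃ x, NZ H t x) : Thin n {y | ¬ NZ H t y} :=
  An.thin (fun y => (hH.cover y).elim fun a ha => ⟨1, fun _ => t a, fun _ => sec_hol ht ha,
    (lb_near hH ha).mono fun _ k => (not_congr (nz_iff hH (fun a b => ht.change a b _) k)).trans
      (by simp)⟩)
    fun k => h.elim fun x hx => eq_univ_iff_forall.1 k x hx

theorem ef_add [ConnectedSpace Y.X] (h : Ef Y β) (h' : Ef Y γ) : Ef Y (β + γ) := by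
  obtain ⟨D, t, h1, rfl, h3, h4⟩ := h
  obtain ⟨D', t', k1, rfl, k3, k4⟩ := h'
  obtain ⟨x, hx⟩ := ((thin_nz h1 h3 h4).union (thin_nz k1 k3 k4)).2.nonempty
  refine ⟨D.mul D', fun c y => t c.1 y * t' c.2 y, lb_mul h1 k1, cls_mul h1 k1,
    isSec_of (fun a y ha => (sec_hol h3 ha.1).mul (sec_hol k3 ha.2)) fun a b y ha hb => ?_, x,
    fun a ha => mul_ne_zero (not_not.1 (fun k => hx (.inl k)) _ ha.1)
      (not_not.1 (fun k => hx (.inr k)) _ ha.2)⟩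
  rw [h3.change a.1 b.1 y ha.1 hb.1, k3.change a.2 b.2 y ha.2 hb.2]
  exact mul_mul_mul_comm _ _ _ _

theorem sec_pow {D : Bd Y.X} {t : D.ι → Y.X → ℂ} (h : IsSec n D t) (k : ℕ) :
    IsSec n (D.pow k) fun a y => t a y ^ k :=
  isSec_of (fun a y ha => (sec_hol h ha).pow k) fun a b y ha hb => by
    show t a y ^ k = D.g a b y ^ k * t b y ^ k
    rw [h.change a b y ha hb, mul_pow]

theorem ef_smul (h : Ef Y β) (k : ℕ) : Ef Y (k • β) := by
  obtain ⟨D, t, h1, rfl, h3, x, h4⟩ := h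
  exact ⟨_, _, lb_pow h1 k, cls_pow h1 k, sec_pow h3 k, x, fun a ha => pow_ne_zero _ (h4 a ha)⟩

theorem bpf_pow {D : Bd Y.X} (h : Bpf n D) (k : ℕ) : Bpf n (D.pow k) := fun x =>
  let ⟨_, h1, h2⟩ := h x; ⟨_, sec_pow h1 k, fun a ha => pow_ne_zero _ (h2 a ha)⟩

/-- sections with integral poles give effective classes -/
theorem ef_of_kap {κ : Type} [Fintype κ] {G : κ → Set Y.X} (hS : Snc n G) (X : P285T.Cb.Dv Y G)
    {L : Bd Y.X} (hL : IsLB n L) {c : κ → ℝ} (k : κ → ℕ) (hc : ∀ l, c l = k l)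
    (h : KapL n n id L G c 0) :
    ∃ m : ℕ, 0 < m ∧ Ef Y (m • (cls n L + ∑ l, k l • cls n (X.O l))) := by
  obtain ⟨m, hm, h⟩ := h
  have hi : HolM n n (id : Y.X → Y.X) := contMDiff_id
  have lN := fun k => lb_lin (fun l => (X.div l).lb) k
  obtain ⟨t, h1, x, -, a, h3, h4, -⟩ := (sy_iff_sec hi (trv_id (Hyp.of_snc hS)) hS X.div
    (lb_pow hL m)).1 (kapM_iff.1 h)
  have hN := lb_mul (lb_pow hL m) (hi.lb (lN fun l => ⌊(m : ℝ) * c l⌋))
  refine ⟨m, hm, _, t 0, hN, ?_, h1 0, x, (nz_iff hN (fun a b => (h1 0).change a b x) h3).2 h4⟩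
  rw [cls_mul (lb_pow hL m) (hi.lb (lN _)), cls_pow hL,
    show pull id (lin X.O fun l => ⌊(m : ℝ) * c l⌋) = lin X.O fun l => ⌊(m : ℝ) * c l⌋ from rfl,
    cls_lin fun l => (X.div l).lb, smul_add, Finset.smul_sum]
  refine congrArg _ (Finset.sum_congr rfl fun l _ => ?_)
  rw [hc l, ← Nat.cast_mul, Int.floor_natCast, natCast_zsmul, smul_smul]

end Amb89

open Amb89 in
/-- row AMB -/
theorem amb89 : AMB := by
  intro w W B hB hF
  have hc := hB.cp.conn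
  have hγ := hB.hγ
  obtain ⟨N₀, c₀, θ, hN₀, hθ, z₀, hz₀⟩ := hB.zk.theta
  obtain ⟨x', hx'⟩ : ∃ x', B.x = x' + 1 ∧ 0 < x' := by
    obtain ⟨s, hs⟩ := hB.even
    have := hB.xp
    exact ⟨B.x - 1, by omega, by omega⟩
  have lK := isLB_can (n := w) (W := W.X)
  have lZ := hγ.lb (isLB_can (n := B.r) (W := B.Z.X))
  have lM := hγ.lb hB.zk.lbM
  have lA := hγ.lb hB.zk.lbA
  have l3 : ∀ b, IsLB w (![Bd.can w W.X, pull B.γ (Bd.can B.r B.Z.X), pull B.γ B.A] b) :=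
    Fin.forall_fin_succ.2 ⟨lK, Fin.forall_fin_two.2 ⟨lZ, lA⟩⟩
  have l4 : ∀ b, IsLB B.r (![Bd.can B.r B.Z.X, B.M, B.A] b) :=
    Fin.forall_fin_succ.2 ⟨isLB_can, Fin.forall_fin_two.2 ⟨hB.zk.lbM, hB.zk.lbA⟩⟩
  have px : (0 : ℚ) < B.x := by exact_mod_cast hB.xp
  have u := U1.u1 w B.r W B.Z B.γ B.A _ B.D (fun j => ((max (B.μ j) 0 : ℤ) / B.x : ℚ)) hc
    hB.cp.prj.kah hγ hB.surj hB.zk.lbA hB.zk.posA hB.snc (fun j => ⟨by positivity, by
      rw [div_le_one px]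
      exact_mod_cast max_le (hB.klt j).le (Int.natCast_nonneg _)⟩) hF (B.x * N₀)
    (Nat.mul_pos hB.xp hN₀)
  obtain ⟨m, hm, e1⟩ := ef_of_kap hB.snc B.Y (lb_lin l3 _) (fun j => N₀ * (B.μ j).toNat)
    (fun j => by
      have : ((B.μ j).toNat : ℝ) = ((max (B.μ j) 0 : ℤ) : ℝ) := by
        rw [← Int.ofNat_toNat, Int.cast_natCast]
      have px' : (B.x : ℝ) ≠ 0 := by exact_mod_cast hB.xp.ne'
      rw [Nat.cast_mul, Nat.cast_mul, this, Rat.cast_div, Rat.cast_intCast, Rat.cast_natCast]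
      field_simp) u
  obtain ⟨x₀, rfl⟩ := hB.surj z₀
  have e2 : Ef W (cls w (pull B.γ (lin ![Bd.can B.r B.Z.X, B.M, B.A] ![N₀, c₀, -1]))) :=
    ⟨_, _, hγ.lb (lb_lin l4 _), rfl, hγ.sec hθ, x₀, hz₀⟩
  have e3 : cls w (pull B.γ (lin ![Bd.can B.r B.Z.X, B.M, B.A] ![N₀, c₀, -1])) =
      N₀ • cls w (pull B.γ (Bd.can B.r B.Z.X)) + c₀ • cls w (pull B.γ B.M) -
        cls w (pull B.γ B.A) := by
    refine (cls_lin (fun b => hγ.lb (l4 b)) _).trans ?_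
    simp [Fin.sum_univ_three, sub_eq_add_neg]
  rw [e3] at e2
  rw [cls_lin l3] at e1
  simp only [Fin.sum_univ_three, Matrix.cons_val_zero, Matrix.cons_val_one, Matrix.cons_val] at e1
  refine ⟨_, m * N₀, ef_add e1 (ef_smul e2 (m * B.x)), fun j => ?_⟩
  obtain ⟨k, hk, hb⟩ := hB.zk.nef (j * B.y + N₀ * B.y + 1) (Nat.succ_pos _)
  obtain ⟨d, hd, hd'⟩ : ∃ d, (j * B.y + N₀ * B.y + 1) * x' + B.x * c₀ = d + N₀ * B.y ∧
      j * B.y < d := by
    have : j * B.y + N₀ * B.y + 1 ≤ (j * B.y + N₀ * B.y + 1) * x' :=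
      Nat.le_mul_of_pos_right _ hx'.2
    exact ⟨(j * B.y + N₀ * B.y + 1) * x' + B.x * c₀ - N₀ * B.y, by omega, by omega⟩
  have lH := lb_mul (lb_pow hB.zk.lbM ((j * B.y + N₀ * B.y + 1) * k)) (lb_pow hB.zk.lbA k)
  refine ⟨k * m * d, B.y * k, (pull B.γ _).pow (B.y * m * x'), ?_, lb_pow (hγ.lb lH) _,
    bpf_pow (fun x => let ⟨s, k1, k2⟩ := hb (B.γ x); ⟨_, hγ.sec k1, k2⟩) _, ?_⟩
  · calc j * (B.y * k) = k * 1 * (j * B.y) := by ring
      _ < k * m * d := Nat.mul_lt_mul_of_le_of_lt (Nat.mul_le_mul_left _ hm) hd' (Nat.mul_pos hk hm)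
  · have e4 : ∑ i, B.μ i • cls w (B.Y.O i) + ∑ i, (-B.μ i).toNat • cls w (B.Y.O i) =
        ∑ i, (B.μ i).toNat • cls w (B.Y.O i) := by
      rw [← Finset.sum_add_distrib]
      refine Finset.sum_congr rfl fun i _ => ?_
      rw [← natCast_zsmul, ← natCast_zsmul, ← add_smul]
      congr 1
      omega
    have e5 : ∑ i, (N₀ * (B.μ i).toNat) • cls w (B.Y.O i) =
        N₀ • ∑ i, (B.μ i).toNat • cls w (B.Y.O i) := by
      rw [Finset.smul_sum]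
      exact Finset.sum_congr rfl fun i _ => (smul_smul _ _ _).symm
    have e6 : cls w B.P + ∑ i, (-B.μ i).toNat • cls w (B.Y.O i) = B.x • cls w (Bd.can w W.X) +
        ∑ i, (B.μ i).toNat • cls w (B.Y.O i) + B.y • cls w (pull B.γ B.M) := by
      rw [hB.cl, ← e4]; abel
    rw [e6, e5, cls_pow (hγ.lb lH), cls_pull hγ lH, cls_mul (lb_pow hB.zk.lbM _) (lb_pow hB.zk.lbA _),
      cls_pow hB.zk.lbM, cls_pow hB.zk.lbA, map_add, map_nsmul, map_nsmul, ← cls_pull hγ hB.zk.lbM,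
      ← cls_pull hγ hB.zk.lbA]
    have hd2 : (d : ℤ) = (j * B.y + N₀ * B.y + 1) * x' + B.x * c₀ - N₀ * B.y := by
      have : (((j * B.y + N₀ * B.y + 1) * x' + B.x * c₀ : ℕ) : ℤ) = (d + N₀ * B.y : ℕ) := by rw [hd]
      push_cast at this
      linarith
    have hx2 : (B.x : ℤ) = x' + 1 := by exact_mod_cast hx'.1
    simp only [← natCast_zsmul]
    push_cast
    rw [hd2, hx2]
    module

end Vale.Agent.P270H
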