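import Vale.Agent.P270H.Defs
import Vale.Agent.P285T.Cb.Asm
import Vale.Agent.P270G.Top2
import Vale.Agent.P285S.Tp.Thr

/-!
# P270H: the assembly
-/

open Set
open Vale.Agent.P272.K Vale.Agent.P285.H281.FD Vale.Agent.P281Z Vale.Agent.P280Z
open Vale.Agent.P277.HD (pull)
open Vale.Agent.P285N.Tp (Rd flc)
open Vale.Agent.P285N.St (SubPair Psef)
open Vale.Agent.P285S (Pse)
open Vale.Agent.P285T.Cb (Ud)
open Vale.Agent.P280Z.Co (ct ct_ok)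

namespace Vale.Agent.P270H

namespace A79

variable {n : ℕ} {V Y : Mf n}

theorem pse {π : Y.X → V.X} {B : Set V.X} (hM : Modif n π B) (hP : V.Prj) {C : Bd V.X}
    (lC : IsLB n C) (h : Psef n C) {β : Pic n Y.X} {k : ℕ} (e : β = k • cls n (pull π C)) :
    Pse Y β := by
  obtain ⟨A, lA, pA⟩ := hP
  refine ⟨hM.hol.pic (cls n A), fun i => ?_⟩
  obtain ⟨j, hj, s, s1, a, x, s2, s3⟩ := h A lA pA (i * k)
  have l1 := lb_mul (lb_pow lC (i * k)) lA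
  have l2 := lb_pow l1 j
  refine ⟨j, hj, (congrArg (P285S.Ef Y) ?_).mp (P285S.Tp.ef_pull hM
    ⟨_, s, l2, rfl, s1, x, (nz_iff l2 (fun a b => s1.change a b x) s2).2 s3⟩)⟩
  rw [e, cls_pow l1, cls_mul (lb_pow lC _) lA, cls_pow lC, cls_pull hM.hol lC, map_nsmul,
    map_add, map_nsmul, mul_smul]

theorem sm (hR : REM) {T : CT} (hT : T.OK) {τ : Y.X → V.X} {S : Set V.X} (hτ : Modif n τ S)
    {D : Bd V.X} (lD : IsLB n D) {z : ℕ} (hz : 0 < z) (h : Sm T Y (T.c1 Y ((pull τ D).pow z))) :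
    Sm T V (T.c1 V D) := by
  obtain ⟨Z, σ, S', hσ, P, y, h1, h2, h3, h4, h5⟩ := h
  refine ⟨Z, _, _, hτ.comp hR hσ, P, y * z, h1, h2, h3, Nat.mul_pos h4 hz, ?_⟩
  rw [h5, hT.c1.pow _ _ _ (hτ.hol.lb lD), hT.c1.pull hτ.hol _ lD, map_smul, smul_smul,
    hT.rg.pull_comp hσ.hol hτ.hol (hτ.comp hR hσ).hol (fun _ => rfl), Nat.cast_mul]

end A79

/-- **CBG** from the rows -/
theorem cbg79 (hR : REM) (ga : ∀ n ≤ 4, P270G.GA n) (efq : ∀ n ≤ 4, P270G.EFQ n)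
    (nvs : ∀ d ≤ 4, P285S.Mm.Ps.NVS d) (st0 : ST0) (crp : CRP) (fk0 : FK0) (fk1 : FK1)
    (one0 : P285T.Cb.ONE0) (cbf : P285T.Cb.CBF) (wpr : WPR) (fpd : FPD) (psb : PSB)
    (fibk : FIBK) (amb : AMB) (gdw : GDW) (gup : GUP) (gag : GAG) (en : END) : CBG := by
  intro n d V Q D t q C L hQ K hC lL nL hi hn hd
  obtain ⟨d', h1, h2, h3⟩ := P285T.Cb.AsmH.mx
    (p := fun d => ¬ Neg n (P285W.Bs.Gd ct V (ct.c1 V Q.L) d)) (fun _ => P285T.Cb.AsmH.gd_le) hd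
  have h4 := P285T.Cb.AsmH.gd_le h2
  rcases d' with _ | e
  · exact ga n (by omega) V Q D t q C L
      ⟨hQ, K, efq n (by omega) V Q D t q C L hQ K hC lL nL hi, lL, nL, hi⟩
  obtain ⟨w, rfl⟩ : ∃ w, n = w + (e + 1) := ⟨n - (e + 1), by omega⟩
  have hw : w ≤ 4 := by omega
  obtain ⟨M, U, E, hU, h5⟩ := st0 ct ct_ok w e V Q D t q C L hQ K hC lL nL hi h2 (not_not.1 h3)
  obtain ⟨m, h6⟩ := one0 w (e + 1) M hU.fb (Mf.Prj.kah hU.ok.prj) (Mf.Prj.kah hU.prj)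
    (fk0 ct ct_ok flc w e V Q M U C E hU h5) (fk1 ct ct_ok flc w e V Q M U C E hU)
  obtain ⟨M₀, F, A, u, v, ⟨U₀, E₀, k0⟩, k1, k2, k3, k4, k5⟩ := cbf w (e + 1) m
    (fun M => ∃ (U : Ud Q M) (E : Bd M.Y.X), Ok ct U C E) (fun _ ⟨_, _, k⟩ => ⟨k.ok.prj, k.prj⟩)
    (fun M M₁ u v ⟨U, E, k⟩ a b c d f =>
      (crp ct ct_ok flc w e V Q M U C E k M₁ u v a b c d f).imp fun _ k => k.imp fun _ k => k.1)
    M ⟨U, E, hU⟩ h6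
  obtain ⟨U₁, E₁, k6, k7⟩ := crp ct ct_ok flc w e V Q M₀ U₀ C E₀ k0 F.T.toFb u v k1.or.sn.ok k2 k3
    k4 k1.or.sn.connG
  obtain ⟨B, A', z, b1, b2⟩ := wpr ct ct_ok flc w e m V Q F A U₁ C E₁ k6 k1
    fun l => (k5 l).imp_left (k7 l)
  obtain ⟨S₁, hπ⟩ := k6.md
  have ps : Pse F.T.Y (cls w B.P) := psb ct ct_ok _ w F.T.X F.T.Y F.T.f k6.fb.fibn.hol U₁.P B.P
    (z * U₁.c) ⟨k6.ok.conn, k6.ok.prj⟩ b1.cp k6.fb.fibn.surj k6.ok.lb b1.lb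
    (by rw [b2.cl, map_smul, k6.cE, smul_smul, Nat.cast_mul])
    (A79.pse hπ hQ.prj k6.lbC hC k6.cl)
  obtain ⟨κ, ι, _, P, μ, N, τ, z', b3, lt⟩ := gdw w _ B b1 (amb w _ B b1 (fibk nvs w hw _ B b1 ps))
  obtain ⟨M', b4⟩ := gup ct ct_ok w _ B κ ι P μ N τ z' z U₁.D E₁ b1 ps b3 lt k6.lbD k6.lbE k6.nfD
    k6.nfE b2.cl (fpd ct ct_ok flc w e V Q _ U₁ C E₁ k6 B A' z b1 b2)
  obtain ⟨S, hτ⟩ := b3.md
  exact en ct ct_ok flc w e V Q _ U₁ C E₁ k6 (A79.sm hR ct_ok hτ k6.lbD (Nat.mul_pos b3.zp b2.zp)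
    (gag w hw ct ct_ok κ ι P μ N flc _ M' b4))

end Vale.Agent.P270H
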