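import Vale.Agent.P270H.Defs
import Vale.Agent.P270F.Mg.Defs
import Vale.Agent.P285S.Mp.Nvso
import Vale.Agent.P285S.Mm.Mkpr
import Vale.Agent.P285S.Tp.Top
import Vale.Agent.P285S.Tp.Nfp
import Vale.Agent.P285N.Xc.Cls

/-!
# P270H, row CTR: the negative components are contracted
-/

open Set
open Vale.Agent.P272.K Vale.Agent.P285.H281.FD Vale.Agent.P281Z Vale.Agent.P285N
open Vale.Agent.P277Z.Slc (lin)
open Vale.Agent.P277.HD (pull)
open Vale.Agent.P285S.Mm.Gp (In)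

namespace Vale.Agent.P270H

theorem ctr59_of (hZ : P270F.Mg.ZC) (h0 : PH0) : CTR := by
  classical
  intro d hd T _ κ ι _ A m N L M h cn ef
  have hA := h.ok
  obtain ⟨H, C, lH, pH, fp⟩ := h.bp
  choose O σ hO using fun l => P277Z.Slc.stDiv d A.Z.X (A.G l) fun y =>
    (hA.snc y).elim fun ζ k => ⟨ζ l, k.1 l⟩
  have lO := fun l => (hO l).lb
  have lF := lb_lin lO fun l => ((-m l).toNat : ℤ)
  have cF := cls_lin lO fun l => ((-m l).toNat : ℤ)
  have lP := lb_mul hA.lb lF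
  have cP := cls_mul hA.lb lF
  have cQ := cls_mul h.lb lF
  have hm : ∀ l, m l + ((-m l).toNat : ℤ) < N := fun l => by
    have h1 := h.klt l
    have h2 := hA.pos
    omega
  obtain ⟨Ω, h2⟩ := P285S.Mm.mkpr d κ A.Z A.G O σ _ (fun l => m l + ((-m l).toNat : ℤ)) N hA.conn
    hA.prj hA.snc hO lP hA.pos hA.even (fun l => (hm l).le) (by
      rw [cP, cF, Xc.cls_eq d κ ι m N A O σ hA hO]
      simp only [add_smul, Finset.sum_add_distrib, add_assoc])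
  have hI : In ⟨A.Z, A.G, _, _, Ω⟩ _ _ O σ (fun l => (-m l).toNat) 1 L
      (L.mul (lin O fun l => ((-m l).toNat : ℤ))) :=
    ⟨h2, fun l => by omega, hO, h.lb, h.nef, one_pos, by
      simp only [one_smul, cQ, cF, natCast_zsmul], lb_mul h.lb lF, M, h.lbM, h.nfM,
      cQ.trans (by rw [h.cl, add_right_comm, ← cP])⟩
  obtain ⟨R, Ψ, ok, zd, gr, cn'⟩ := hZ d hd κ _ _ _ _ _ _ _ 1 _ _ hI cn H lH pH
  have z := h0 d κ _ _ _ _ _ _ _ 1 _ _ hI R H Ψ rfl lH ok zd cn'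
    ⟨H, C, lH, pH, by simpa only [Xc.Fp, Xc.PolW, neg_neg, Int.toNat_natCast] using fp⟩
  obtain ⟨Λ, H', l1, l2, l3, l4, l5, l6⟩ := gr.rig
  obtain ⟨H₀, g, -⟩ := gr.gd
  have hπ := ok.md.hol
  have lM := hπ.lb h.lbM
  have nM := P285S.Tp.nf_comp hπ hA.prj h.lbM h.nfM
  have e1 : cls d R.Q = R.δ • cls d (pull R.π L) := by simpa [z] using ok.eff
  have e2 : cls d R.Q = cls d R.B.P + cls d ((pull R.π M).pow R.δ) := by
    rw [ok.clQ, ok.cl, cls_pow lM, cls_pull hπ hI.lbQ, cls_pull hπ h2.lb, cls_pull hπ h.lbM, cQ,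
      h.cl, add_right_comm, ← cP, map_add, smul_add]
    exact sub_add_eq_add_sub _ _ _ |>.symm
  have e3 : cls d R.B.P = R.δ • hπ.pic (cls d A.P) := by
    rw [e1, cls_pow lM, cls_pull hπ h.lb, cls_pull hπ h.lbM, h.cl, map_add, smul_add] at e2
    exact (add_right_cancel e2).symm
  have := ok.ok.conn
  refine ⟨R.κ', R.ι', _, R.B, R.m, R.N, R.π, _, R.Q, _, Λ, R.δ, ok.md, ⟨⟨ok.ok, fun l => ?_, ok.lbQ,
    P285S.Tp.nf_of g.lbH g.lbL fun i M hM e => g.pos i 0 M hM (by simpa using e),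
    lb_pow lM _, fun H lH pH i => Xc.piso _ _ _ _ (lb_mul (lb_pow lM (i * R.δ)) lH)
      (lb_mul (lb_pow (lb_pow lM _) i) lH) (by
        rw [cls_mul (lb_pow lM _) lH, cls_mul (lb_pow (lb_pow lM _) i) lH, cls_pow (lb_pow lM _),
          cls_pow lM, cls_pow lM, smul_smul]) (nM H lH pH _), e2⟩, cn', ?_,
    ⟨l1, l2, H', l3, l4, l5⟩, fun k i M s lM cM ⟨j, hj⟩ => l6 k i M s lM cM
      ⟨j, hj.mono continuous_id fun l => ?_⟩⟩, ok.pos, e1⟩
  · refine (ok.ok.le l).lt_of_ne fun e => ?_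
    obtain ⟨y, hy⟩ := (cn' l).nonempty
    obtain ⟨k, hk, -⟩ := ok.up l e y hy
    exact (hm k).ne hk
  · obtain ⟨a, a0, ha⟩ := (P285S.Mm.Ps.Nvso.eff_iff hA.lb).1 ef
    refine (P285S.Mm.Ps.Nvso.eff_iff ok.ok.lb).2 ⟨a, a0, ?_⟩
    rw [e3, smul_comm, ← map_nsmul]
    exact P285S.Tp.ef_smul (P285S.Tp.ef_pull ok.md ha) _
  · by_cases hl : R.m l < 0
    · have := ok.neg l hl
      rw [if_pos hl, if_pos (show -(R.Φ l : ℤ) < 0 by omega)]
    · rw [if_neg hl]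
      split_ifs <;> positivity

end Vale.Agent.P270H
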