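import Vale.Agent.P285T.Cb.Defs
import Vale.Agent.P270G.Defs5

/-!
# P270H: generalised abundance in nef dimension at most four (definitions, rows)
-/

open scoped Manifold ContDiff Topology
open Set Filter Function
open Vale.Agent.P272.K Vale.Agent.P285.H281.FD Vale.Agent.P281Z Vale.Agent.P280Z
open Vale.Agent.P277Z.Slc (IsDiv Snc lin LEq)
open Vale.Agent.P277.HD (pull)
open Vale.Agent.P285N (Pr Tv)
open Vale.Agent.P285N.Xc (Fp Rig)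
open Vale.Agent.P285N.Tp (Rd FLC Eff)
open Vale.Agent.P285N.St (SubPair Iso Psef)
open Vale.Agent.P285W.J (Tr NTp Bf Nf)
open Vale.Agent.P285W.Bs (Cp Tf Ds)
open Vale.Agent.P285S (Pse Gd)
open Vale.Agent.P285S.B2 (Nu)
open Vale.Agent.P285S.Mm.Gp (ForI Dt)
open Vale.Agent.P281Z.Pk (Fd Zk Sn Dom NeAt)
open Vale.Agent.P285T.Cb (Ud Wp Cf Nzt)
open Vale.Agent.P270G (ForP Kd Rf Dn)

noncomputable section

namespace Vale.Agent.P270H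

/-! ### the base -/

section base

variable {d : ℕ} {κ ι : Type} [Fintype κ]

/-- klt pairs with a nef part -/
structure G0 (A : Pr d κ ι) (m : κ → ℤ) (N : ℕ) (L M : Bd A.Z.X) : Prop where
  ok : A.Ok m N
  klt : ∀ l, m l < N
  lb : IsLB d L
  nef : P285N.Tp.Nf A.Z L
  lbM : IsLB d M
  nfM : P285N.Tp.Nf A.Z M
  cl : cls d L = cls d A.P + cls d M

/-- bounded poles -/
def Bp (A : Pr d κ ι) (m : κ → ℤ) (L : Bd A.Z.X) : Prop :=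
  ∃ (H : Bd A.Z.X) (C : ℕ), IsLB d H ∧ Pos d H ∧ Fp A m H L C

/-- pseudo-effective pairs with bounded poles -/
structure Gf (A : Pr d κ ι) (m : κ → ℤ) (N : ℕ) (L M : Bd A.Z.X) : Prop extends
    G0 A m N L M where
  ps : Pse A.Z (cls d A.P)
  bp : Bp A m L

/-- effective pairs with rigid negative components -/
structure Gg (A : Pr d κ ι) (m : κ → ℤ) (N : ℕ) (L M Λ : Bd A.Z.X) : Prop extends
    G0 A m N L M where
  conn : ∀ l, IsConnected (A.G l)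
  eff : Eff d A.P
  fb : P270G.Fb A.Z Λ
  rig : Rig A m Λ L

/-- on a model a multiple of `l` is semiample -/
def Sm (T : CT) (Z : Mf d) (l : T.H Z) : Prop :=
  ∃ (Y : Mf d) (τ : Y.X → Z.X) (S : Set Z.X) (hτ : Modif d τ S) (P : Bd Y.X) (z : ℕ), Y.Prj ∧
    IsLB d P ∧ Semiample d P ∧ 0 < z ∧ T.c1 Y P = (z : ℝ) • T.pull hτ.hol l

end base

/-- ROW FPU: bounded poles go up -/
def FPU : Prop := ∀ (d : ℕ) (κ ι κ' ι' : Type) [Fintype κ] [Fintype κ'] (A : Pr d κ ι)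
  (A' : Pr d κ' ι') (m : κ → ℤ) (m' : κ' → ℤ) (π : A'.Z.X → A.Z.X) (S : Set A.Z.X)
  (L : Bd A.Z.X), Cp A.Z → A'.Z.Prj → Snc d A.G → Snc d A'.G → Modif d π S → IsLB d L →
  (∀ y ∈ off A'.G, π y ∈ off A.G ∧ Imm d d π y) →
  (∀ l, m' l < 0 → ∀ y ∈ A'.G l, ¬ Imm d d π y ∨ ∃ k, m k < 0 ∧ π y ∈ A.G k) →
  Bp A m L → Bp A' m' (pull π L)

/-- ROW CNN: connected components -/
def CNN : Prop := ∀ d, ForP d fun _ _ ι _ A m N => ∀ L M : Bd A.Z.X, Gf A m N L M →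
  ∃ (κ' : Type) (_ : Fintype κ') (A' : Pr d κ' ι) (m' : κ' → ℤ) (π : A'.Z.X → A.Z.X)
    (S : Set A.Z.X), Modif d π S ∧ Gf A' m' N (pull π L) (pull π M) ∧ ∀ l, IsConnected (A'.G l)

/-- ROW EFG: non vanishing -/
def EFG : Prop := ∀ d, P285S.Mm.Ps.NVS d → ForP d fun _ _ _ _ A m N => ∀ L M : Bd A.Z.X,
  Gf A m N L M → Eff d A.P

/-- ROW PH0: the nef bundle is the positive part -/
def PH0 : Prop := ∀ d, ForI d fun _ _ _ A m N φ c L Q => ∀ (R : Dt A) H Ψ, c = 1 → IsLB d H →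
  R.Ok m N φ c L Q → R.Zd Q H Ψ → (∀ l, IsConnected (R.B.G l)) →
  Bp A (fun l => -(φ l : ℤ)) L → ∀ l, R.φ l = 0

/-- ROW CTR: the negative components are contracted -/
def CTR : Prop := ∀ d ≤ 4, ForP d fun _ _ _ _ A m N => ∀ L M : Bd A.Z.X, Gf A m N L M →
  (∀ l, IsConnected (A.G l)) → Eff d A.P →
  ∃ (κ' ι' : Type) (_ : Fintype κ') (A' : Pr d κ' ι') (m' : κ' → ℤ) (N' : ℕ) (π : A'.Z.X → A.Z.X)
    (S : Set A.Z.X) (L' M' Λ : Bd A'.Z.X) (δ : ℕ), Modif d π S ∧ Gg A' m' N' L' M' Λ ∧ 0 < δ ∧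
    cls d L' = δ • cls d (pull π L)

/-- ROW RKG: the nef reduction -/
def RKG : Prop := ∀ T : CT, T.OK → ∀ (n ν : ℕ) (V : Mf n) (L C M : Bd V.X), Cp V → IsLB n L →
  IsLB n C → IsLB n M → P285N.Tp.Nf V L → P285N.Tp.Nf V M → Eff n C →
  T.c1 V L = T.c1 V C + T.c1 V M → 0 < ν → ν < n → Nu T V (T.c1 V L) ν →
  Kd T V (T.c1 V L + T.c1 V M) ∨
    ∃ (V' : Mf n) (e : V'.X → V.X) (B : Set V.X) (he : Modif n e B) (α : T.H V') (S : Set V'.X),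
      V'.Prj ∧ Rf T V' (T.pull he.hol (T.c1 V L)) ν α S

/-- ROW DNG: the data above a given model -/
def DNG : Prop := ∀ d, ForP (d + 1) fun T _ _ _ A m N => ∀ (L M Λ : Bd A.Z.X) (ν : ℕ)
  (V' : Mf (d + 1)) (e : V'.X → A.Z.X) (B : Set A.Z.X), Gg A m N L M Λ → ν ≤ d →
  Nu T A.Z (T.c1 A.Z L) ν → Modif (d + 1) e B → V'.Prj →
  ∃ (κ' ι' : Type) (_ : Fintype κ') (A' : Pr (d + 1) κ' ι') (m' : κ' → ℤ) (N' : ℕ)
    (π : A'.Z.X → V'.X) (S : Set V'.X) (Λ' : Bd A'.Z.X), Modif (d + 1) π S ∧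
    Dn T A' m' N' (pull π (pull e L)) Λ' ν

/-- ROW GDG: an effective good pair in the class of a multiple of `L` -/
def GDG : Prop := ∀ d, ForP d fun T _ _ _ A m N => ∀ L M : Bd A.Z.X, G0 A m N L M → Bp A m L →
  Eff d A.P → Kd T A.Z (T.c1 A.Z L + T.c1 A.Z M) →
  ∃ (κ' ι' : Type) (_ : Fintype κ') (A' : Pr d κ' ι') (m' : κ' → ℤ) (N' : ℕ) (π : A'.Z.X → A.Z.X)
    (S : Set A.Z.X) (hπ : Modif d π S) (a : ℕ), Gd A' m' N' ∧ Eff d A'.P ∧ 0 < a ∧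
    T.c1 A'.Z A'.P = (a : ℝ) • T.pull hπ.hol (T.c1 A.Z L)

/-- **GAG** -/
def GAG : Prop := ∀ d ≤ 4, ForP d fun T _ _ _ A m N => FLC T → ∀ L M : Bd A.Z.X, Gf A m N L M →
  Sm T A.Z (T.c1 A.Z L)

/-! ### the total space -/

variable {n w : ℕ} {V : Mf n} {Q : Rd V} {M : Fb n w}

/-- the nef bundle on the total space -/
abbrev uL (U : Ud Q M) : Bd M.X.X := (pull U.π Q.L).pow U.k

/-- the hypotheses: `P` is the pull back of `C` and of `E` -/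
structure Ok (T : CT) (U : Ud Q M) (C : Bd V.X) (E : Bd M.Y.X) : Prop where
  q : Q.Ok
  fb : M.Ok
  ok : U.A.Ok U.m U.N
  klt : ∀ l, U.m l < U.N
  conn : ∀ l, IsConnected (M.G l)
  md : ∃ B, Modif n U.π B
  kp : 0 < U.k
  lbC : IsLB n C
  cl : cls n U.P = U.k • cls n (pull U.π C)
  neg : ∀ l, U.m l < 0 → U.Ex l
  del : ∀ l, U.Ex l ∨ (U.N : ℚ) * M.δ l ≤ U.m l
  prj : M.Y.Prj
  lbD : IsLB w U.D
  nfD : P285N.Tp.Nf M.Y U.D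
  cp : 0 < U.c
  cD : T.pull fb.fibn.hol (T.c1 M.Y U.D) = (U.c : ℝ) • T.c1 M.X (uL U)
  ntb : Neg w (Tr T M.Y (T.c1 M.Y U.D))
  lbE : IsLB w E
  cE : T.pull fb.fibn.hol (T.c1 M.Y E) = (U.c : ℝ) • T.c1 M.X U.P
  nfE : Nf T M.Y (T.c1 M.Y U.D - T.c1 M.Y E)

/-- the big and free bundle which contracts the exceptional components -/
structure Lam (T : CT) (U : Ud Q M) (Λ : Bd M.X.X) : Prop where
  fb : P270G.Fb M.X Λ
  rig : Rig U.A U.xw Λ (uL U)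
  nt : NTp T M.X (T.c1 M.X Λ) (T.c1 M.X (uL U)) ∅

/-- a statement for all the data; the fibres have the dimension `e + 1` -/
def ForU (P : ∀ (T : CT) (w e : ℕ) (V : Mf (w + (e + 1))) (Q : Rd V) (M : Fb (w + (e + 1)) w),
    Ud Q M → Bd V.X → Bd M.Y.X → Prop) : Prop :=
  ∀ T : CT, T.OK → FLC T → ∀ (w e : ℕ) (V : Mf (w + (e + 1))) (Q : Rd V)
    (M : Fb (w + (e + 1)) w) (U : Ud Q M) C E, Ok T U C E → P T w e V Q M U C E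

/-- ROW DS2: the nef part descends too -/
def DS2 : Prop := ∀ T : CT, T.OK → ∀ (n b d : ℕ) (V : Mf n) (L C M : Bd V.X)
  (F : Tf T V (T.c1 V L) n b) (D H : Bd F.Z.X) (δ : ℕ), n = b + d → 0 < d → Cp V → IsLB n L →
  IsLB n C → IsLB n M → P285N.Tp.Nf V L → P285N.Tp.Nf V M → Psef n C →
  T.c1 V L = T.c1 V C + T.c1 V M → Ds F D H δ →
  ∃ (F' : Tf T V (T.c1 V L) n b) (D' H' D₁ : Bd F'.Z.X) (δ' : ℕ), Ds F' D' H' δ' ∧ IsLB b D₁ ∧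
    Nf T F'.Z (T.c1 F'.Z D₁) ∧
    T.pull F'.fq.hol (T.c1 F'.Z D₁) = (δ' : ℝ) • T.pull F'.he (T.c1 V M)

/-- ROW ST0: the first model -/
def ST0 : Prop := ∀ T : CT, T.OK → ∀ (w e : ℕ) (V : Mf (w + (e + 1))) (Q : Rd V) (D : Bd V.X)
  (t : D.ι → V.X → ℂ) (q : ℕ) (C L : Bd V.X), Q.Ok → SubPair (w + (e + 1)) Q.E Q.s D t q C →
  Psef (w + (e + 1)) C → IsLB (w + (e + 1)) L → P285N.Tp.Nf V L →
  Iso (w + (e + 1)) Q.L (C.mul L) →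
  ¬ Neg (w + (e + 1)) (P285W.Bs.Gd T V (T.c1 V Q.L) (e + 1)) →
  Neg (w + (e + 1)) (P285W.Bs.Gd T V (T.c1 V Q.L) (e + 1 + 1)) →
  ∃ (M : Fb (w + (e + 1)) w) (U : Ud Q M) (E : Bd M.Y.X), Ok T U C E ∧
    ∀ l, (U.m l : ℚ) ≤ U.N * M.δ l

/-- ROW CRP: log models -/
def CRP : Prop := ForU fun T w e _ Q M _ C _ => ∀ (M₁ : Fb (w + (e + 1)) w) u v, M₁.Ok →
  M₁.Sq M u v → M₁.X.Prj → M₁.Y.Prj → (∀ l, IsConnected (M₁.G l)) →
  ∃ (U₁ : Ud Q M₁) (E₁ : Bd M₁.Y.X), Ok T U₁ C E₁ ∧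
    ∀ l, (∀ x ∈ M₁.G l, ¬ Imm (w + (e + 1)) (w + (e + 1)) u x) → U₁.Ex l

/-- ROW LAM -/
def LAM : Prop := ForU fun T _ _ _ _ _ U _ _ => ∃ Λ, Lam T U Λ

/-- ROW NUL: the exceptional components are contracted on the fibres -/
def NUL : Prop := ForU fun T w e _ _ M U C E => ∀ (hU : Ok T U C E) (Λ : Bd M.X.X) (h : T.H M.Y),
  Lam T U Λ → Bf T M.Y h → ∀ l, U.Ex l →
  P270G.Nl T U.A l (T.pull hU.fb.fibn.hol h ^ w * T.c1 M.X Λ ^ e)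

/-- ROW RF: rigidity on the fibres -/
def RF : Prop := ForU fun _ w e _ _ _ U _ _ => ∃ S, Thin w S ∧ ∀ y ∉ S, U.Rf (e + 1) y

/-- ROW FK0 -/
def FK0 : Prop := ForU fun _ _ e _ _ M U _ _ => (∀ l, (U.m l : ℚ) ≤ U.N * M.δ l) →
  M.Fib (e + 1) 0

/-- ROW FK1 -/
def FK1 : Prop := ForU fun _ _ e _ _ M _ _ _ => ¬ M.Fib (e + 1) 1

/-- a statement on the final model -/
def ForF (P : ∀ (T : CT) (w e m : ℕ) (V : Mf (w + (e + 1))) (Q : Rd V) (F : Fd w (e + 1) w m),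
    Ud Q F.T.toFb → Bd F.T.Y.X → Prop) : Prop :=
  ∀ T : CT, T.OK → FLC T → ∀ (w e m : ℕ) (V : Mf (w + (e + 1))) (Q : Rd V)
    (F : Fd w (e + 1) w m) (A : Bd F.Z.X) (U : Ud Q F.T.toFb) C E, Ok T U C E → Cf F A →
    P T w e m V Q F U E

/-- ROW NZT -/
def NZT : Prop := ForF fun _ _ _ _ _ _ F _ _ => Nzt F

/-- ROW HOR: the horizontal components -/
def HOR : Prop := ForF fun _ _ _ m _ _ F U _ => ∀ l, (∀ j, F.A l j = 0) →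
  U.N * F.o l + m * U.m l = 0

/-- the hypotheses on the generalized pair: the class `P` need not be nef -/
structure Wk {W : Mf w} (B : Wp W) : Prop where
  cp : Cp W
  snc : Snc w B.D
  conn : ∀ j, IsConnected (B.D j)
  xp : 0 < B.x
  even : Even B.x
  klt : ∀ j, B.μ j < B.x
  yp : 0 < B.y
  hγ : HolM w B.r B.γ
  surj : Surjective B.γ
  zk : Zk B.Z B.M B.A
  lb : IsLB w B.P
  cl : cls w B.P = B.x • cls w (Bd.can w W.X) + ∑ j, B.μ j • cls w (B.Y.O j) +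
    B.y • cls w (pull B.γ B.M)

/-- the family of divisors on the base -/
abbrev wA {W : Mf w} (B : Wp W) : Pr w (Fin B.k) B.P.ι := ⟨W, B.D, B.P.U, B.P.g, fun _ _ _ => 0⟩

/-- the link between the two floors -/
structure Lk (T : CT) (U : Ud Q M) (E : Bd M.Y.X) (B : Wp M.Y) (A : M.κ → Fin B.k → ℕ) (z : ℕ) :
    Prop where
  sn : Sn M B.D A
  zp : 0 < z
  cl : T.c1 M.Y B.P = (z : ℝ) • T.c1 M.Y E
  dom : ∀ j, ∃ l, Dom M A l j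
  ex : ∀ l j, B.μ j < 0 → 0 < A l j → U.Ex l

/-- ROW WPR: the pair on the base -/
def WPR : Prop := ForF fun T _ _ _ _ _ F U E =>
  (∀ l, U.Ex l ∨ ∃ x ∈ F.T.G l, NeAt F.T.toFb l x) →
  ∃ (B : Wp F.T.Y) (A : F.T.κ → Fin B.k → ℕ) (z : ℕ), Wk B ∧ Lk T U E B A z

/-- ROW FPD: bounded poles on the base -/
def FPD : Prop := ForU fun T _ _ _ _ M U _ E => ∀ (B : Wp M.Y) A z, Wk B → Lk T U E B A z →
  Bp (wA B) B.μ U.D

/-- ROW PSB: pseudo-effective classes go down -/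
def PSB : Prop := ∀ T : CT, T.OK → ∀ (n w : ℕ) (X : Mf n) (W : Mf w) (f : X.X → W.X)
  (hf : HolM n w f) (P : Bd X.X) (E : Bd W.X) (c : ℕ), Cp X → Cp W → Surjective f → IsLB n P →
  IsLB w E → T.pull hf (T.c1 W E) = (c : ℝ) • T.c1 X P → Pse X (cls n P) → Pse W (cls w E)

/-- ROW FIBK -/
def FIBK : Prop := (∀ d ≤ 4, P285S.Mm.Ps.NVS d) → ∀ w ≤ 4, ∀ (W : Mf w) (B : Wp W), Wk B →
  Pse W (cls w B.P) → B.Fk

/-- ROW AMB -/
def AMB : Prop := ∀ (w : ℕ) (W : Mf w) (B : Wp W), Wk B → B.Fk → B.Am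

/-- ROW GDW -/
def GDW : Prop := ∀ (w : ℕ) (W : Mf w) (B : Wp W), Wk B → B.Am →
  ∃ (κ ι : Type) (_ : Fintype κ) (A : Pr w κ ι) (m : κ → ℤ) (N : ℕ) (τ : A.Z.X → W.X) (z : ℕ),
    B.Md A m N τ z ∧ ∀ l, m l < N

/-- ROW GUP -/
def GUP : Prop := ∀ T : CT, T.OK → ∀ (w : ℕ) (W : Mf w) (B : Wp W) (κ ι : Type) [Fintype κ]
  (A : Pr w κ ι) (m : κ → ℤ) (N : ℕ) (τ : A.Z.X → W.X) (z z' : ℕ) (D E : Bd W.X), Wk B →
  Pse W (cls w B.P) → B.Md A m N τ z → (∀ l, m l < N) → IsLB w D → IsLB w E →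
  P285N.Tp.Nf W D → Nf T W (T.c1 W D - T.c1 W E) → T.c1 W B.P = (z' : ℝ) • T.c1 W E →
  Bp (wA B) B.μ D → ∃ M, Gf A m N ((pull τ D).pow (z * z')) M

/-- ROW END -/
def END : Prop := ForU fun T w e _ Q M U _ _ => Sm T M.Y (T.c1 M.Y U.D) →
  NumSemiample (w + (e + 1)) Q.L

/-- **CBG** -/
def CBG : Prop := ∀ (n d : ℕ) (V : Mf n) (Q : Rd V) (D : Bd V.X) (t : D.ι → V.X → ℂ) (q : ℕ)
  (C M : Bd V.X), Q.Ok → SubPair n Q.E Q.s D t q C → Psef n C → IsLB n M → P285N.Tp.Nf V M →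
  Iso n Q.L (C.mul M) → n ≤ d + 4 →
  ¬ Neg n (P285W.Bs.Gd Co.ct V (Co.ct.c1 V Q.L) d) → NumSemiample n Q.L

end Vale.Agent.P270H
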