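import Vale.Agent.P270H.Defs
import Vale.Agent.P270G.Rfk
import Vale.Agent.P285W.Bs.All

/-!
# P270H, row DS2: the nef part descends too
-/

open scoped Manifold ContDiff Topology
open Set Filter Function
open Vale.Agent.P272.K Vale.Agent.P285.H281.FD Vale.Agent.P281Z Vale.Agent.P280Z
open Vale.Agent.P277.HD (pull)
open Vale.Agent.P285N Vale.Agent.P285W.J Vale.Agent.P285W.Bs Vale.Agent.P285W.Bs.DescX

noncomputable section

namespace Vale.Agent.P270H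

namespace D13

/-- the descent, with the maps between the models -/
theorem desc2 {T : CT} (hT : T.OK) {n b d : ℕ} {Y : Mf n} {L A : Bd Y.X} {l : T.H Y}
    (F : Tf T Y l n b) (tv : ∀ t ∉ F.Q, Tv T F.V (T.pull F.he (T.c1 Y L)) (F.π ⁻¹' {t})) (hn : n = b + d) (hd : 0 < d) (lL : IsLB n L) (lA : IsLB n A)
    (hpos : ∀ k : ℕ, Pos n ((L.pow k).mul A)) :
    ∃ (M : Mf n) (B : Mf b) (π : M.X → B.X) (e : M.X → F.V.X) (v : B.X → F.Z.X) (Q : Set F.Z.X)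
      (S : Set F.V.X) (D : Bd B.X) (δ : ℕ) (fq : Fq n b π (v ⁻¹' Q)) (he : Modif n e S),
      Modif b v Q ∧ F.Q ⊆ Q ∧ Cp M ∧ Cp B ∧ (∀ x, F.π (e x) = v (π x)) ∧ IsLB b D ∧
      Nf T B (T.c1 B D) ∧ 0 < δ ∧
      T.pull fq.hol (T.c1 B D) = (δ : ℝ) • T.pull he.hol (T.pull F.he (T.c1 Y L)) := by
  have sπ := surj F.fq
  have cV := F.cV.conn
  have cZ := F.cZ.conn
  obtain ⟨S', i, cS, hi, -, himm⟩ :=
    msec T hT n b F.V F.Z F.π ∅ F.cV F.cZ F.fq.hol sπ neg_empty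
  obtain ⟨H₀, l₀, p₀⟩ := cS.prj
  have hei : HolM b n fun x => F.e (i x) := F.he.comp hi
  obtain ⟨B, v, Q, D, H, δ, W, r, hr, y, hy, hQ, hv, pB, lD, lH, pD, hδ, cW, sr, com, cls⟩ :=
    P285W.Bs.norm T hT b S' F.Z (fun x => F.π (i x)) (pull _ L) ((pull _ A).mul H₀) F.Q cS F.cZ
      (F.fq.hol.comp hi) himm F.fq.thin (hei.lb lL) (lb_mul (hei.lb lA) l₀) fun k => by
        refine pos hT (hei.lb lL) (lb_mul (hei.lb lA) l₀) ?_
        rw [hT.c1.mul _ _ _ (hei.lb lA) l₀, hT.c1.pull hei L lL, hT.c1.pull hei A lA, ← add_assoc,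
          ← map_smul, ← map_add, add_comm]
        exact kc_add hT (hT.c1.pos _ _ l₀ p₀)
          (nn_pull hT hei (kc_nn hT (kc hT lL lA (hpos k))))
  have fq : Fq n b F.π Q := ⟨F.fq.hol, hv.thin, fun x hx => F.fq.sbm x fun c => hx (hQ c),
    fun t ht => F.fq.conn t fun c => ht (hQ c)⟩
  have cB : ConnectedSpace B.X := hv.conn
  obtain ⟨t₀, ht₀⟩ := hv.thin_pre.2.nonempty
  obtain ⟨M, πM, eM, hM, pM⟩ :=
    fpm n b b n F.V F.Z B F.π v Q rfl fq.hol hv.hol fq.thin.an fq.sbm F.cV.prj pB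
  obtain ⟨cM, fM, sM, -⟩ := fpc n b b n F.V F.Z B F.π v Q M πM eM hM fq hv.hol cB ⟨t₀, ht₀⟩
  have mM := fpb n b F.V F.Z B F.π v Q M πM eM hM fq.hol cV sπ hv
  have he' : HolM n n fun x => F.e (eM x) := F.he.comp hM.he
  have e1 : T.pull he' (T.c1 Y L) = T.pull hM.he (T.pull F.he (T.c1 Y L)) :=
    hT.rg.pull_comp hM.he F.he he' (fun _ => rfl) _
  obtain ⟨N, πN, eN, hN, pN⟩ :=
    fpm n b b n M B W πM r (v ⁻¹' Q) rfl fM.hol hr fM.thin.an fM.sbm pM cW.prj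
  obtain ⟨w₀, hw₀⟩ := sr t₀
  obtain ⟨cN, -, -, sN⟩ := fpc n b b n M B W πM r _ N πN eN hN fM hr cW.conn ⟨w₀, hw₀ ▸ ht₀⟩
  have hp : HolM n n fun x => eM (eN x) := hM.he.comp hN.he
  have key : ∀ k, T.pull hN.hπ (T.pull (hy k) (T.c1 S' (pull _ L))) =
      T.pull hN.he (T.pull he' (T.c1 Y L)) := fun k => by
    have hq : HolM n b fun x => y k (πN x) := (hy k).comp hN.hπ
    have hp' : HolM n n fun x => i (y k (πN x)) := hi.comp hq
    have e2 := eq12_of lam (crv0_of P285W.Ct.cuts negl) T hT n n b d n Y L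
      ⟨F.V, F.Z, F.π, F.e, F.Q, F.cV, F.cZ, F.fq, F.he, F.surj, tv⟩ N _ _ hp hp' hn hd lL (nef hT lL lA hpos) ⟨cN, pN⟩
      (fun x => by rw [hM.comm, hN.comm, com]) (by
        obtain ⟨z, hz⟩ := sM t₀
        obtain ⟨x, hx⟩ := sN cM sr z
        refine ⟨x, fun c => ht₀ ?_⟩
        rw [hM.comm, hx, hz] at c
        exact hQ c)
    rw [e1, ← hT.rg.pull_comp hN.he hM.he hp fun _ => rfl, e2,
      hT.rg.pull_comp hq hi hp' fun _ => rfl, hT.rg.pull_comp hN.hπ (hy k) hq fun _ => rfl,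
      hT.c1.pull hei L lL, hT.rg.pull_comp hi F.he hei fun _ => rfl]
  have e3 : T.pull fM.hol (T.c1 B D) = (δ : ℝ) • T.pull he' (T.c1 Y L) := by
    refine sub_eq_zero.1 (inj.inj T hT n n N M eN hN.he _ ⟨cN, pN⟩ ⟨cM, pM⟩ (sN cM sr) ?_)
    rw [map_sub, map_smul, ← hT.rg.pull_comp hN.he fM.hol (fM.hol.comp hN.he) fun _ => rfl,
      hT.rg.pull_comp hN.hπ hr (fM.hol.comp hN.he) hN.comm, cls, map_sum,
      Finset.sum_congr rfl fun k _ => key k, Finset.sum_const, Finset.card_univ, Fintype.card_fin,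
      Nat.cast_smul_eq_nsmul, sub_self]
  exact ⟨M, B, πM, eM, v, Q, _, D, δ, fM, mM, hv, hQ, ⟨cM, pM⟩, ⟨cB, pB⟩, hM.comm, lD,
    nef hT lD lH pD, hδ, e3.trans (congrArg _ e1)⟩

theorem lim0 {a b : ℝ} (h : ∀ k : ℕ, 0 ≤ k * a + b) : 0 ≤ a := by
  by_contra c
  obtain ⟨k, hk⟩ := exists_nat_gt (b / -a)
  have := h k
  rw [div_lt_iff₀ (by linarith)] at hk
  linarith

end D13

open D13 in
theorem ds2b : DS2 := by
  intro T hT n b d V L C M F D H₀ δ e d0 cV lL lC lM nL nM hC eL hD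
  have := cV.conn
  have := F.cZ.conn
  have := F.cV.conn
  have hμ := nf_of hT cV.prj lM nM
  obtain ⟨H, lH, pH⟩ := id cV.prj
  obtain ⟨S, hS⟩ := hD.md
  obtain ⟨d, rfl⟩ := Nat.exists_eq_succ_of_ne_zero d0.ne'
  choose a a0 s hs h0 using hC H lH pH
  have lCa := fun k => lb_pow (lb_mul (lb_pow lC k) lH) (a k)
  have th := fun k => (h0 k).elim fun i₀ h => h.elim fun x₀ h =>
    Ps.thin_z (lCa k) (hs k) (KodA.dense_nz (lCa k) (hs k) h.1 h.2)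
  obtain ⟨t₀, ht⟩ := (F.fq.thin.neg.union (negf n b F.V F.Z F.π F.Q _ F.fq
    (hS.pre_neg (Neg.iUnion fun k => (th k).neg))).1).dense.nonempty
  rw [mem_compl_iff, mem_union, not_or] at ht
  obtain ⟨x, hx, hx'⟩ := not_subset.1 ht.2
  obtain ⟨B, i, hi⟩ := fib_emb (d := d + 1) (y := t₀) e F.fq.hol
    fun x k => F.fq.sbm x (k ▸ ht.1)
  have cB : Cp B := ⟨hi.conn.2 (F.fq.conn t₀ ht.1), prj_of_imm hT hi.hol hi.imm F.cV.prj⟩
  have := cB.conn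
  obtain ⟨v, hv⟩ := (hT.po.kah B).1 (P285S.B2.kah_of hT cB.prj)
  have mv := (kc_nf hT hv).mn.pow d
  have hp := F.he.comp hi.hol
  have pc : ∀ y, T.pull hp y = T.pull hi.hol (T.pull F.he y) :=
    hT.rg.pull_comp hi.hol F.he hp fun _ => rfl
  have z1 : T.pull hp (T.c1 V L) = 0 := (pc _).trans (F.tv t₀ ht.1 _ B i hi.hol cB hi.rng.le)
  obtain ⟨y, rfl⟩ : x ∈ range i := hi.rng ▸ hx
  have z2 : 0 ≤ T.int B (T.pull hp (T.c1 V C) * v ^ d) :=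
    lim0 (b := T.int B (T.pull hp (T.c1 V H) * v ^ d)) fun k => by
      have z := ef_int hT (ef_pull hT hp (lCa k) (hs k) (Thin.pre_of_ex (th k).an hp
        ⟨y, fun c => hx' (mem_iUnion.2 ⟨k, c⟩)⟩).neg) mv
      rw [hT.c1.pow V _ _ (lb_mul (lb_pow lC k) lH), map_smul, smul_mul_assoc, map_smul,
        smul_eq_mul, mul_nonneg_iff_of_pos_left (Nat.cast_pos.2 (a0 k)),
        hT.c1.mul V _ _ (lb_pow lC k) lH, hT.c1.pow V _ _ lC, map_add, add_mul, map_add, map_smul,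
        smul_mul_assoc, map_smul, smul_eq_mul] at z
      exact z
  have z3 := congrArg (fun u => T.int B (T.pull hp u * v ^ d)) eL
  have z4 := mn_int hT ((nf_pull hT hp hμ).mn.mul mv)
  simp only [z1, map_zero, map_add, zero_mul, add_mul] at z3
  have z5 : T.pull hp (T.c1 V M) = 0 :=
    P270G.RfkH.nf_zero hT cB.conn hv (nf_pull hT hp hμ) (by linarith)
  obtain ⟨M', B', π, e', v', Q, S', D₁, δ₁, fq, he, hv', hQ, cM, cB', com, lD₁, nD₁, d1, cl⟩ :=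
    desc2 hT (A := H) F (prop_of cur2 lam T hT n b _ F.V F.Z F.π F.Q _ t₀ e d0 F.cV.prj F.cZ F.fq
      (nf_pull hT F.he hμ) ht.1 (hi.rng ▸ tvs.rng T hT _ n B F.V i hi.hol _ cB
        ((pc _).symm.trans z5))) e d0 lM lH (nM H lH pH)
  have he' : HolM n n fun x => F.e (e' x) := F.he.comp he.hol
  have e1 : ∀ z, T.pull he' z = T.pull he.hol (T.pull F.he z) :=
    hT.rg.pull_comp he.hol F.he he' fun _ => rfl
  obtain ⟨H₁, l1, p1⟩ := id cB'.prj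
  have l2 := lb_pow (hv'.hol.lb hD.lD) δ₁
  have c2 : T.c1 B' ((pull v' D).pow δ₁) = (δ₁ : ℝ) • T.pull hv'.hol (T.c1 F.Z D) := by
    rw [hT.c1.pow _ _ _ (hv'.hol.lb hD.lD), hT.c1.pull hv'.hol D hD.lD]
  obtain ⟨q, hq, q1, q2, q3⟩ := scale hT l2 l1 fun k => pos hT l2 l1 (by
    rw [add_comm, c2]
    exact P285S.B2.kc_nf_add hT (hT.c1.pos _ _ l1 p1) (nf_smul hT (Nat.cast_nonneg k) (nf_smul hT
      (Nat.cast_nonneg _) (nf_pull hT hv'.hol (nef hT hD.lD hD.lH hD.pos)))))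
  have r1 : ∀ t ∉ v' ⁻¹' Q, P285W.Bs.Tv T M' (T.pull he' (T.c1 V L)) (π ⁻¹' {t}) := fun t ht => by
    rw [e1]
    exact fun m U p hp cU hr => tvs.pre T hT n n M' F.V e' he.hol _ _
      (F.tv (v' t) fun c => ht (hQ c)) m U p hp cU
      (hr.trans fun x hx => (com x).trans (congrArg v' hx))
  have r2 : T.pull fq.hol (T.c1 B' (((pull v' D).pow δ₁).pow q)) =
      ((q * δ₁ * δ : ℕ) : ℝ) • T.pull he' (T.c1 V L) := by
    rw [hT.c1.pow B' _ q l2, c2, map_smul, map_smul,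
      ← hT.rg.pull_comp fq.hol hv'.hol (F.fq.hol.comp he.hol) com,
      hT.rg.pull_comp he.hol F.fq.hol (F.fq.hol.comp he.hol) fun _ => rfl, hD.cls, map_smul, e1,
      smul_smul, smul_smul, Nat.cast_mul, Nat.cast_mul]
  have r3 : Nf T B' (T.c1 B' (D₁.pow (q * δ))) := by
    rw [hT.c1.pow B' _ _ lD₁]
    exact nf_smul hT (Nat.cast_nonneg _) nD₁
  have r4 : T.pull fq.hol (T.c1 B' (D₁.pow (q * δ))) =
      ((q * δ₁ * δ : ℕ) : ℝ) • T.pull he' (T.c1 V M) := by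
    rw [hT.c1.pow B' _ _ lD₁, map_smul, cl, e1, smul_smul, ← Nat.cast_mul,
      Nat.mul_right_comm q δ δ₁]
  exact ⟨⟨M', B', π, fun x => F.e (e' x), v' ⁻¹' Q, cM, cB', fq, he', F.surj.comp he.surj, r1⟩,
    ((pull v' D).pow δ₁).pow q, H₁.pow q, D₁.pow (q * δ), q * δ₁ * δ,
    ⟨⟨_, hS.comp rem he⟩, lb_pow l2 q, lb_pow l1 q, q1, q2, q3,
      Nat.mul_pos (Nat.mul_pos hq d1) hD.dpos, r2⟩, lb_pow lD₁ _, r3, r4⟩

end Vale.Agent.P270H
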