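import Vale.Agent.P270H.Defs
import Vale.Agent.P285N.Xc.Cls
import Vale.Agent.P281Z.Sc.Ord
import Vale.Agent.P281Z.Nt.Neat

/-!
# P270H: the fibres have Kodaira dimension at most zero (row FK1)
-/

open scoped Topology
open Set Filter
open Vale.Agent.P272.K Vale.Agent.P285.H281.FD Vale.Agent.P281Z Vale.Agent.P285N
open Vale.Agent.P277.HD (pull)
open Vale.Agent.P277Z.Slc (lin isLB_can at_chartAt dd_congr)
open Vale.Agent.P280Z (CT)
open Vale.Agent.P285N.Tp (Rd)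
open Vale.Agent.P285T.Cb (Ud)

namespace Vale.Agent.P270H

namespace Fk39H

variable {n w d : ℕ} {V : Mf n} {Q : Rd V} {M : Fb n w} {U : Ud Q M} {T : CT}
  {C : Bd V.X} {E : Bd M.Y.X}

/-- forms on a fibre are sections of the bundle of the pair -/
theorem sy_conv (hU : Ok T U C E) {y : M.Y.X} (hy : ∀ x, M.f x = y → Sbm n w M.f x) {F : Mf d}
    {i : F.X → M.X.X} (hi : Emb d n i (M.f ⁻¹' {y})) {r j : ℕ}
    (h : Sy d n i ((Bd.can d F.X).pow r) M.G (fun l => r * (M.δ l : ℝ)) j) :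
    Sy d n i (pull i (U.P.pow r)) M.G (fun l => U.N * (r * (M.δ l : ℝ)) - (r * U.m l : ℤ)) j := by
  have hG := Hyp.of_snc hU.fb.snc
  obtain ⟨O, σ, hO⟩ := hG.exists_div
  have h0 := lb_pow (isLB_can (n := d) (W := F.X)) r
  have h1 := lb_pow h0 U.N
  have h2 := lb_lin (fun l => (hO l).lb) fun l => r * U.m l
  have lP : IsLB n U.P := hU.ok.lb
  have h3 := lb_pow lP r
  have e1 : cls n U.P = _ := Xc.cls_eq n _ _ U.m U.N U.A O σ hU.ok hO
  refine ((Sy.pow hi.hol.cont h hU.ok.pos).div hi.hol h1 hO fun l => r * U.m l).of_cls hG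
    hi.hol.cont (hi.hol.lb h3) (lb_mul h1 (hi.hol.lb h2)) ?_ fun l => le_rfl
  rw [cls_mul h1 (hi.hol.lb h2), cls_pow h0, cls_pow isLB_can,
    (cls_eq isLB_can (hi.hol.lb isLB_can)).2 (adj_iso hi hU.fb.fibn.hol hy),
    cls_pull hi.hol isLB_can, cls_pull hi.hol h2, cls_pull hi.hol h3, ← map_nsmul, ← map_nsmul,
    ← map_add, cls_pow lP, e1, cls_lin fun l => (hO l).lb, smul_add, smul_comm r U.N,
    Finset.smul_sum]
  simp only [mul_smul, natCast_zsmul]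

theorem exp_le (hU : Ok T U C E) (r : ℕ) (l : M.κ) (hl : ¬ U.Ex l) :
    (U.N * (r * (M.δ l : ℝ)) - (r * U.m l : ℤ) : ℝ) ≤ 0 := by
  have h : (U.N : ℝ) * M.δ l ≤ U.m l := by exact_mod_cast (hU.del l).resolve_left hl
  have := mul_le_mul_of_nonneg_left h r.cast_nonneg
  push_cast
  linarith

end Fk39H

open Fk39H

theorem fk139 (rf : RF) : FK1 := by
  intro T hT hF w e V Q M U C E hU h
  obtain ⟨S, hS, k⟩ := rf T hT hF w e V Q M U C E hU
  obtain ⟨S', hS', k'⟩ := genS _ _ M.X M.Y M.f M.κ M.G hU.fb.fibn.hol hU.fb.snc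
  refine h ((hS.union hS').neg.mono ?_)
  rintro y ⟨F, i, hi, r, -, h⟩
  by_contra c
  obtain ⟨s, s1, x, hx, a, ha, s2, s3⟩ := sy_conv hU (fun x hx =>
    (k' y fun c' => c (.inr c')).sbm hU.fb.fibn.hol hU.fb.snc hx) hi (kapM_iff.1 h)
  have lP : IsLB _ U.P := hU.ok.lb
  have h3 := hi.hol.lb (lb_pow lP r)
  have z : ∀ b x', i x' ∈ U.P.U b → i x' ∈ off M.G →
      s 1 b x' + -(s 1 a x / s 0 a x) * s 0 b x' = 0 := fun b x' hb hx' => by
    by_contra c'
    obtain ⟨τ, t1, t2⟩ := k y (fun c' => c (.inl c')) F i hi r _ _ (exp_le hU r)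
      ((s1 1).add ((s1 0).smul fun x' _ => P277Z.hol_const (-(s 1 a x / s 0 a x)) x'))
      ⟨b, x', hb, hx', c'⟩
    refine t1.2 x a ha ((t2 a x ha hx).symm.trans ?_)
    field_simp
    ring
  have k0 : ∀ᶠ x' in 𝓝 x, s (Fin.succ 0) a x' / s 0 a x' = s 1 a x / s 0 a x := by
    filter_upwards [((Hyp.of_snc hU.fb.snc).isOpen.preimage hi.hol.cont).mem_nhds hx,
      lb_near h3 ha, ((s1 0).hol a x trivial ha hx).ne_near s2] with x' k1 k2 k3
    rw [div_eq_iff k3]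
    exact add_neg_eq_zero.1 (neg_mul (s 1 a x / s 0 a x) _ ▸ z a x' k2 k1)
  exact (s3.2 _ (at_chartAt x)).ne_zero 0
    ((dd_congr k0 (at_chartAt x)).trans (fderiv_const_apply _))

end Vale.Agent.P270H
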