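import Vale.Agent.P270H.Defs
import Vale.Agent.P285W.J.Top

/-!
# P270H: pairs with bounded poles go up (row GUP)
-/

open Set Filter
open Vale.Agent.P272.K Vale.Agent.P285.H281.FD Vale.Agent.P281Z Vale.Agent.P280Z
open Vale.Agent.P277.HD (pull)
open Vale.Agent.P285N Vale.Agent.P285W.J
open Vale.Agent.P285S (Pse)

namespace Vale.Agent.P270H

theorem Gup32.tp {T : CT} (hT : T.OK) {n : ℕ} {V : Mf n} {L : Bd V.X} (hL : IsLB n L)
    (h : Nf T V (T.c1 V L)) : Tp.Nf V L := fun H lH pH i => by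
  obtain ⟨w, hw, h⟩ := nf_smul hT (Nat.cast_nonneg i) h
  obtain ⟨r, r0, k⟩ := kc_sub hT (hT.c1.pos V H lH pH) (nf_ty hT (nn_nf hT hw))
    (nf_dg hT (nn_nf hT hw))
  have k1 := kc_add hT (hT.po.smul _ (inv_pos.2 r0) k) (h _ (inv_pos.2 r0))
  refine hT.kp V _ (lb_mul (lb_pow hL i) lH) ?_
  rw [hT.c1.mul V _ _ (lb_pow hL i) lH, hT.c1.pow V _ _ hL]
  rwa [smul_sub, smul_smul, inv_mul_cancel₀ r0.ne', one_smul, add_comm, add_add_sub_cancel] at k1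

/-- pseudo-effective classes go up -/
theorem Gup32.ps {n : ℕ} {Y V : Mf n} {π : Y.X → V.X} {B : Set V.X} (hM : Modif n π B)
    {β : Pic n V.X} (h : Pse V β) (z : ℕ) : Pse Y (z • hM.hol.pic β) := by
  obtain ⟨h, hh⟩ := h
  refine ⟨hM.hol.pic h, fun k => ?_⟩
  obtain ⟨j, j0, D, t, h1, h2, h3, x, h4⟩ := hh (k * z)
  obtain ⟨y, rfl⟩ := hM.surj x
  refine ⟨j, j0, _, _, hM.hol.lb h1, ?_, hM.hol.sec h3, y, h4⟩
  rw [cls_pull hM.hol h1, h2, map_nsmul, map_add, map_nsmul, mul_smul]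

/-- row GUP -/
theorem gup32 (fpu : FPU) : GUP := by
  intro T hT w W B κ ι _ A m N τ z z' D E hB hp h klt lD lE nD nE e hb
  obtain ⟨S, hM⟩ := h.md
  have hτ := hM.hol
  have l1 := hτ.lb lD
  have lL := lb_pow l1 (z * z')
  have l2 := lb_zp hB.lb (-(1 : ℕ))
  have l3 := lb_mul (lb_pow lD z') l2
  have lM := lb_pow (hτ.lb l3) z
  obtain ⟨H, C, a1, a2, hC⟩ := fpu w _ _ κ ι (wA B) A B.μ m τ S D hB.cp h.ok.prj hB.snc h.ok.snc hM
    lD h.off h.neg hb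
  refine ⟨(pull τ ((D.pow z').mul (zp B.P (-(1 : ℕ))))).pow z, ⟨h.ok, klt, lL, Gup32.tp hT lL ?_, lM,
    Gup32.tp hT lM ?_, ?_⟩, ?_, H, C, a1, a2, fun k i n M s m1 m2 => hC k (i * (z * z')) n M s m1 ?_⟩
  · rw [hT.c1.pow _ _ _ l1, hT.c1.pull hτ _ lD]
    exact nf_smul hT (Nat.cast_nonneg _) (nf_pull hT hτ (nf_of hT hB.cp.prj lD nD))
  · rw [hT.c1.pow _ _ _ (hτ.lb l3), hT.c1.pull hτ _ l3, hT.c1.mul _ _ _ (lb_pow lD z') l2,
      c1_zp hT hB.lb, hT.c1.pow _ _ _ lD, e, Nat.cast_one, one_smul, ← sub_eq_add_neg, ← smul_sub]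
    exact nf_smul hT (Nat.cast_nonneg _) (nf_pull hT hτ (nf_smul hT (Nat.cast_nonneg _) nE))
  · rw [h.cl, cls_pow l1, cls_pow (hτ.lb l3), cls_pull hτ l3, cls_mul (lb_pow lD z') l2,
      cls_zp hB.lb, cls_pow lD, cls_pull hτ lD, cls_pull hτ hB.lb]
    simp [mul_smul]
  · rw [h.cl, cls_pull hτ hB.lb]
    exact Gup32.ps hM hp z
  · rw [m2, cls_pow l1, smul_smul]

end Vale.Agent.P270H
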