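import Vale.Agent.P270H.Defs
import Vale.Agent.P285T.Cb.Hor

/-!
# P270H: the orders along the horizontal components
-/

open scoped Manifold ContDiff Topology
open Set Filter Function
open Vale.Agent.P272.K Vale.Agent.P285.H281.FD Vale.Agent.P281Z Vale.Agent.P280Z
open Vale.Agent.P277Z (Hol Nz at_chart hol_const)

noncomputable section

namespace Vale.Agent.P270H

open P285T.Cb.HorH in
theorem hor_of (hR : RF) : HOR := by
  intro T hT hC w e m V Q F A U C E hU hF l hl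
  obtain ⟨S, hS, hf⟩ := hR T hT hC w e V Q _ U C E hU
  have sn := hF.or.sn
  have nQ : ∀ {y}, y ∈ off F.D → y ∉ F.d.Q := fun k => by
    rw [hF.or.hQ]
    exact not_not.2 k
  obtain ⟨x₀, hx₀⟩ := (hU.conn l).nonempty
  obtain ⟨x₁, h1, h2⟩ := ((Pk.geny _ _ _ _ _ _ sn).2.2 l hl x₀ hx₀).exists
  obtain ⟨i, hi⟩ := hF.or.ok.base.lb.cover (F.T.f x₁)
  obtain ⟨a, ha⟩ := hU.ok.lb.cover x₁
  obtain ⟨ζ, hζ, -⟩ := sn.ok.snc x₁
  obtain ⟨β, b1, -, b3, b4⟩ := hF.or.ot i _ x₁ hi (at_chart x₁) ζ hζ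
  have hol := sn.ok.fibn.hol
  obtain ⟨x₂, ⟨c1, c2⟩, c3⟩ := ((b4 l h1).and_eventually (h2.and (b1.near.and
    (b3.eventually_nhds.and ((eventually_all.2 fun l => (hζ l).near).and
      ((at_near (at_chart (n := w + (e + 1)) x₁)).and ((lb_near hU.ok.lb ha).and
        (hol.cont.continuousAt.eventually
          (lb_near hF.or.ok.base.lb hi)))))))).eventually_nhds).exists
  obtain ⟨y, d1, z, d2, rfl, ⟨d3, d4, d5, d6, d7, d8, d9⟩, d0⟩ := ((hS.freq _).and_eventually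
    (opnG hol sn.ok.snc (sn.reg _ (c3.self_of_nhds.1 c1)) c1
      (c3.and (c3.self_of_nhds.2.1.ne_near c2)))).exists
  have hr := sn.reg _ (d3 d2)
  obtain ⟨Φ, j, hj, hs⟩ := hr.fib (d := e + 1) rfl hol sn.ok.snc
  obtain ⟨x, rfl⟩ : z ∈ range j := hj.rng.symm ▸ rfl
  have ht : Nr U.A m (F.d.t i) j := fun v => by
    filter_upwards [hol.cont.continuousAt.eventually
      (lb_near hF.or.ok.base.lb (hj.fib v ▸ d9 : F.T.f (j v) ∈ F.d.l.U i))] with z k1 k2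
    have k3 : z ∈ F.d.E.O i := ⟨⟨k1, nQ (sn.pre z k2)⟩, k2⟩
    exact ⟨fun c => hF.or.ok.thol i c z k3, fun c c' => hF.or.ok.tchg i c c' z k3⟩
  refine fin hU.ok hj.hol ht hs d7 d8 d6 (hr.leq hol hj d6) d4 d0 d5 d2
    (hf _ d1 Φ j hj m _ _ (fun l k => ?_) (secP hU.ok hj.hol ht fun v =>
      (hF.sec i).bdP ⟨hj.fib v ▸ d9, hj.fib v ▸ nQ (d3 d2)⟩ (at_chart (j v))))
  have k1 : (U.N : ℝ) * (F.T.δ l : ℝ) ≤ U.m l := by exact_mod_cast (hU.del l).resolve_left k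
  push_cast
  nlinarith [Nat.cast_nonneg (α := ℝ) m]

end Vale.Agent.P270H
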