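import Vale.Agent.P270H.Defs
import Vale.Agent.P285N.Xc.Gg
import Vale.Agent.P285N.Xc.Pa
import Vale.Agent.P285N.Xc.Piso

/-!
# P270H: row PH0
-/

open scoped Topology
open Set Filter
open Vale.Agent.P272.K Vale.Agent.P285.H281.FD Vale.Agent.P281Z
open Vale.Agent.P277Z.Slc (lin)
open Vale.Agent.P277.HD (pull)
open Vale.Agent.P285N

namespace Vale.Agent.P270H

theorem ph061 (hU : FPU) : PH0 := by
  intro d κ ι _ A m N O σ φ c L Q hI R H Ψ hc hH hR hZ hG hB l₀
  classical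
  subst hc
  by_contra p0
  have hπ := hR.md.hol
  let m' : R.κ' → ℤ := fun l => if R.Φ l ≠ 0 ∨ R.φ l ≠ 0 then -1 else 0
  have ho : ∀ y ∈ off R.B.G, R.π y ∈ off A.G := fun y hy k h =>
    let ⟨l, h1, _⟩ := hR.pre y k h; hy l h1
  obtain ⟨H', C, h1, h2, hF⟩ := hU d κ ι _ _ A R.B _ m' R.π _ L ⟨hI.ok.conn, hI.ok.prj⟩ hR.ok.prj
    hI.ok.snc hR.ok.snc hR.md hI.lb
    (fun y hy => ⟨ho y hy, hR.md.imm fun ⟨k, _, h⟩ => ho y hy k h⟩)
    (fun l hl y hy => .inr (
      let ⟨k, a, b⟩ := hR.sup l (by_contra fun h => by simp [m', if_neg h] at hl) y hy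
      ⟨k, by omega, b⟩)) hB
  have lH := hπ.lb hH
  have lL := hπ.lb hI.lb
  have hB' : ∀ b, IsLB d (![H', pull R.π H] b) := Fin.forall_fin_two.2 ⟨h1, lH⟩
  obtain ⟨j, hj⟩ := Xc.gg_of Xc.pa d R.B.Z (Fin 2) ![H', pull R.π H] ![1, 0] ![0, -1] hB'
    (Xc.piso d _ H' _ h1 (lb_lin hB' _) (by rw [cls_lin hB']; simp) h2)
  obtain ⟨W, w1, w2⟩ := hj j le_rfl
  have hV := lb_lin hB' (![0, -1] + j • ![1, 0])
  have eV : cls d (lin ![H', pull R.π H] (![0, -1] + j • ![1, 0])) =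
      j • cls d H' - cls d (pull R.π H) := by
    rw [cls_lin hB', sub_eq_add_neg]
    simp
  set V := lin ![H', pull R.π H] (![0, -1] + j • ![1, 0])
  obtain ⟨x, y, y0, hx, hf⟩ := hZ.free (C * (R.δ * j + 1))
  have lO := fun l => (hR.div l).lb
  have l0 := lb_lin lO fun l => (Ψ l : ℤ)
  have l3 := lb_mul (lb_pow lH R.δ) l0
  have hM := lb_mul (lb_pow hR.lbQ x) (lb_pow l3 y)
  have e : cls d ((R.Q.pow x).mul (((((pull R.π H).pow R.δ).mul
      (lin R.O fun l => (Ψ l : ℤ)))).pow y)) = x • cls d R.Q +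
      y • (R.δ • cls d (pull R.π H) + ∑ l, Ψ l • cls d (R.O l)) := by
    rw [cls_mul (lb_pow hR.lbQ x) (lb_pow l3 y), cls_pow hR.lbQ, cls_pow l3,
      cls_mul (lb_pow lH _) l0, cls_pow lH, cls_lin lO]
    simp only [natCast_zsmul]
  obtain ⟨z, hz⟩ := (hG l₀).nonempty
  obtain ⟨s, hs, h0⟩ := hf _ hM e z
  obtain ⟨v, v1, v2⟩ := w2 z
  have hv := w1 v v1
  let k : R.κ' → ℤ := fun l => -((x * R.φ l + y * Ψ l : ℕ) : ℤ)
  have l1 := lb_mul hM (lb_pow hV (y * R.δ))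
  have l2 := holM_id.lb (lb_lin lO k)
  have h3 := hF (y * R.δ * j) (x * R.δ) (∑ l, (x * R.φ l + y * Ψ l)) _ _ (lb_mul l1 l2) (by
      rw [cls_mul l1 l2, cls_mul hM (lb_pow hV _), cls_pow hV, e, eV, ← one_smul ℕ (cls d R.Q),
        hR.eff]
      refine (congrArg (_ + ·) (cls_lin lO k)).trans ?_
      have : ∑ l, k l • cls d (R.O l) =
          -(x • ∑ l, R.φ l • cls d (R.O l) + y • ∑ l, Ψ l • cls d (R.O l)) := by
        rw [Finset.smul_sum, Finset.smul_sum, ← Finset.sum_add_distrib, ← Finset.sum_neg_distrib]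
        exact Finset.sum_congr rfl fun l _ => by
          rw [neg_smul, natCast_zsmul, add_smul, mul_smul, mul_smul]
      rw [this]
      module)
    ((((secP_of_sec (c := fun _ => 0) continuous_id hs fun _ => le_rfl).mul continuous_id
      ((secP_of_sec (c := fun _ => 0) continuous_id hv fun _ => le_rfl).pow continuous_id _)).mul
      continuous_id (secP_div holM_id hR.div k).1).mono continuous_id fun l => by
        have q : x * R.φ l + y * Ψ l ≤ (∑ l, (x * R.φ l + y * Ψ l)) * (-m' l).toNat := by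
          by_cases h : R.Φ l ≠ 0 ∨ R.φ l ≠ 0
          · simpa [m', if_pos h] using Finset.single_le_sum (f := fun l => x * R.φ l + y * Ψ l)
              (fun _ _ => Nat.zero_le _) (Finset.mem_univ l)
          · rw [not_not.1 fun a => h (.inr a), not_not.1 fun a => h (.inl (hZ.psi l a))]
            exact Nat.zero_le _
        rw [mul_zero, zero_add, zero_add, Int.cast_neg, neg_neg, Int.cast_natCast]
        exact Nat.cast_le.2 q)
  obtain ⟨a, ha⟩ := hM.cover z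
  obtain ⟨b, hb⟩ := hV.cover z
  choose g hg using fun l => (lO l).cover z
  have u0 : s a z * v b z ^ (y * R.δ) ≠ 0 := mul_ne_zero (h0 a ha) (pow_ne_zero _ (v2 b hb))
  have h4 := ((ordAt_of_one (k := k)
    (u := fun w => s a w * v b w ^ (y * R.δ) * ∏ l, R.σ l (g l) w ^ k l)
    (fun l => (hR.div l).leq _ z (hg l)) ((sec_hol hs ha).mul ((sec_hol hv hb).pow _))
    (fun h => u0 h.self_of_nhds) (.of_forall fun _ _ => rfl)
    fun l hl h => h.self_of_nhds ⟨hl, u0⟩).bdP_iff hR.ok.snc).1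
    (h3.bdP (a := ((a, b), g)) trivial ⟨⟨ha, hb⟩, hg⟩) l₀ hz
  rw [show (-m' l₀).toNat = 1 by simp [m', p0], mul_one, Int.cast_neg, Int.cast_natCast,
    ← sub_eq_add_neg, sub_nonneg, Nat.cast_le] at h4
  have q1 : x ≤ x * R.φ l₀ := Nat.le_mul_of_pos_right _ (Nat.pos_of_ne_zero p0)
  have q2 : C * (y * R.δ * j + 1) ≤ C * (R.δ * j + 1) * y := by
    rw [mul_assoc C, add_mul, one_mul, mul_comm _ y, mul_assoc]
    gcongr
    exact y0
  omega

end Vale.Agent.P270H
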